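import Vale.Agent.P167.H816.Bank

/-!
# P167: exploration

* `stop_le`: the unexplored region `E ω` is determined by the configuration off `E ω`;
* squares around a site.
-/

set_option autoImplicit false
set_option linter.unusedSectionVars false

namespace Vale.Agent.P167.H816

open Finset Vale.Agent.P167.FK
open Vale.Agent.P145.FB (PStep PConn)

variable {Q : ℝ} {D : Finset (ℤ × ℤ)} {η : Cfg}

/-- **Exploration**: `E ω` (the unexplored squares) and `A` are determined by `ω` off `E ω`. -/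
theorem stop_le (hQ : 0 < Q) (hη : Good η) {E : Cfg → Finset (ℤ × ℤ)} {A F : Set Cfg}
    (hE : ∀ ω, E ω ⊆ D) (hself : ∀ ω ω' : Cfg, (∀ v, v ∉ E ω → ω v = ω' v) → E ω' = E ω)
    (hA : ∀ ω ω' : Cfg, (∀ v, v ∉ E ω → ω v = ω' v) → (ω ∈ A ↔ ω' ∈ A)) {c : ℝ}
    (h : ∀ S ⊆ D, cf D η S ∈ A → c ≤ Pr Q (E (cf D η S)) (cf D η S) F) :
    c * Pr Q D η A ≤ Pr Q D η (A ∩ F) := by
  classical
  -- the indicator of `A` and `E = E₀`
  set G : Finset (ℤ × ℤ) → Cfg → ℝ := fun E₀ ω => if ω ∈ A ∧ E ω = E₀ then 1 else 0 with hG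
  have hind : ∀ E₀, FKA.Ind E₀ (G E₀) := by
    intro E₀ ω ω' hωω'
    have key : ∀ ω ω' : Cfg, (∀ v, v ∉ E₀ → ω v = ω' v) → (ω ∈ A ∧ E ω = E₀) →
        (ω' ∈ A ∧ E ω' = E₀) := by
      rintro ω ω' h1 ⟨h2, h3⟩
      rw [← h3] at h1
      exact ⟨(hA ω ω' h1).1 h2, (hself ω ω' h1).trans h3⟩
    have h1 : (ω ∈ A ∧ E ω = E₀) ↔ (ω' ∈ A ∧ E ω' = E₀) :=
      ⟨key ω ω' hωω', key ω' ω fun v hv => (hωω' v hv).symm⟩
    simp only [hG, h1]
  have hsum : ∀ ω, ∑ E₀ ∈ D.powerset, G E₀ ω = if ω ∈ A then 1 else 0 := by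
    intro ω
    by_cases hω : ω ∈ A
    · rw [if_pos hω, sum_eq_single (E ω)]
      · simp [hG, hω]
      · intro E₀ _ hne
        simp only [hG]
        rw [if_neg]
        exact fun h => hne h.2.symm
      · exact fun h => absurd (mem_powerset.2 (hE ω)) h
    · rw [if_neg hω]
      refine sum_eq_zero fun E₀ _ => ?_
      simp [hG, hω]
  have e1 : c * Pr Q D η A = ∑ E₀ ∈ D.powerset, Ex Q D η (fun ω => G E₀ ω * c) := by
    rw [← FKA.Ex_sum, Pr, ← FKA.Ex_mul_left]
    refine FKA.Ex_congr fun S _ => ?_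
    rw [← sum_mul, hsum, Set.indicator_apply, mul_comm]
    rfl
  have e2 : Pr Q D η (A ∩ F) =
      ∑ E₀ ∈ D.powerset, Ex Q D η (fun ω => G E₀ ω * F.indicator 1 ω) := by
    rw [← FKA.Ex_sum, Pr]
    refine FKA.Ex_congr fun S _ => ?_
    rw [← sum_mul, hsum, FKA.ind_inter, Set.indicator_apply]
    rfl
  rw [e1, e2]
  refine sum_le_sum fun E₀ hE₀ => ?_
  have h3 := FKA.markov (F := F.indicator 1) H259.f_markov hQ (mem_powerset.1 hE₀) hη (hind E₀)
  rw [h3]
  refine FKA.Ex_mono hQ fun S hS => ?_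
  by_cases h1 : cf D η S ∈ A ∧ E (cf D η S) = E₀
  · have h2 := h S hS h1.1
    rw [h1.2] at h2
    simp only [hG, if_pos h1, one_mul]
    exact h2
  · simp only [hG, if_neg h1, zero_mul]
    exact le_rfl

/-! ### The squares around a site -/

/-- `s` is an even corner of the square `b`. -/
def Co (s b : ℤ × ℤ) : Prop := s = pa b ∨ s = pb b

/-- `f` is a neighbour of the site `s`. -/
def Nb (s f : ℤ × ℤ) : Prop :=
  f = (s.1 + 1, s.2) ∨ f = (s.1 - 1, s.2) ∨ f = (s.1, s.2 + 1) ∨ f = (s.1, s.2 - 1)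

theorem Co.even {s b : ℤ × ℤ} (h : Co s b) : Even (s.1 + s.2) := by
  rcases h with rfl | rfl
  · exact even_pa b
  · exact even_pb b

/-- The four squares around a site. -/
def four (s : ℤ × ℤ) : Finset (ℤ × ℤ) := {(s.1, s.2), (s.1 - 1, s.2), (s.1, s.2 - 1),
  (s.1 - 1, s.2 - 1)}

theorem Co_iff {s b : ℤ × ℤ} (hs : Even (s.1 + s.2)) : Co s b ↔ b ∈ four s := by
  obtain ⟨s1, s2⟩ := s
  obtain ⟨b1, b2⟩ := b
  simp only [four, mem_insert, mem_singleton, Prod.mk.injEq, Co, pa, pb]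
  simp only at hs
  rw [Int.even_iff] at hs
  by_cases h : Even (b1 + b2)
  · rw [if_pos h, if_pos h]
    rw [Int.even_iff] at h
    simp only [Prod.mk.injEq]
    omega
  · rw [if_neg h, if_neg h]
    rw [Int.even_iff] at h
    simp only [Prod.mk.injEq]
    omega

/-- The odd corners of a square are neighbours of the even corners. -/
theorem Co.nb {s b : ℤ × ℤ} (h : Co s b) : Nb s (da b) ∧ Nb s (db b) := by
  obtain ⟨s1, s2⟩ := s
  obtain ⟨b1, b2⟩ := b
  simp only [Nb, Co, pa, pb, da, db] at h ⊢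
  by_cases h' : Even (b1 + b2)
  · simp only [if_pos h', Prod.mk.injEq] at h ⊢
    omega
  · simp only [if_neg h', Prod.mk.injEq] at h ⊢
    omega

/-- If the four squares around `s` are closed then the neighbours of `s` are dually joined. -/
theorem nb_join {χ : Cfg} {s : ℤ × ℤ} (h : ∀ b ∈ four s, χ b = false) {f g : ℤ × ℤ}
    (hf : Nb s f) (hg : Nb s g) : DC χ f g := by
  obtain ⟨s1, s2⟩ := s
  have h1 : χ (s1, s2) = false := h _ (by simp [four])
  have h2 : χ (s1 - 1, s2) = false := h _ (by simp [four])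
  have h3 : χ (s1, s2 - 1) = false := h _ (by simp [four])
  have h4 : χ (s1 - 1, s2 - 1) = false := h _ (by simp [four])
  have cl : ∀ b, χ b = false → b ∈ (op χ)ᶜ := fun b hb => by simpa [op] using hb
  -- the steps
  have en : DC χ (s1 + 1, s2) (s1, s2 + 1) := Relation.ReflTransGen.single
    ⟨Or.inr (by simp), Or.inl rfl, cl _ (by
      have : (min (s1 + 1) s1, min s2 (s2 + 1)) = (s1, s2) := by ext <;> simp
      rw [this]; exact h1)⟩
  have wn : DC χ (s1 - 1, s2) (s1, s2 + 1) := Relation.ReflTransGen.single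
    ⟨Or.inl (by simp), Or.inl rfl, cl _ (by
      have : (min (s1 - 1) s1, min s2 (s2 + 1)) = (s1 - 1, s2) := by ext <;> simp
      rw [this]; exact h2)⟩
  have es : DC χ (s1 + 1, s2) (s1, s2 - 1) := Relation.ReflTransGen.single
    ⟨Or.inr (by simp), Or.inr rfl, cl _ (by
      have : (min (s1 + 1) s1, min s2 (s2 - 1)) = (s1, s2 - 1) := by ext <;> simp
      rw [this]; exact h3)⟩
  have key : ∀ f, Nb (s1, s2) f → DC χ (s1 + 1, s2) f := by
    rintro f (h | h | h | h) <;> rw [h]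
    · exact Relation.ReflTransGen.refl
    · exact en.trans (DC_symm wn)
    · exact en
    · exact es
  exact (DC_symm (key f hf)).trans (key g hg)

end Vale.Agent.P167.H816
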