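import Vale.Agent.P167.H816.Cmp

/-!
# P167: comparison of boundary conditions for `0 < Q ≤ 1`, in terms of `FK.Pr`

* `t1_gen`: the probability that `w` is joined to the set `T` increases when the cluster of `w` outside
  of the domain grows; `t1_two`: the same for two sites `u`, `v`, both clusters may grow;
* `bk`: the form with banks; `bk_dual`: the dual form (the two free arcs of the boundary between the two
  sites grow, the probability decreases);
* `odds`: joining the two sites outside of the domain multiplies the odds by `Q ^ 2`.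
-/

set_option autoImplicit false
set_option linter.unusedSectionVars false

namespace Vale.Agent.P167.H816

open Finset Vale.Agent.P167.FK
open Vale.Agent.P145.FB (PStep PConn)
open Vale.Agent.P167.H623 (join sup_join)

variable {Q : ℝ} {D E P : Finset (ℤ × ℤ)} {η ζ ω : Cfg}

theorem Pr_eq_GP (hQ : 0 < Q) (hη : Good η) (D : Finset (ℤ × ℤ)) (A : Set Cfg) :
    Pr Q D η A = GP pa pb (fun _ => Q) (Q ^ 2) D (PCs (cf D η ∅)) (fun S => cf D η S ∈ A) := by
  classical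
  rw [Pr, Ex_eq_GE hQ hη, GP]
  refine GE_congr (pow_pos hQ 2) (fun _ _ _ _ => Iff.rfl) fun S _ => ?_
  rw [Set.indicator_apply]
  rfl

theorem Pr_eq_GP_dual (hQ : 0 < Q) (hη : Good η) (D : Finset (ℤ × ℤ)) (A : Set Cfg) :
    Pr Q D η A =
      GP da db (fun _ => Q) (Q ^ 2) D (DCs (cf D η D)) (fun S => cf D η (D \ S) ∈ A) := by
  classical
  rw [Pr, Ex_eq_GE_dual hQ hη, GP]
  refine GE_congr (pow_pos hQ 2) (fun _ _ _ _ => Iff.rfl) fun S _ => ?_
  rw [Set.indicator_apply]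
  rfl

/-- Some site of `T` is joined to `x`. -/
def PJ (T : Set (ℤ × ℤ)) (x : ℤ × ℤ) : Set Cfg := {ω | ∃ t ∈ T, PC ω t x}

/-- Some site of `T` is dually joined to `x`. -/
def DJ (T : Set (ℤ × ℤ)) (x : ℤ × ℤ) : Set Cfg := {ω | ∃ t ∈ T, DC ω t x}

/-- The even corners of the squares of `D`. -/
def Ev (D : Finset (ℤ × ℤ)) : Set (ℤ × ℤ) := {x | ∃ e ∈ D, x = pa e ∨ x = pb e}

/-- The odd corners of the squares of `D`. -/
def Od (D : Finset (ℤ × ℤ)) : Set (ℤ × ℤ) := {x | ∃ e ∈ D, x = da e ∨ x = db e}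

theorem even_Ev {x : ℤ × ℤ} (h : x ∈ Ev D) : Even (x.1 + x.2) := by
  obtain ⟨e, -, rfl | rfl⟩ := h
  · exact even_pa e
  · exact even_pb e

theorem odd_Od {x : ℤ × ℤ} (h : x ∈ Od D) : Odd (x.1 + x.2) := by
  obtain ⟨e, -, rfl | rfl⟩ := h
  · exact odd_da e
  · exact odd_db e

theorem Pr_PJ (hQ : 0 < Q) (hη : Good η) (D : Finset (ℤ × ℤ)) {T : Set (ℤ × ℤ)} {x : ℤ × ℤ}
    (hT : ∀ t ∈ T, Even (t.1 + t.2)) : Pr Q D η (PJ T x) =
      GP pa pb (fun _ => Q) (Q ^ 2) D (PCs (cf D η ∅)) (Jo pa pb (PCs (cf D η ∅)) T x) := by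
  rw [Pr_eq_GP hQ hη]
  refine GP_congr pa pb D (pow_pos hQ 2) (fun _ _ _ _ => Iff.rfl) fun S hS => ?_
  constructor
  · rintro ⟨t, ht, h⟩
    exact ⟨t, ht, (PC_cf hS (hT t ht)).1 h⟩
  · rintro ⟨t, ht, h⟩
    exact ⟨t, ht, (PC_cf hS (hT t ht)).2 h⟩

theorem Pr_DJ (hQ : 0 < Q) (hη : Good η) (D : Finset (ℤ × ℤ)) {T : Set (ℤ × ℤ)} {x : ℤ × ℤ}
    (hT : ∀ t ∈ T, Odd (t.1 + t.2)) : Pr Q D η (DJ T x) =
      GP da db (fun _ => Q) (Q ^ 2) D (DCs (cf D η D)) (Jo da db (DCs (cf D η D)) T x) := by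
  rw [Pr_eq_GP_dual hQ hη]
  refine GP_congr da db D (pow_pos hQ 2) (fun _ _ _ _ => Iff.rfl) fun S hS => ?_
  constructor
  · rintro ⟨t, ht, h⟩
    exact ⟨t, ht, (DC_cf hS (hT t ht)).1 h⟩
  · rintro ⟨t, ht, h⟩
    exact ⟨t, ht, (DC_cf hS (hT t ht)).2 h⟩

/-! ### One domain, two exteriors -/

theorem pow_le_one' (hQ : 0 < Q) (hQ1 : Q ≤ 1) : Q ^ 2 ≤ 1 := pow_le_one₀ hQ.le hQ1

/-- **T1**, one domain: the cluster of `x` outside of `E` grows from `ω` to `η`. -/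
theorem t1_same (hQ : 0 < Q) (hQ1 : Q ≤ 1) (hω : Good ω) (hη : Good η) {T : Set (ℤ × ℤ)}
    {x : ℤ × ℤ} (hT : ∀ t ∈ T, Even (t.1 + t.2)) (hx : Even (x.1 + x.2))
    (h1 : ∀ s ∈ Ev E ∪ T ∪ {x}, ∀ t ∈ Ev E ∪ T ∪ {x},
      PC (cf E ω ∅) s t → PC (cf E η ∅) s t)
    (h2 : ∀ s ∈ Ev E ∪ T ∪ {x}, ∀ t ∈ Ev E ∪ T ∪ {x},
      PC (cf E η ∅) s t → PC (cf E ω ∅) s t ∨ (PC (cf E η ∅) s x ∧ PC (cf E η ∅) t x)) :
    Pr Q E ω (PJ T x) ≤ Pr Q E η (PJ T x) := by
  have hev : ∀ s ∈ Ev E ∪ T ∪ {x}, Even (s.1 + s.2) := by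
    rintro s ((hs | hs) | hs)
    · exact even_Ev hs
    · exact hT s hs
    · rw [Set.mem_singleton_iff] at hs
      rw [hs]; exact hx
  rw [Pr_PJ hQ hω E hT, Pr_PJ hQ hη E hT]
  refine t1_rel pa pb E (fun _ => hQ.le) (pow_pos hQ 2) (pow_le_one' hQ hQ1)
    (Y := Ev E ∪ T ∪ {x}) (fun y hy => Or.inl (Or.inl ((mem_ends pa pb E).1 hy)))
    (fun t ht => Or.inl (Or.inr ht)) (Or.inr rfl) ?_ ?_
  · intro s hs t ht h
    rw [PCs_iff (hev s hs)] at h ⊢
    exact h1 s hs t ht h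
  · intro s hs t ht h
    rw [PCs_iff (hev s hs)] at h
    rw [PCs_iff (hev s hs), PCs_iff (hev s hs), PCs_iff (hev t ht)]
    exact h2 s hs t ht h

/-- T1, dual form: the dual cluster of `x` outside of `E` grows from `ω` to `η`. -/
theorem t1_same_dual (hQ : 0 < Q) (hQ1 : Q ≤ 1) (hω : Good ω) (hη : Good η) {T : Set (ℤ × ℤ)}
    {x : ℤ × ℤ} (hT : ∀ t ∈ T, Odd (t.1 + t.2)) (hx : Odd (x.1 + x.2))
    (h1 : ∀ s ∈ Od E ∪ T ∪ {x}, ∀ t ∈ Od E ∪ T ∪ {x},
      DC (cf E ω E) s t → DC (cf E η E) s t)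
    (h2 : ∀ s ∈ Od E ∪ T ∪ {x}, ∀ t ∈ Od E ∪ T ∪ {x},
      DC (cf E η E) s t → DC (cf E ω E) s t ∨ (DC (cf E η E) s x ∧ DC (cf E η E) t x)) :
    Pr Q E ω (DJ T x) ≤ Pr Q E η (DJ T x) := by
  have hev : ∀ s ∈ Od E ∪ T ∪ {x}, Odd (s.1 + s.2) := by
    rintro s ((hs | hs) | hs)
    · exact odd_Od hs
    · exact hT s hs
    · rw [Set.mem_singleton_iff] at hs
      rw [hs]; exact hx
  rw [Pr_DJ hQ hω E hT, Pr_DJ hQ hη E hT]
  refine t1_rel da db E (fun _ => hQ.le) (pow_pos hQ 2) (pow_le_one' hQ hQ1)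
    (Y := Od E ∪ T ∪ {x}) (fun y hy => Or.inl (Or.inl ((mem_ends da db E).1 hy)))
    (fun t ht => Or.inl (Or.inr ht)) (Or.inr rfl) ?_ ?_
  · intro s hs t ht h
    rw [DCs_iff (hev s hs)] at h ⊢
    exact h1 s hs t ht h
  · intro s hs t ht h
    rw [DCs_iff (hev s hs)] at h
    rw [DCs_iff (hev s hs), DCs_iff (hev s hs), DCs_iff (hev t ht)]
    exact h2 s hs t ht h

/-- T1 with two roots, one domain. -/
theorem t1_same₂ (hQ : 0 < Q) (hQ1 : Q ≤ 1) (hω : Good ω) (hη : Good η) {u v : ℤ × ℤ}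
    (hu : Even (u.1 + u.2)) (hv : Even (v.1 + v.2))
    (h1 : ∀ s ∈ Ev E ∪ {u, v}, ∀ t ∈ Ev E ∪ {u, v}, PC (cf E ω ∅) s t → PC (cf E η ∅) s t)
    (h2 : ∀ s ∈ Ev E ∪ {u, v}, ∀ t ∈ Ev E ∪ {u, v}, PC (cf E η ∅) s t → PC (cf E ω ∅) s t ∨
      (PC (cf E η ∅) s u ∧ PC (cf E η ∅) t u) ∨ (PC (cf E η ∅) s v ∧ PC (cf E η ∅) t v)) :
    Pr Q E ω {ω | PC ω u v} ≤ Pr Q E η {ω | PC ω u v} := by
  have hev : ∀ s ∈ Ev E ∪ {u, v}, Even (s.1 + s.2) := by
    rintro s (hs | hs | hs)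
    · exact even_Ev hs
    · rw [hs]; exact hu
    · rw [Set.mem_singleton_iff] at hs
      rw [hs]; exact hv
  have key : ∀ {ω : Cfg}, Good ω → Pr Q E ω {ω | PC ω u v} =
      GP pa pb (fun _ => Q) (Q ^ 2) E (PCs (cf E ω ∅))
        (fun S => con pa pb (PCs (cf E ω ∅)) S u v) := by
    intro ω hω
    rw [Pr_eq_GP hQ hω]
    exact GP_congr pa pb E (pow_pos hQ 2) (fun _ _ _ _ => Iff.rfl) fun S hS => PC_cf hS hu
  rw [key hω, key hη]
  refine t1_rel₂ pa pb E (fun _ => hQ.le) (pow_pos hQ 2) (pow_le_one' hQ hQ1)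
    (Y := Ev E ∪ {u, v}) (fun y hy => Or.inl ((mem_ends pa pb E).1 hy))
    (Or.inr (Or.inl rfl)) (Or.inr (Or.inr rfl)) ?_ ?_
  · intro s hs t ht h
    rw [PCs_iff (hev s hs)] at h ⊢
    exact h1 s hs t ht h
  · intro s hs t ht h
    rw [PCs_iff (hev s hs)] at h
    rw [PCs_iff (hev s hs), PCs_iff (hev s hs), PCs_iff (hev t ht), PCs_iff (hev s hs),
      PCs_iff (hev t ht)]
    exact h2 s hs t ht h

/-- T1 with two roots, one domain, dual form. -/
theorem t1_same₂_dual (hQ : 0 < Q) (hQ1 : Q ≤ 1) (hω : Good ω) (hη : Good η) {u v : ℤ × ℤ}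
    (hu : Odd (u.1 + u.2)) (hv : Odd (v.1 + v.2))
    (h1 : ∀ s ∈ Od E ∪ {u, v}, ∀ t ∈ Od E ∪ {u, v}, DC (cf E ω E) s t → DC (cf E η E) s t)
    (h2 : ∀ s ∈ Od E ∪ {u, v}, ∀ t ∈ Od E ∪ {u, v}, DC (cf E η E) s t → DC (cf E ω E) s t ∨
      (DC (cf E η E) s u ∧ DC (cf E η E) t u) ∨ (DC (cf E η E) s v ∧ DC (cf E η E) t v)) :
    Pr Q E ω {ω | DC ω u v} ≤ Pr Q E η {ω | DC ω u v} := by
  have hev : ∀ s ∈ Od E ∪ {u, v}, Odd (s.1 + s.2) := by
    rintro s (hs | hs | hs)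
    · exact odd_Od hs
    · rw [hs]; exact hu
    · rw [Set.mem_singleton_iff] at hs
      rw [hs]; exact hv
  have key : ∀ {ω : Cfg}, Good ω → Pr Q E ω {ω | DC ω u v} =
      GP da db (fun _ => Q) (Q ^ 2) E (DCs (cf E ω E))
        (fun S => con da db (DCs (cf E ω E)) S u v) := by
    intro ω hω
    rw [Pr_eq_GP_dual hQ hω]
    exact GP_congr da db E (pow_pos hQ 2) (fun _ _ _ _ => Iff.rfl) fun S hS => DC_cf hS hu
  rw [key hω, key hη]
  refine t1_rel₂ da db E (fun _ => hQ.le) (pow_pos hQ 2) (pow_le_one' hQ hQ1)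
    (Y := Od E ∪ {u, v}) (fun y hy => Or.inl ((mem_ends da db E).1 hy))
    (Or.inr (Or.inl rfl)) (Or.inr (Or.inr rfl)) ?_ ?_
  · intro s hs t ht h
    rw [DCs_iff (hev s hs)] at h ⊢
    exact h1 s hs t ht h
  · intro s hs t ht h
    rw [DCs_iff (hev s hs)] at h
    rw [DCs_iff (hev s hs), DCs_iff (hev s hs), DCs_iff (hev t ht), DCs_iff (hev s hs),
      DCs_iff (hev t ht)]
    exact h2 s hs t ht h

/-! ### Two domains -/

/-- Averaging over the configuration of `P \ E`. -/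
theorem Pr_le_of_forall (hQ : 0 < Q) (hζ : Good ζ) (hEP : E ⊆ P) {A : Set Cfg} {c : ℝ}
    (h : ∀ S ⊆ P, Pr Q E (cf P ζ S) A ≤ c) : Pr Q P ζ A ≤ c := by
  have h1 := H259.f_markov Q E P ζ (A.indicator 1) hQ hEP hζ
  rw [Pr, h1, ← FKA.Ex_const (Q := Q) (D := P) (η := ζ) hQ c]
  exact FKA.Ex_mono hQ fun S hS => h S hS

theorem le_Pr_of_forall (hQ : 0 < Q) (hζ : Good ζ) (hEP : E ⊆ P) {A : Set Cfg} {c : ℝ}
    (h : ∀ S ⊆ P, c ≤ Pr Q E (cf P ζ S) A) : c ≤ Pr Q P ζ A := by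
  have h1 := H259.f_markov Q E P ζ (A.indicator 1) hQ hEP hζ
  rw [Pr, h1]
  refine (FKA.Ex_const (Q := Q) (D := P) (η := ζ) hQ c).symm.le.trans ?_
  exact FKA.Ex_mono hQ fun S hS => h S hS

/-- **T1**: the cluster of `x` outside of `E` is larger in `η` than in all the configurations of
`P \ E` and `ζ`. -/
theorem t1_gen (hQ : 0 < Q) (hQ1 : Q ≤ 1) (hζ : Good ζ) (hη : Good η) (hEP : E ⊆ P)
    {T : Set (ℤ × ℤ)} {x : ℤ × ℤ} (hT : ∀ t ∈ T, Even (t.1 + t.2)) (hx : Even (x.1 + x.2))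
    (h1 : ∀ S ⊆ P, ∀ s ∈ Ev E ∪ T ∪ {x}, ∀ t ∈ Ev E ∪ T ∪ {x},
      PC (cf E (cf P ζ S) ∅) s t → PC (cf E η ∅) s t)
    (h2 : ∀ S ⊆ P, ∀ s ∈ Ev E ∪ T ∪ {x}, ∀ t ∈ Ev E ∪ T ∪ {x}, PC (cf E η ∅) s t →
      PC (cf E (cf P ζ S) ∅) s t ∨ (PC (cf E η ∅) s x ∧ PC (cf E η ∅) t x)) :
    Pr Q P ζ (PJ T x) ≤ Pr Q E η (PJ T x) :=
  Pr_le_of_forall hQ hζ hEP fun S hS =>
    t1_same hQ hQ1 (good_cf P hζ S) hη hT hx (h1 S hS) (h2 S hS)

/-- T1 with two roots. -/
theorem t1_two (hQ : 0 < Q) (hQ1 : Q ≤ 1) (hζ : Good ζ) (hη : Good η) (hEP : E ⊆ P)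
    {u v : ℤ × ℤ} (hu : Even (u.1 + u.2)) (hv : Even (v.1 + v.2))
    (h1 : ∀ S ⊆ P, ∀ s ∈ Ev E ∪ {u, v}, ∀ t ∈ Ev E ∪ {u, v},
      PC (cf E (cf P ζ S) ∅) s t → PC (cf E η ∅) s t)
    (h2 : ∀ S ⊆ P, ∀ s ∈ Ev E ∪ {u, v}, ∀ t ∈ Ev E ∪ {u, v}, PC (cf E η ∅) s t →
      PC (cf E (cf P ζ S) ∅) s t ∨
      (PC (cf E η ∅) s u ∧ PC (cf E η ∅) t u) ∨ (PC (cf E η ∅) s v ∧ PC (cf E η ∅) t v)) :
    Pr Q P ζ {ω | PC ω u v} ≤ Pr Q E η {ω | PC ω u v} :=
  Pr_le_of_forall hQ hζ hEP fun S hS =>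
    t1_same₂ hQ hQ1 (good_cf P hζ S) hη hu hv (h1 S hS) (h2 S hS)

/-- T1 with two roots, dual form. -/
theorem t1_two_dual (hQ : 0 < Q) (hQ1 : Q ≤ 1) (hζ : Good ζ) (hη : Good η) (hEP : E ⊆ P)
    {u v : ℤ × ℤ} (hu : Odd (u.1 + u.2)) (hv : Odd (v.1 + v.2))
    (h1 : ∀ S ⊆ P, ∀ s ∈ Od E ∪ {u, v}, ∀ t ∈ Od E ∪ {u, v},
      DC (cf E (cf P ζ S) E) s t → DC (cf E η E) s t)
    (h2 : ∀ S ⊆ P, ∀ s ∈ Od E ∪ {u, v}, ∀ t ∈ Od E ∪ {u, v}, DC (cf E η E) s t →
      DC (cf E (cf P ζ S) E) s t ∨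
      (DC (cf E η E) s u ∧ DC (cf E η E) t u) ∨ (DC (cf E η E) s v ∧ DC (cf E η E) t v)) :
    Pr Q P ζ {ω | DC ω u v} ≤ Pr Q E η {ω | DC ω u v} :=
  Pr_le_of_forall hQ hζ hEP fun S hS =>
    t1_same₂_dual hQ hQ1 (good_cf P hζ S) hη hu hv (h1 S hS) (h2 S hS)

/-! ### Banks -/

theorem path_closed {U : Set (ℤ × ℤ)} (hU : ∀ b, ω b = true → (pa b ∈ U ↔ pb b ∈ U))
    {s t : ℤ × ℤ} (hs : Even (s.1 + s.2)) (h : PC ω s t) : s ∈ U → t ∈ U := by
  have key : Even (t.1 + t.2) ∧ (s ∈ U → t ∈ U) := by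
    induction h with
    | refl => exact ⟨hs, id⟩
    | @tail u v _ h1 ih =>
      refine ⟨even_step h1 ih.1, fun h2 => ?_⟩
      have h3 : ω (sqr u v) = true := h1.2.2
      rcases step_even h1 ih.1 with ⟨h5, h6⟩ | ⟨h5, h6⟩
      · rw [h6, ← hU _ h3, ← h5]
        exact ih.2 h2
      · rw [h6, hU _ h3, ← h5]
        exact ih.2 h2
  exact key.2

theorem path_closed_dual {U : Set (ℤ × ℤ)} (hU : ∀ b, ω b = false → (da b ∈ U ↔ db b ∈ U))
    {s t : ℤ × ℤ} (hs : Odd (s.1 + s.2)) (h : DC ω s t) : s ∈ U → t ∈ U := by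
  have key : Odd (t.1 + t.2) ∧ (s ∈ U → t ∈ U) := by
    induction h with
    | refl => exact ⟨hs, id⟩
    | @tail u v _ h1 ih =>
      refine ⟨odd_step h1 ih.1, fun h2 => ?_⟩
      have h3 : ω (sqr u v) = false := by
        have := h1.2.2
        simpa [op, sqr] using this
      rcases step_odd h1 ih.1 with ⟨h5, h6⟩ | ⟨h5, h6⟩
      · rw [h6, ← hU _ h3, ← h5]
        exact ih.2 h2
      · rw [h6, hU _ h3, ← h5]
        exact ih.2 h2
  exact key.2

theorem first_step {s t : ℤ × ℤ} (hs : Even (s.1 + s.2)) (h : PC ω s t) (hne : s ≠ t) :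
    ∃ b, ω b = true ∧ (s = pa b ∨ s = pb b) := by
  rcases Relation.ReflTransGen.cases_head h with h | ⟨r, h, -⟩
  · exact absurd h hne
  · refine ⟨sqr s r, h.2.2, ?_⟩
    rcases step_even h hs with ⟨h1, -⟩ | ⟨h1, -⟩
    · exact Or.inl h1
    · exact Or.inr h1

theorem first_step_dual {s t : ℤ × ℤ} (hs : Odd (s.1 + s.2)) (h : DC ω s t) (hne : s ≠ t) :
    ∃ b, ω b = false ∧ (s = da b ∨ s = db b) := by
  rcases Relation.ReflTransGen.cases_head h with h | ⟨r, h, -⟩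
  · exact absurd h hne
  · refine ⟨sqr s r, ?_, ?_⟩
    · have := h.2.2
      simpa [op, sqr] using this
    · rcases step_odd h hs with ⟨h1, -⟩ | ⟨h1, -⟩
      · exact Or.inl h1
      · exact Or.inr h1

/-- **BK**: `U` and `V` are disjoint sets of sites, closed under the squares of `P \ E` and the
`ζ`-open squares outside of `P`; the corners of `E` in these squares are in `U ∪ V`; the corners of
`E` in `U` (`V`) are joined to `u` (`v`) by `η`-open squares outside of `E`, and so are the corners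
of `E` in `η`-open squares outside of `E`. -/
theorem bk (hQ : 0 < Q) (hQ1 : Q ≤ 1) (hζ : Good ζ) (hη : Good η) (hEP : E ⊆ P)
    {u v : ℤ × ℤ} (hu : Even (u.1 + u.2)) (hv : Even (v.1 + v.2)) {U V : Set (ℤ × ℤ)}
    (hUV : Disjoint U V) (huU : u ∈ U) (hvV : v ∈ V)
    (hH : ∀ b, b ∉ E → (b ∈ P ∨ ζ b = true) → (pa b ∈ U ↔ pb b ∈ U) ∧ (pa b ∈ V ↔ pb b ∈ V) ∧
      (pa b ∈ Ev E → pa b ∈ U ∪ V) ∧ (pb b ∈ Ev E → pb b ∈ U ∪ V))
    (hU : ∀ s ∈ U, s ∈ Ev E → PC (cf E η ∅) s u) (hV : ∀ s ∈ V, s ∈ Ev E → PC (cf E η ∅) s v)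
    (hηE : ∀ b, b ∉ E → η b = true → ∀ s, (s = pa b ∨ s = pb b) → s ∈ Ev E →
      PC (cf E η ∅) s u ∨ PC (cf E η ∅) s v) :
    Pr Q P ζ {ω | PC ω u v} ≤ Pr Q E η {ω | PC ω u v} := by
  have hev : ∀ s ∈ Ev E ∪ {u, v}, Even (s.1 + s.2) := by
    rintro s (hs | hs | hs)
    · exact even_Ev hs
    · rw [hs]; exact hu
    · rw [Set.mem_singleton_iff] at hs
      rw [hs]; exact hv
  have hU' : ∀ s ∈ Ev E ∪ {u, v}, s ∈ U → PC (cf E η ∅) s u := by
    rintro s (hs | hs | hs) h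
    · exact hU s h hs
    · rw [hs]; exact Relation.ReflTransGen.refl
    · rw [Set.mem_singleton_iff] at hs
      rw [hs] at h
      exact absurd hvV (Set.disjoint_left.1 hUV h)
  have hV' : ∀ s ∈ Ev E ∪ {u, v}, s ∈ V → PC (cf E η ∅) s v := by
    rintro s (hs | hs | hs) h
    · exact hV s h hs
    · rw [hs] at h
      exact absurd h (Set.disjoint_left.1 hUV huU)
    · rw [Set.mem_singleton_iff] at hs
      rw [hs]; exact Relation.ReflTransGen.refl
  refine t1_two hQ hQ1 hζ hη hEP hu hv (fun S hS s hs t ht h => ?_) (fun S hS s hs t ht h => ?_)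
  · by_cases hst : s = t
    · rw [hst]; exact Relation.ReflTransGen.refl
    have hop : ∀ b, cf E (cf P ζ S) ∅ b = true → b ∉ E ∧ (b ∈ P ∨ ζ b = true) := by
      intro b hb
      by_cases hbE : b ∈ E
      · simp [cf, hbE] at hb
      · refine ⟨hbE, ?_⟩
        by_cases hbP : b ∈ P
        · exact Or.inl hbP
        · right
          simpa [cf, hbE, hbP] using hb
    have h0 : s ∈ U ∨ s ∈ V := by
      obtain ⟨b, hb, hb'⟩ := first_step (hev s hs) h hst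
      obtain ⟨h1, h2⟩ := hop b hb
      obtain ⟨-, -, h3, h4⟩ := hH b h1 h2
      rcases hs with hs | hs | hs
      · rcases hb' with rfl | rfl
        · exact h3 hs
        · exact h4 hs
      · rw [hs]; exact Or.inl huU
      · rw [Set.mem_singleton_iff] at hs
        rw [hs]; exact Or.inr hvV
    rcases h0 with h0 | h0
    · have h1 := path_closed (U := U) (fun b hb => (hH b (hop b hb).1 (hop b hb).2).1)
        (hev s hs) h h0
      exact (hU' s hs h0).trans (PC_symm (hU' t ht h1))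
    · have h1 := path_closed (U := V) (fun b hb => (hH b (hop b hb).1 (hop b hb).2).2.1)
        (hev s hs) h h0
      exact (hV' s hs h0).trans (PC_symm (hV' t ht h1))
  · by_cases hst : s = t
    · left
      rw [hst]; exact Relation.ReflTransGen.refl
    right
    obtain ⟨b, hb, hb'⟩ := first_step (hev s hs) h hst
    have h1 : b ∉ E := fun h1 => by simp [cf, h1] at hb
    have h2 : η b = true := by simpa [cf, h1] using hb
    have h3 : PC (cf E η ∅) s u ∨ PC (cf E η ∅) s v := by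
      rcases hs with hs | hs | hs
      · exact hηE b h1 h2 s hb' hs
      · rw [hs]; exact Or.inl Relation.ReflTransGen.refl
      · rw [Set.mem_singleton_iff] at hs
        rw [hs]; exact Or.inr Relation.ReflTransGen.refl
    rcases h3 with h3 | h3
    · exact Or.inl ⟨h3, (PC_symm h).trans h3⟩
    · exact Or.inr ⟨h3, (PC_symm h).trans h3⟩

/-- BK for the dual connections. -/
theorem bk_d (hQ : 0 < Q) (hQ1 : Q ≤ 1) (hζ : Good ζ) (hη : Good η) (hEP : E ⊆ P)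
    {u v : ℤ × ℤ} (hu : Odd (u.1 + u.2)) (hv : Odd (v.1 + v.2)) {U V : Set (ℤ × ℤ)}
    (hUV : Disjoint U V) (huU : u ∈ U) (hvV : v ∈ V)
    (hH : ∀ b, b ∉ E → (b ∈ P ∨ ζ b = false) → (da b ∈ U ↔ db b ∈ U) ∧ (da b ∈ V ↔ db b ∈ V) ∧
      (da b ∈ Od E → da b ∈ U ∪ V) ∧ (db b ∈ Od E → db b ∈ U ∪ V))
    (hU : ∀ s ∈ U, s ∈ Od E → DC (cf E η E) s u) (hV : ∀ s ∈ V, s ∈ Od E → DC (cf E η E) s v)
    (hηE : ∀ b, b ∉ E → η b = false → ∀ s, (s = da b ∨ s = db b) → s ∈ Od E →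
      DC (cf E η E) s u ∨ DC (cf E η E) s v) :
    Pr Q P ζ {ω | DC ω u v} ≤ Pr Q E η {ω | DC ω u v} := by
  have hev : ∀ s ∈ Od E ∪ {u, v}, Odd (s.1 + s.2) := by
    rintro s (hs | hs | hs)
    · exact odd_Od hs
    · rw [hs]; exact hu
    · rw [Set.mem_singleton_iff] at hs
      rw [hs]; exact hv
  have hU' : ∀ s ∈ Od E ∪ {u, v}, s ∈ U → DC (cf E η E) s u := by
    rintro s (hs | hs | hs) h
    · exact hU s h hs
    · rw [hs]; exact Relation.ReflTransGen.refl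
    · rw [Set.mem_singleton_iff] at hs
      rw [hs] at h
      exact absurd hvV (Set.disjoint_left.1 hUV h)
  have hV' : ∀ s ∈ Od E ∪ {u, v}, s ∈ V → DC (cf E η E) s v := by
    rintro s (hs | hs | hs) h
    · exact hV s h hs
    · rw [hs] at h
      exact absurd h (Set.disjoint_left.1 hUV huU)
    · rw [Set.mem_singleton_iff] at hs
      rw [hs]; exact Relation.ReflTransGen.refl
  refine t1_two_dual hQ hQ1 hζ hη hEP hu hv (fun S hS s hs t ht h => ?_)
    (fun S hS s hs t ht h => ?_)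
  · by_cases hst : s = t
    · rw [hst]; exact Relation.ReflTransGen.refl
    have hop : ∀ b, cf E (cf P ζ S) E b = false → b ∉ E ∧ (b ∈ P ∨ ζ b = false) := by
      intro b hb
      by_cases hbE : b ∈ E
      · simp [cf, hbE] at hb
      · refine ⟨hbE, ?_⟩
        by_cases hbP : b ∈ P
        · exact Or.inl hbP
        · right
          simpa [cf, hbE, hbP] using hb
    have h0 : s ∈ U ∨ s ∈ V := by
      obtain ⟨b, hb, hb'⟩ := first_step_dual (hev s hs) h hst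
      obtain ⟨h1, h2⟩ := hop b hb
      obtain ⟨-, -, h3, h4⟩ := hH b h1 h2
      rcases hs with hs | hs | hs
      · rcases hb' with rfl | rfl
        · exact h3 hs
        · exact h4 hs
      · rw [hs]; exact Or.inl huU
      · rw [Set.mem_singleton_iff] at hs
        rw [hs]; exact Or.inr hvV
    rcases h0 with h0 | h0
    · have h1 := path_closed_dual (U := U) (fun b hb => (hH b (hop b hb).1 (hop b hb).2).1)
        (hev s hs) h h0
      exact (hU' s hs h0).trans (DC_symm (hU' t ht h1))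
    · have h1 := path_closed_dual (U := V) (fun b hb => (hH b (hop b hb).1 (hop b hb).2).2.1)
        (hev s hs) h h0
      exact (hV' s hs h0).trans (DC_symm (hV' t ht h1))
  · by_cases hst : s = t
    · left
      rw [hst]; exact Relation.ReflTransGen.refl
    right
    obtain ⟨b, hb, hb'⟩ := first_step_dual (hev s hs) h hst
    have h1 : b ∉ E := fun h1 => by simp [cf, h1] at hb
    have h2 : η b = false := by simpa [cf, h1] using hb
    have h3 : DC (cf E η E) s u ∨ DC (cf E η E) s v := by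
      rcases hs with hs | hs | hs
      · exact hηE b h1 h2 s hb' hs
      · rw [hs]; exact Or.inl Relation.ReflTransGen.refl
      · rw [Set.mem_singleton_iff] at hs
        rw [hs]; exact Or.inr Relation.ReflTransGen.refl
    rcases h3 with h3 | h3
    · exact Or.inl ⟨h3, (DC_symm h).trans h3⟩
    · exact Or.inr ⟨h3, (DC_symm h).trans h3⟩

/-! ### The odds -/

theorem cf_update {a : ℤ × ℤ} (ha : a ∉ D) (c : Bool) (S : Finset (ℤ × ℤ)) :
    cf D (Function.update η a c) S = Function.update (cf D η S) a c := by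
  funext v
  by_cases h : v = a
  · subst h
    simp [cf, ha]
  · by_cases h' : v ∈ D <;> simp [cf, h, h']

/-- Connections after the opening of a square. -/
theorem PCs_update {a : ℤ × ℤ} (ha : ω a = false) {s t : ℤ × ℤ} (hs : Even (s.1 + s.2)) :
    PCs (Function.update ω a true) s t ↔ (PCs ω ⊔ join (pa a) (pb a)) s t := by
  have h1 := PC_cf (D := {a}) (η := ω) (S := {a}) (subset_refl _) (t := t) hs
  have e1 : cf {a} ω {a} = Function.update ω a true := by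
    funext v
    by_cases h : v = a
    · subst h; simp [cf]
    · simp [cf, h]
  have e2 : cf {a} ω ∅ = ω := by
    funext v
    by_cases h : v = a
    · subst h; simp [cf, ha]
    · simp [cf, h]
  rw [e1, e2] at h1
  rw [PCs_iff hs, h1]
  have h2 := con_insert pa pb (PCs ω) a ∅
  rw [con_empty] at h2
  have e3 : insert a (∅ : Finset (ℤ × ℤ)) = {a} := rfl
  rw [e3] at h2
  rw [h2]

/-- **ODDS**: the two primal corners of the closed square `a` outside of `D`; opening `a` multiplies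
the odds by `Q ^ 2`; by planar duality the event is the absence of a dual connection of the dual
corners of `a`. -/
theorem odds (hQ : 0 < Q) (hη : Good η) {a : ℤ × ℤ} (haD : a ∉ D) (ha : η a = false) :
    Pr Q D (Function.update η a true) {ω | ¬ DC ω (da a) (db a)} =
      Q ^ 2 * Pr Q D η {ω | PC ω (pa a) (pb a)} /
        (Q ^ 2 * Pr Q D η {ω | PC ω (pa a) (pb a)} +
          (1 - Pr Q D η {ω | PC ω (pa a) (pb a)})) := by
  have hη' : Good (Function.update η a true) := good_update hη a true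
  set r := PCs (cf D η ∅) with hr
  have e1 : Pr Q D η {ω | PC ω (pa a) (pb a)} =
      GP pa pb (fun _ => Q) (Q ^ 2) D r (fun S => con pa pb r S (pa a) (pb a)) := by
    rw [Pr_eq_GP hQ hη]
    exact GP_congr pa pb D (pow_pos hQ 2) (fun _ _ _ _ => Iff.rfl) fun S hS =>
      PC_cf hS (even_pa a)
  have e2 : Pr Q D (Function.update η a true) {ω | ¬ DC ω (da a) (db a)} =
      GP pa pb (fun _ => Q) (Q ^ 2) D (r ⊔ join (pa a) (pb a))
        (fun S => con pa pb r S (pa a) (pb a)) := by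
    rw [Pr_eq_GP hQ hη']
    refine GP_congr pa pb D (pow_pos hQ 2) (fun x hx y _ => ?_) fun S hS => ?_
    · rw [cf_update haD]
      refine PCs_update (by simp [cf, haD, ha]) ?_
      obtain ⟨e, -, rfl | rfl⟩ := (mem_ends pa pb D).1 hx
      · exact even_pa e
      · exact even_pb e
    · rw [hr, ← PC_cf hS (even_pa a)]
      have h1 := planar (good_cf D hη S) a
      have h2 : Function.update (cf D η S) a false = cf D η S := by
        rw [Function.update_eq_iff]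
        exact ⟨by simp [cf, haD, ha], fun _ _ => rfl⟩
      rw [h2, ← cf_update haD] at h1
      exact h1.symm
  rw [e1, e2]
  exact GP_odds pa pb D (fun _ => hQ.le) (pow_pos hQ 2) r _ _

theorem odds_le {q p p' : ℝ} (hq : 0 < q) (hp : 0 ≤ p) (hp1 : p ≤ 1) (hp' : 0 ≤ p')
    (h : q * p / (q * p + (1 - p)) ≤ q * p' / (q * p' + (1 - p'))) : p ≤ p' := by
  by_contra hlt
  push Not at hlt
  have h1 : 0 < q * p + (1 - p) := by
    rcases hp1.lt_or_eq with h1 | h1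
    · have := mul_nonneg hq.le hp
      linarith
    · rw [h1]; linarith
  have h2 : 0 < q * p' + (1 - p') := by
    have := mul_nonneg hq.le hp'
    linarith
  rw [div_le_div_iff₀ h1 h2] at h
  nlinarith

/-- **BK, dual form** (the free arcs grow from `η`, `D` to `ξ`, `E`): the probability that the two
primal corners of `a` are joined decreases. `U`, `V` are sets of odd sites. -/
theorem bk_star (hQ : 0 < Q) (hQ1 : Q ≤ 1) {ξ : Cfg} (hη : Good η) (hξ : Good ξ) (hED : E ⊆ D)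
    {a : ℤ × ℤ} (haD : a ∉ D) (haη : η a = false) (haξ : ξ a = false) {U V : Set (ℤ × ℤ)}
    (hUV : Disjoint U V) (huU : da a ∈ U) (hvV : db a ∈ V)
    (hH : ∀ b, b ∉ E → b ≠ a → (b ∈ D ∨ η b = false) →
      (da b ∈ U ↔ db b ∈ U) ∧ (da b ∈ V ↔ db b ∈ V) ∧
      (da b ∈ Od E → da b ∈ U ∪ V) ∧ (db b ∈ Od E → db b ∈ U ∪ V))
    (hU : ∀ s ∈ U, s ∈ Od E → DC (cf E (Function.update ξ a true) E) s (da a))
    (hV : ∀ s ∈ V, s ∈ Od E → DC (cf E (Function.update ξ a true) E) s (db a))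
    (hξE : ∀ b, b ∉ E → b ≠ a → ξ b = false → ∀ s, (s = da b ∨ s = db b) → s ∈ Od E →
      DC (cf E (Function.update ξ a true) E) s (da a) ∨
        DC (cf E (Function.update ξ a true) E) s (db a)) :
    Pr Q E ξ {ω | PC ω (pa a) (pb a)} ≤ Pr Q D η {ω | PC ω (pa a) (pb a)} := by
  have haE : a ∉ E := fun h => haD (hED h)
  have h1 := bk_d hQ hQ1 (good_update hη a true) (good_update hξ a true) hED (odd_da a) (odd_db a)
    hUV huU hvV (fun b hb h => hH b hb (by rintro rfl; simp [haD] at h) (by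
      rcases h with h | h
      · exact Or.inl h
      · right
        by_cases hba : b = a
        · subst hba; simp at h
        · rwa [Function.update_of_ne hba] at h)) hU hV (fun b hb h => by
      have hba : b ≠ a := by rintro rfl; simp at h
      rw [Function.update_of_ne hba] at h
      exact hξE b hb hba h)
  have e1 := odds hQ hη haD haη
  have e2 := odds hQ hξ haE haξ
  have c1 : Pr Q D (Function.update η a true) {ω | ¬ DC ω (da a) (db a)} =
      1 - Pr Q D (Function.update η a true) {ω | DC ω (da a) (db a)} := by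
    rw [← FKA.Pr_compl hQ]; rfl
  have c2 : Pr Q E (Function.update ξ a true) {ω | ¬ DC ω (da a) (db a)} =
      1 - Pr Q E (Function.update ξ a true) {ω | DC ω (da a) (db a)} := by
    rw [← FKA.Pr_compl hQ]; rfl
  refine odds_le (pow_pos hQ 2) (FKA.Pr_nonneg hQ _) (FKA.Pr_le_one hQ _) (FKA.Pr_nonneg hQ _) ?_
  rw [← e1, ← e2, c1, c2]
  linarith

end Vale.Agent.P167.H816
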