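import Vale.Agent.P167.H816.T1

/-!
# P167: invariance of `GE` under symmetries
-/

set_option autoImplicit false
set_option linter.unusedSectionVars false

namespace Vale.Agent.P167.H816

open Finset Vale.Agent.P167.H623

variable {X X' ι ι' : Type*} [DecidableEq ι] [DecidableEq ι'] {a b : ι → X} {a' b' : ι' → X'}
  {w : ι → ℝ} {w' : ι' → ℝ} {q : ℝ} {D : Finset ι} {r : Setoid X} {r' : Setoid X'}

/-- A symmetry: `τ` on the edges and `σ` on the points. -/
structure Symm (a b : ι → X) (a' b' : ι' → X') (D : Finset ι) (r : Setoid X) (r' : Setoid X')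
    (τ : ι ≃ ι') (σ : X → X') : Prop where
  ends : ∀ e ∈ D, (a' (τ e) = σ (a e) ∧ b' (τ e) = σ (b e)) ∨
    (a' (τ e) = σ (b e) ∧ b' (τ e) = σ (a e))
  rel : ∀ x y, r' (σ x) (σ y) ↔ r x y

theorem Symm.con_iff {τ : ι ≃ ι'} {σ : X → X'} (h : Symm a b a' b' D r r' τ σ) {S : Finset ι}
    (hS : S ⊆ D) (x y : X) : con a' b' r' (S.map τ.toEmbedding) (σ x) (σ y) ↔ con a b r S x y := by
  induction S using Finset.induction_on generalizing x y with
  | empty =>
    rw [map_empty, con_empty, con_empty]
    exact h.rel x y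
  | insert e S _ ih =>
    have ih' := fun x y => ih ((subset_insert e S).trans hS) x y
    have heD : e ∈ D := hS (mem_insert_self e S)
    rw [map_insert, con_insert_iff, con_insert_iff]
    have e1 : τ.toEmbedding e = τ e := rfl
    rw [e1, ih']
    rcases h.ends e heD with ⟨h1, h2⟩ | ⟨h1, h2⟩
    · rw [h1, h2, ih', ih', ih', ih']
    · rw [h1, h2, ih', ih', ih', ih']
      exact or_congr Iff.rfl or_comm

/-- **Invariance under symmetries.** -/
theorem GE_symm {τ : ι ≃ ι'} {σ : X → X'} (h : Symm a b a' b' D r r' τ σ)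
    (hww : ∀ e ∈ D, w' (τ e) = w e) (hw' : ∀ e, 0 < w' e) (hq : 0 < q)
    (F : Finset ι' → ℝ) :
    GE a' b' w' q (D.map τ.toEmbedding) r' F =
      GE a b w q D r (fun S => F (S.map τ.toEmbedding)) := by
  classical
  set g : Finset ι → ℝ :=
    fun S => gw a' b' w' q (D.map τ.toEmbedding) r' (S.map τ.toEmbedding) with hg
  have hrec : Rec a b w q D r g := by
    intro S hS e he heS
    have h1 : S.map τ.toEmbedding ⊆ D.map τ.toEmbedding := map_subset_map.2 hS
    have h2 : τ e ∈ D.map τ.toEmbedding := mem_map_of_mem τ.toEmbedding he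
    have h3 : τ e ∉ S.map τ.toEmbedding := by
      intro h4
      obtain ⟨e', he', h5⟩ := mem_map.1 h4
      have : e' = e := τ.injective h5
      rw [this] at he'
      exact heS he'
    have h4 := gw_rec (a := a') (b := b') (w := w') (r := r') hq.ne' _ h1 _ h2 h3
    have e1 : insert (τ e) (S.map τ.toEmbedding) = (insert e S).map τ.toEmbedding := by
      rw [map_insert]; rfl
    rw [e1] at h4
    have h5 : con a' b' r' (S.map τ.toEmbedding) (a' (τ e)) (b' (τ e)) ↔
        con a b r S (a e) (b e) := by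
      rcases h.ends e he with ⟨h6, h7⟩ | ⟨h6, h7⟩
      · rw [h6, h7]
        exact h.con_iff hS _ _
      · rw [h6, h7, h.con_iff hS]
        exact ⟨(con a b r S).symm, (con a b r S).symm⟩
    show g (insert e S) = _ * g S
    rw [hg]
    beta_reduce
    rw [h4, hww e he]
    by_cases h6 : con a b r S (a e) (b e)
    · rw [if_pos h6, if_pos (h5.2 h6)]
    · rw [if_neg h6, if_neg fun h7 => h6 (h5.1 h7)]
  have h0 : g ∅ ≠ 0 := by
    rw [hg]
    exact (gw_pos hw' hq _).ne'
  rw [← hrec.sum_div hq h0, GE]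
  have key : ∀ f : Finset ι' → ℝ, ∑ S ∈ (D.map τ.toEmbedding).powerset, f S =
      ∑ S ∈ D.powerset, f (S.map τ.toEmbedding) := by
    intro f
    symm
    refine sum_bij (fun S _ => S.map τ.toEmbedding)
      (fun S hS => mem_powerset.2 (map_subset_map.2 (mem_powerset.1 hS)))
      (fun S _ S' _ h => map_injective _ h) (fun S hS => ?_) (fun S _ => rfl)
    refine ⟨S.map τ.symm.toEmbedding, mem_powerset.2 ?_, ?_⟩
    · intro e he
      obtain ⟨e', he', rfl⟩ := mem_map.1 he
      obtain ⟨e'', he'', h7⟩ := mem_map.1 (mem_powerset.1 hS he')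
      have : τ.symm.toEmbedding e' = e'' := by
        rw [← h7]
        exact τ.symm_apply_apply e''
      rw [this]
      exact he''
    · rw [map_map]
      ext x
      rw [mem_map]
      constructor
      · rintro ⟨y, hy, rfl⟩
        simpa using hy
      · intro hx
        exact ⟨x, hx, by simp⟩
  rw [key, key]

/-- Invariance of the probabilities. -/
theorem GP_symm {τ : ι ≃ ι'} {σ : X → X'} (h : Symm a b a' b' D r r' τ σ)
    (hww : ∀ e ∈ D, w' (τ e) = w e) (hw' : ∀ e, 0 < w' e) (hq : 0 < q)
    (A : Finset ι' → Prop) :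
    GP a' b' w' q (D.map τ.toEmbedding) r' A =
      GP a b w q D r (fun S => A (S.map τ.toEmbedding)) := by
  classical
  rw [GP, GE_symm h hww hw' hq, GP]

end Vale.Agent.P167.H816
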