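import Vale.Agent.P167.H262.R0
import Vale.Agent.P167.H816.Sy

/-!
# P167: crossings of rectangles with everything outside open (the worst case), `0 < Q ≤ 1`

* `cH Q a b c d`, `cV Q a b c d`: the probability of an open crossing of `[a, b] × [c, d]` from left to
  right, from bottom to top, everything outside open; `dH`, `dV`: closed crossings, everything outside
  closed;
* `cV_eq`, `dH_eq`, `dV_eq`, `cH_shift`: symmetries; `cH_mono`: a longer and thinner rectangle is crossed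
  with smaller probability;
* `VR Q`: uniform lower bounds for all positions and all aspect ratios; `vr_of`: it suffices to have
  the rectangles `[0, k n] × [0, n]`.
-/

set_option autoImplicit false
set_option linter.unusedSectionVars false
set_option linter.unnecessarySeqFocus false

namespace Vale.Agent.P167.H816

open Finset Vale.Agent.P167.H623 Vale.Agent.P167.FK Vale.Agent.P167.H262
open Relation (ReflTransGen)
open Vale.Agent.P145.FB (PStep PConn)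

section sym

variable {X X' ι ι' : Type*} [DecidableEq ι] [DecidableEq ι'] {a b : ι → X} {a' b' : ι' → X'}
  {t q : ℝ} {D : Finset ι}

/-- Invariance of `mm`. -/
theorem mm_symm (ht : 0 < t) (hq : 0 < q) (τ : ι ≃ ι') (σ : X ≃ X')
    (he : ∀ e ∈ D, (a' (τ e) = σ (a e) ∧ b' (τ e) = σ (b e)) ∨
      (a' (τ e) = σ (b e) ∧ b' (τ e) = σ (a e))) {Z A B : Set X} {Z' A' B' : Set X'}
    (hZ : ∀ x, σ x ∈ Z' ↔ x ∈ Z) (hA : ∀ x, σ x ∈ A' ↔ x ∈ A) (hB : ∀ x, σ x ∈ B' ↔ x ∈ B) :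
    mm a' b' (fun _ => t) q (D.map τ.toEmbedding) Z' A' B' = mm a b (fun _ => t) q D Z A B := by
  have h1 : Symm a b a' b' D (wir Z) (wir Z') τ σ := by
    refine ⟨he, fun x y => ?_⟩
    constructor
    · rintro (h | ⟨h, h'⟩)
      · exact Or.inl (σ.injective h)
      · exact Or.inr ⟨(hZ x).1 h, (hZ y).1 h'⟩
    · rintro (h | ⟨h, h'⟩)
      · exact Or.inl (congrArg σ h)
      · exact Or.inr ⟨(hZ x).2 h, (hZ y).2 h'⟩
  have h2 : Symm a b a' b' D ⊥ ⊥ τ σ :=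
    ⟨he, fun x y => ⟨fun h => σ.injective h, fun h => congrArg σ h⟩⟩
  rw [mm, mm, GP_symm h1 (w := fun _ => t) (w' := fun _ => t) (fun _ _ => rfl) (fun _ => ht) hq]
  refine GP_congr a b D hq (fun _ _ _ _ => Iff.rfl) fun S hS => not_congr ?_
  constructor
  · intro h x hx y hy hc
    exact h (σ x) ((hA x).2 hx) (σ y) ((hB y).2 hy) ((h2.con_iff hS x y).2 hc)
  · intro h x' hx' y' hy' hc
    obtain ⟨x, rfl⟩ := σ.surjective x'
    obtain ⟨y, rfl⟩ := σ.surjective y'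
    exact h x ((hA x).1 hx') y ((hB y).1 hy') ((h2.con_iff hS x y).1 hc)

end sym

/-! ### The sides -/

/-- The even sites to the left. -/
def Lf (a : ℤ) : Set (ℤ × ℤ) := {s | Even (s.1 + s.2) ∧ s.1 ≤ a}

/-- The even sites to the right. -/
def Rg (b : ℤ) : Set (ℤ × ℤ) := {s | Even (s.1 + s.2) ∧ b ≤ s.1}

/-- The even sites below. -/
def Dn (c : ℤ) : Set (ℤ × ℤ) := {s | Even (s.1 + s.2) ∧ s.2 ≤ c}

/-- The even sites above. -/
def Up (d : ℤ) : Set (ℤ × ℤ) := {s | Even (s.1 + s.2) ∧ d ≤ s.2}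

/-- The odd sites to the left. -/
def Lfd (a : ℤ) : Set (ℤ × ℤ) := {s | Odd (s.1 + s.2) ∧ s.1 ≤ a}

/-- The odd sites to the right. -/
def Rgd (b : ℤ) : Set (ℤ × ℤ) := {s | Odd (s.1 + s.2) ∧ b ≤ s.1}

/-- The odd sites below. -/
def Dnd (c : ℤ) : Set (ℤ × ℤ) := {s | Odd (s.1 + s.2) ∧ s.2 ≤ c}

/-- The odd sites above. -/
def Upd (d : ℤ) : Set (ℤ × ℤ) := {s | Odd (s.1 + s.2) ∧ d ≤ s.2}

variable {Q : ℝ} {a b c d : ℤ}

theorem Lf_sub : Lf a ⊆ Pb (Rsq a b c d) := fun _ h => mem_Pb_rect h.1 (Or.inl h.2)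

theorem Rg_sub : Rg b ⊆ Pb (Rsq a b c d) := fun _ h => mem_Pb_rect h.1 (Or.inr (Or.inl h.2))

theorem Dn_sub : Dn c ⊆ Pb (Rsq a b c d) :=
  fun _ h => mem_Pb_rect h.1 (Or.inr (Or.inr (Or.inl h.2)))

theorem Up_sub : Up d ⊆ Pb (Rsq a b c d) :=
  fun _ h => mem_Pb_rect h.1 (Or.inr (Or.inr (Or.inr h.2)))

theorem Lfd_sub : Lfd a ⊆ Db (Rsq a b c d) := fun _ h => mem_Db_rect h.1 (Or.inl h.2)

theorem Rgd_sub : Rgd b ⊆ Db (Rsq a b c d) := fun _ h => mem_Db_rect h.1 (Or.inr (Or.inl h.2))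

theorem Dnd_sub : Dnd c ⊆ Db (Rsq a b c d) :=
  fun _ h => mem_Db_rect h.1 (Or.inr (Or.inr (Or.inl h.2)))

theorem Upd_sub : Upd d ⊆ Db (Rsq a b c d) :=
  fun _ h => mem_Db_rect h.1 (Or.inr (Or.inr (Or.inr h.2)))

/-! ### The probabilities -/

/-- Open crossing from left to right, everything outside open. -/
noncomputable def cH (Q : ℝ) (a b c d : ℤ) : ℝ :=
  Pr Q (Rsq a b c d) eta1 (CI (Rsq a b c d) (Lf a) (Rg b))

/-- Open crossing from bottom to top, everything outside open. -/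
noncomputable def cV (Q : ℝ) (a b c d : ℤ) : ℝ :=
  Pr Q (Rsq a b c d) eta1 (CI (Rsq a b c d) (Dn c) (Up d))

/-- Closed crossing from left to right, everything outside closed. -/
noncomputable def dH (Q : ℝ) (a b c d : ℤ) : ℝ :=
  Pr Q (Rsq a b c d) eta0 (CD (Rsq a b c d) (Lfd a) (Rgd b))

/-- Closed crossing from bottom to top, everything outside closed. -/
noncomputable def dV (Q : ℝ) (a b c d : ℤ) : ℝ :=
  Pr Q (Rsq a b c d) eta0 (CD (Rsq a b c d) (Dnd c) (Upd d))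

theorem rect_mm (hQ : 0 < Q) {A : Set (ℤ × ℤ)} (hA : ∀ s ∈ A, Even (s.1 + s.2))
    (B : Set (ℤ × ℤ)) : Pr Q (Rsq a b c d) eta1 (CI (Rsq a b c d) A B) =
      mm pa pb (fun _ => Q) (Q ^ 2) (Rsq a b c d) (Pb (Rsq a b c d)) A B :=
  Pr_eq_mm hQ good_eta1 (fun _ hs _ ht _ _ => outside_P hs ht) hA B

theorem rect_mm_dual (hQ : 0 < Q) {A : Set (ℤ × ℤ)} (hA : ∀ s ∈ A, Odd (s.1 + s.2))
    (B : Set (ℤ × ℤ)) : Pr Q (Rsq a b c d) eta0 (CD (Rsq a b c d) A B) =
      mm da db (fun _ => Q) (Q ^ 2) (Rsq a b c d) (Db (Rsq a b c d)) A B :=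
  Pr_eq_mm_dual hQ good_eta0 (fun _ hs _ ht _ _ => outside_D hs ht) hA B

/-- Transposition. -/
def swp : ℤ × ℤ ≃ ℤ × ℤ := Equiv.prodComm ℤ ℤ

/-- Translation. -/
def tr (t : ℤ × ℤ) : ℤ × ℤ ≃ ℤ × ℤ := Equiv.addRight t

theorem swp_apply (x : ℤ × ℤ) : swp x = (x.2, x.1) := rfl

theorem tr_apply (t x : ℤ × ℤ) : tr t x = (x.1 + t.1, x.2 + t.2) := rfl

theorem map_swp : (Rsq a b c d).map swp.toEmbedding = Rsq c d a b := by
  ext v
  rw [mem_map_equiv, mem_Rsq, mem_Rsq]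
  show (a ≤ v.2 ∧ v.2 < b ∧ c ≤ v.1 ∧ v.1 < d) ↔ _
  tauto

theorem map_tr (t : ℤ × ℤ) :
    (Rsq a b c d).map (tr t).toEmbedding = Rsq (a + t.1) (b + t.1) (c + t.2) (d + t.2) := by
  ext v
  rw [mem_map_equiv, mem_Rsq, mem_Rsq]
  have h : (tr t).symm v = (v.1 - t.1, v.2 - t.2) := rfl
  rw [h]
  simp only
  omega

theorem pa_mk (i j : ℤ) : pa (i, j) = if Even (i + j) then (i, j) else (i, j + 1) := rfl

theorem pb_mk (i j : ℤ) : pb (i, j) = if Even (i + j) then (i + 1, j + 1) else (i + 1, j) := rfl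

theorem da_mk (i j : ℤ) : da (i, j) = if Even (i + j) then (i, j + 1) else (i, j) := rfl

theorem db_mk (i j : ℤ) : db (i, j) = if Even (i + j) then (i + 1, j) else (i + 1, j + 1) := rfl

theorem swp_ends (e : ℤ × ℤ) : (pa (swp e) = swp (pa e) ∧ pb (swp e) = swp (pb e)) ∨
    (pa (swp e) = swp (pb e) ∧ pb (swp e) = swp (pa e)) := by
  obtain ⟨i, j⟩ := e
  simp only [swp_apply, pa, pb, add_comm j i]
  by_cases h : Even (i + j)
  · simp [h]
  · simp [h]

theorem tr_ends {t : ℤ × ℤ} (ht : Even (t.1 + t.2)) (e : ℤ × ℤ) :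
    (pa (tr t e) = tr t (pa e) ∧ pb (tr t e) = tr t (pb e)) ∨
    (pa (tr t e) = tr t (pb e) ∧ pb (tr t e) = tr t (pa e)) := by
  left
  obtain ⟨i, j⟩ := e
  obtain ⟨s, u⟩ := t
  have e1 : tr (s, u) (i, j) = (i + s, j + u) := rfl
  rw [e1, pa_mk, pb_mk, pa_mk, pb_mk]
  have : Even (i + s + (j + u)) ↔ Even (i + j) := by
    simp only at ht
    rw [Int.even_iff] at *
    rw [Int.even_iff]
    omega
  by_cases h : Even (i + j)
  · rw [if_pos h, if_pos (this.2 h), if_pos h, if_pos (this.2 h), tr_apply, tr_apply]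
    refine ⟨rfl, ?_⟩
    ext <;> simp only <;> ring
  · rw [if_neg h, if_neg fun k => h (this.1 k), if_neg h, if_neg fun k => h (this.1 k), tr_apply,
      tr_apply]
    refine ⟨?_, ?_⟩ <;> ext <;> simp only <;> ring

theorem du_ends (e : ℤ × ℤ) :
    (pa (tr (1, 0) e) = tr (1, 0) (da e) ∧ pb (tr (1, 0) e) = tr (1, 0) (db e)) ∨
    (pa (tr (1, 0) e) = tr (1, 0) (db e) ∧ pb (tr (1, 0) e) = tr (1, 0) (da e)) := by
  left
  obtain ⟨i, j⟩ := e
  have e1 : tr (1, 0) (i, j) = (i + 1, j + 0) := rfl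
  rw [e1, pa_mk, pb_mk, da_mk, db_mk]
  have : Even (i + 1 + (j + 0)) ↔ ¬ Even (i + j) := by
    rw [Int.even_iff, Int.even_iff]
    omega
  by_cases h : Even (i + j)
  · rw [if_pos h, if_neg fun k => this.1 k h, if_pos h, if_neg fun k => this.1 k h, tr_apply,
      tr_apply]
    refine ⟨?_, ?_⟩ <;> ext <;> simp only <;> ring
  · rw [if_neg h, if_pos (this.2 h), if_neg h, if_pos (this.2 h), tr_apply, tr_apply]
    refine ⟨?_, ?_⟩ <;> ext <;> simp only <;> ring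

theorem swp_Pb (x : ℤ × ℤ) : swp x ∈ Pb (Rsq c d a b) ↔ x ∈ Pb (Rsq a b c d) := by
  constructor
  · intro h
    have h1 := even_Pb h
    have h2 := Pb_rect h
    rw [swp_apply] at h1 h2
    simp only at h1 h2
    exact mem_Pb_rect (by rwa [add_comm]) (by omega)
  · intro h
    have h1 := even_Pb h
    have h2 := Pb_rect h
    rw [swp_apply]
    exact mem_Pb_rect (by simp only; rwa [add_comm]) (by simp only; omega)

theorem tr_Pb {t : ℤ × ℤ} (ht : Even (t.1 + t.2)) (x : ℤ × ℤ) :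
    tr t x ∈ Pb (Rsq (a + t.1) (b + t.1) (c + t.2) (d + t.2)) ↔ x ∈ Pb (Rsq a b c d) := by
  rw [Int.even_iff] at ht
  constructor
  · intro h
    have h1 := even_Pb h
    have h2 := Pb_rect h
    rw [tr_apply] at h1 h2
    simp only at h1 h2
    rw [Int.even_iff] at h1
    exact mem_Pb_rect (by rw [Int.even_iff]; omega) (by omega)
  · intro h
    have h1 := even_Pb h
    have h2 := Pb_rect h
    rw [Int.even_iff] at h1
    rw [tr_apply]
    exact mem_Pb_rect (by rw [Int.even_iff]; simp only; omega) (by simp only; omega)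

theorem du_Pb (x : ℤ × ℤ) :
    tr (1, 0) x ∈ Pb (Rsq (a + 1) (b + 1) c d) ↔ x ∈ Db (Rsq a b c d) := by
  constructor
  · intro h
    have h1 := even_Pb h
    have h2 := Pb_rect h
    rw [tr_apply] at h1 h2
    simp only at h1 h2
    rw [Int.even_iff] at h1
    exact mem_Db_rect (by rw [Int.odd_iff]; omega) (by omega)
  · intro h
    have h1 := odd_Db h
    have h2 := Db_rect h
    rw [Int.odd_iff] at h1
    rw [tr_apply]
    exact mem_Pb_rect (by rw [Int.even_iff]; simp only; omega) (by simp only; omega)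

/-- Transposition. -/
theorem cV_eq (hQ : 0 < Q) : cV Q a b c d = cH Q c d a b := by
  rw [cV, cH, rect_mm hQ (fun s hs => hs.1), rect_mm hQ (fun s hs => hs.1), ← map_swp]
  rw [map_swp, ← map_swp (a := a) (b := b) (c := c) (d := d)]
  refine (mm_symm hQ (pow_pos hQ 2) swp swp (fun e _ => swp_ends e) (fun x => ?_) (fun x => ?_)
    (fun x => ?_)).symm
  · rw [map_swp]
    exact swp_Pb x
  · rw [swp_apply]
    show (Even (x.2 + x.1) ∧ x.2 ≤ c) ↔ (Even (x.1 + x.2) ∧ x.2 ≤ c)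
    rw [add_comm]
  · rw [swp_apply]
    show (Even (x.2 + x.1) ∧ d ≤ x.2) ↔ (Even (x.1 + x.2) ∧ d ≤ x.2)
    rw [add_comm]

/-- Translations by even vectors. -/
theorem cH_shift (hQ : 0 < Q) {t : ℤ × ℤ} (ht : Even (t.1 + t.2)) :
    cH Q (a + t.1) (b + t.1) (c + t.2) (d + t.2) = cH Q a b c d := by
  rw [cH, cH, rect_mm hQ (fun s hs => hs.1), rect_mm hQ (fun s hs => hs.1), ← map_tr]
  refine mm_symm hQ (pow_pos hQ 2) (tr t) (tr t) (fun e _ => tr_ends ht e) (fun x => ?_)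
    (fun x => ?_) (fun x => ?_)
  · rw [map_tr]
    exact tr_Pb ht x
  · rw [tr_apply]
    show (Even (x.1 + t.1 + (x.2 + t.2)) ∧ x.1 + t.1 ≤ a + t.1) ↔ (Even (x.1 + x.2) ∧ x.1 ≤ a)
    rw [Int.even_iff] at *
    rw [Int.even_iff]
    omega
  · rw [tr_apply]
    show (Even (x.1 + t.1 + (x.2 + t.2)) ∧ b + t.1 ≤ x.1 + t.1) ↔ (Even (x.1 + x.2) ∧ b ≤ x.1)
    rw [Int.even_iff] at *
    rw [Int.even_iff]
    omega

/-- Duality. -/
theorem dH_eq (hQ : 0 < Q) : dH Q a b c d = cH Q (a + 1) (b + 1) c d := by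
  have e0 : Rsq (a + 1) (b + 1) c d = (Rsq a b c d).map (tr (1, 0)).toEmbedding := by
    rw [map_tr]
    simp
  rw [dH, cH, rect_mm_dual hQ (fun s hs => hs.1), rect_mm hQ (fun s hs => hs.1), e0]
  refine (mm_symm hQ (pow_pos hQ 2) (tr (1, 0)) (tr (1, 0)) (fun e _ => du_ends e) (fun x => ?_)
    (fun x => ?_) (fun x => ?_)).symm
  · rw [← e0]
    exact du_Pb x
  · rw [tr_apply]
    show (Even (x.1 + 1 + (x.2 + 0)) ∧ x.1 + 1 ≤ a + 1) ↔ (Odd (x.1 + x.2) ∧ x.1 ≤ a)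
    rw [Int.even_iff, Int.odd_iff]
    omega
  · rw [tr_apply]
    show (Even (x.1 + 1 + (x.2 + 0)) ∧ b + 1 ≤ x.1 + 1) ↔ (Odd (x.1 + x.2) ∧ b ≤ x.1)
    rw [Int.even_iff, Int.odd_iff]
    omega

/-- Duality. -/
theorem dV_eq (hQ : 0 < Q) : dV Q a b c d = cV Q (a + 1) (b + 1) c d := by
  have e0 : Rsq (a + 1) (b + 1) c d = (Rsq a b c d).map (tr (1, 0)).toEmbedding := by
    rw [map_tr]
    simp
  rw [dV, cV, rect_mm_dual hQ (fun s hs => hs.1), rect_mm hQ (fun s hs => hs.1), e0]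
  refine (mm_symm hQ (pow_pos hQ 2) (tr (1, 0)) (tr (1, 0)) (fun e _ => du_ends e) (fun x => ?_)
    (fun x => ?_) (fun x => ?_)).symm
  · rw [← e0]
    exact du_Pb x
  · rw [tr_apply]
    show (Even (x.1 + 1 + (x.2 + 0)) ∧ x.2 + 0 ≤ c) ↔ (Odd (x.1 + x.2) ∧ x.2 ≤ c)
    rw [Int.even_iff, Int.odd_iff]
    omega
  · rw [tr_apply]
    show (Even (x.1 + 1 + (x.2 + 0)) ∧ d ≤ x.2 + 0) ↔ (Odd (x.1 + x.2) ∧ d ≤ x.2)
    rw [Int.even_iff, Int.odd_iff]
    omega

/-! ### Monotonicity -/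

theorem CI_left {E : Finset (ℤ × ℤ)} {A B : Set (ℤ × ℤ)} {ω : Cfg} {c : ℤ}
    (hA : ∀ s ∈ A, s.1 ≤ c) (hB : ∀ s ∈ B, c ≤ s.1) (h : ω ∈ CI E A B) :
    ∃ u, u.1 = c ∧ ∃ v ∈ B, ReflTransGen (PStep (op ω ∩ ↑E)) u v := by
  obtain ⟨u, hu, v, hv, h⟩ := h
  have h1 := hA u hu
  have h2 := hB v hv
  clear hu
  induction h using ReflTransGen.head_induction_on with
  | refl => exact ⟨v, by omega, v, hv, ReflTransGen.refl⟩
  | @head x y hxy h ih =>
    by_cases hx : x.1 = c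
    · exact ⟨x, hx, v, hv, ReflTransGen.head hxy h⟩
    · refine ih ?_
      have := hxy.1
      omega

/-- **Monotonicity**: a longer and thinner rectangle. -/
theorem cH_mono (hQ : 0 < Q) (hQ1 : Q ≤ 1) {a' b' c' d' : ℤ} (ha : a' ≤ a) (hb : b ≤ b')
    (hc : c ≤ c') (hd : d' ≤ d) : cH Q a' b' c' d' ≤ cH Q a b c d := by
  -- thinner
  have h1 : cH Q a b c' d' ≤ cH Q a b c d := by
    have hsub : Rsq a b c' d' ⊆ Rsq a b c d := by
      intro v hv
      rw [mem_Rsq] at *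
      omega
    refine (worst_rect hQ hQ1 good_eta1 hsub Lf_sub (Rg b)).trans (FKA.Pr_mono hQ ?_)
    exact CI_mono hsub subset_rfl subset_rfl
  -- longer
  refine le_trans ?_ h1
  have h2 := rough_rect (Q := Q) (a := a') (b := b') (c := c') (d := d') (A := Lf a') (B := Rg b')
    (A' := Lf a) (B' := Rg b) (L := Rsq a' b' c' d' \ Rsq a b c' d') (D := Rsq a b c' d')
    hQ hQ1 good_eta1 Lf_sub Rg_sub (fun s hs => ⟨hs.1, hs.2.trans ha⟩)
    (fun s hs => ⟨hs.1, hb.trans hs.2⟩) (fun e he heS => ?_) ?_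
  · refine h2.trans (FKA.Pr_mono hQ (CI_mono ?_ subset_rfl subset_rfl))
    intro v hv
    rw [mem_sdiff, mem_sdiff] at hv
    by_contra h
    exact hv.2 ⟨hv.1, h⟩
  · rw [mem_sdiff, mem_Rsq, mem_Rsq] at he
    have h3 : e.1 < a ∨ b ≤ e.1 := by omega
    have hpa : e.1 ≤ (pa e).1 ∧ (pa e).1 ≤ e.1 + 1 := by
      unfold pa; split_ifs <;> (try simp only) <;> omega
    have hpb : e.1 ≤ (pb e).1 ∧ (pb e).1 ≤ e.1 + 1 := by
      unfold pb; split_ifs <;> (try simp only) <;> omega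
    rcases h3 with h3 | h3
    · exact Or.inl ⟨⟨even_pa e, by omega⟩, even_pb e, by omega⟩
    · exact Or.inr ⟨⟨even_pa e, by omega⟩, even_pb e, by omega⟩
  · intro v hv
    rw [mem_sdiff, mem_sdiff] at hv
    by_contra h
    exact hv.2 ⟨hv.1, h⟩

theorem cV_mono (hQ : 0 < Q) (hQ1 : Q ≤ 1) {a' b' c' d' : ℤ} (ha : a ≤ a') (hb : b' ≤ b)
    (hc : c' ≤ c) (hd : d ≤ d') : cV Q a' b' c' d' ≤ cV Q a b c d := by
  rw [cV_eq hQ, cV_eq hQ]
  exact cH_mono hQ hQ1 hc hd ha hb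

theorem dH_mono (hQ : 0 < Q) (hQ1 : Q ≤ 1) {a' b' c' d' : ℤ} (ha : a' ≤ a) (hb : b ≤ b')
    (hc : c ≤ c') (hd : d' ≤ d) : dH Q a' b' c' d' ≤ dH Q a b c d := by
  rw [dH_eq hQ, dH_eq hQ]
  exact cH_mono hQ hQ1 (by omega) (by omega) hc hd

theorem dV_mono (hQ : 0 < Q) (hQ1 : Q ≤ 1) {a' b' c' d' : ℤ} (ha : a ≤ a') (hb : b' ≤ b)
    (hc : c' ≤ c) (hd : d ≤ d') : dV Q a' b' c' d' ≤ dV Q a b c d := by
  rw [dV_eq hQ, dV_eq hQ]
  exact cV_mono hQ hQ1 (by omega) (by omega) hc hd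

/-! ### The property -/

/-- **Russo-Seymour-Welsh, worst outside configurations**: uniform lower bounds for the crossings of
all rectangles in the long direction. -/
def VR (Q : ℝ) : Prop := ∀ k : ℕ, ∃ c : ℝ, 0 < c ∧ ∀ n x y : ℤ, 1 ≤ n →
  c ≤ cH Q x (x + k * n) y (y + n) ∧ c ≤ cV Q x (x + n) y (y + k * n) ∧
  c ≤ dH Q x (x + k * n) y (y + n) ∧ c ≤ dV Q x (x + n) y (y + k * n)

/-- A path along a row. -/
theorem row_path {F : Set (ℤ × ℤ)} {c : ℤ} (hab : a ≤ b) (hF : ∀ i, a ≤ i → i < b → (i, c) ∈ F) :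
    ∃ u v : ℤ × ℤ, u.1 = a ∧ v.1 = b ∧ Even (u.1 + u.2) ∧ Even (v.1 + v.2) ∧
      ReflTransGen (PStep F) u v := by
  refine ⟨(a, if Even (a + c) then c else c + 1), (b, if Even (b + c) then c else c + 1), rfl, rfl,
    ?_, ?_, ?_⟩
  · simp only
    split_ifs with h
    · exact h
    · rw [Int.even_iff] at *
      omega
  · simp only
    split_ifs with h
    · exact h
    · rw [Int.even_iff] at *
      omega
  · obtain ⟨n, hn⟩ := Int.eq_ofNat_of_zero_le (sub_nonneg.2 hab)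
    have hb : b = a + n := by omega
    subst hb
    clear hn hab
    induction n with
    | zero =>
      simp only [Nat.cast_zero, add_zero]
      exact ReflTransGen.refl
    | succ n ih =>
      refine (ih fun i h1 h2 => hF i h1 (by push_cast; omega)).tail ?_
      have h3 := hF (a + n) (by omega) (by push_cast; omega)
      refine ⟨Or.inl (by simp only; push_cast; ring), ?_, ?_⟩
      · simp only
        split_ifs with h1 h2 h2
        · rw [Int.even_iff] at *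
          push_cast at h1
          omega
        · exact Or.inr (by omega)
        · exact Or.inl rfl
        · rw [Int.even_iff] at *
          push_cast at h1
          omega
      · have e1 : min (a + (n : ℤ)) (a + ((n + 1 : ℕ) : ℤ)) = a + n := by
          push_cast
          omega
        have e2 : min (if Even (a + (n : ℤ) + c) then c else c + 1)
            (if Even (a + ((n + 1 : ℕ) : ℤ) + c) then c else c + 1) = c := by
          split_ifs with h1 h2 h2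
          · omega
          · omega
          · omega
          · rw [Int.even_iff] at *
            push_cast at h2
            omega
        simp only
        rw [e1, e2]
        exact h3

/-- The probability of a crossing is positive. -/
theorem cH_pos (hQ : 0 < Q) (hab : a ≤ b) (hcd : c < d) : 0 < cH Q a b c d := by
  classical
  have hq : 0 < Q ^ 2 := pow_pos hQ 2
  rw [cH, Pr_eq_GP hQ good_eta1, GP, GE]
  refine div_pos ?_ (sum_gw_pos (fun _ => hQ.le) hq)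
  refine sum_pos' (fun S _ => mul_nonneg (gw_nonneg (fun _ => hQ.le) hq S) ?_)
    ⟨Rsq a b c d, mem_powerset_self _, mul_pos (gw_pos (fun _ => hQ) hq _) ?_⟩
  · split_ifs
    · exact zero_le_one
    · exact le_rfl
  · rw [if_pos]
    · exact one_pos
    · obtain ⟨u, v, hu, hv, hu', hv', h⟩ := row_path (F := op (cf (Rsq a b c d) eta1
        (Rsq a b c d)) ∩ ↑(Rsq a b c d)) (c := c) hab (fun i h1 h2 => by
          have h3 : (i, c) ∈ Rsq a b c d := by
            rw [mem_Rsq]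
            exact ⟨h1, h2, le_rfl, hcd⟩
          refine ⟨?_, Finset.mem_coe.2 h3⟩
          show cf _ _ _ _ = true
          simp [cf, h3])
      exact ⟨u, ⟨hu', hu.le⟩, v, ⟨hv', hv.ge⟩, h⟩

/-- **Reduction**: one position, one direction, large `n`. -/
theorem vr_of (hQ : 0 < Q) (hQ1 : Q ≤ 1) (h : ∀ k : ℕ, ∃ c : ℝ, 0 < c ∧ ∃ n₀ : ℤ,
    ∀ n : ℤ, n₀ ≤ n → c ≤ Pr Q (Rsq 0 (k * n) 0 n) eta1
      {ω | ∃ u v, u.1 = 0 ∧ v.1 = k * n ∧ (u.1 + u.2) % 2 = 0 ∧
        PConn (op ω) (Vale.Agent.P153.Topo.Rect 0 (k * n) 0 n) u v}) : VR Q := by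
  -- all `n`
  have h1 : ∀ k : ℕ, ∃ c : ℝ, 0 < c ∧ ∀ n : ℤ, 1 ≤ n → c ≤ cH Q 0 (k * n) 0 n := by
    intro k
    obtain ⟨c, hc, n₀, h0⟩ := h k
    refine ⟨min c (cH Q 0 (k * |n₀|) 0 1), lt_min hc
      (cH_pos hQ (by positivity) one_pos), fun n hn => ?_⟩
    rcases le_total n₀ n with h2 | h2
    · refine (min_le_left _ _).trans ((h0 n h2).trans (FKA.Pr_mono hQ ?_))
      rintro ω ⟨u, v, hu, hv, hp, h3⟩
      have h4 := h3.parity
      refine ⟨u, ⟨?_, hu.le⟩, v, ⟨?_, hv.ge⟩, (rtg_rect h3.left_mem).2 h3⟩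
      · rw [Int.even_iff]; exact hp
      · rw [Int.even_iff]; omega
    · refine (min_le_right _ _).trans (cH_mono hQ hQ1 le_rfl ?_ le_rfl hn)
      exact mul_le_mul_of_nonneg_left (h2.trans (le_abs_self n₀)) (by positivity)
  -- all positions
  have h2 : ∀ k : ℕ, ∃ c : ℝ, 0 < c ∧ ∀ n x y : ℤ, 1 ≤ n →
      c ≤ cH Q x (x + k * n) y (y + n) := by
    intro k
    obtain ⟨c, hc, h0⟩ := h1 (k + 1)
    refine ⟨c, hc, fun n x y hn => (h0 n hn).trans ?_⟩
    by_cases hxy : Even (x + y)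
    · have h3 := cH_shift (Q := Q) (a := 0) (b := k * n) (c := 0) (d := n) hQ (t := (x, y)) hxy
      simp only [zero_add] at h3
      rw [add_comm x, add_comm y, h3]
      exact cH_mono hQ hQ1 le_rfl (by push_cast; nlinarith) le_rfl le_rfl
    · have h3 := cH_shift (Q := Q) (a := 0) (b := (k + 1 : ℕ) * n) (c := 0) (d := n) hQ
        (t := (x - 1, y)) (by
          rw [Int.even_iff] at *
          simp only
          omega)
      simp only [zero_add] at h3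
      rw [← h3]
      refine cH_mono hQ hQ1 (by omega) ?_ le_rfl (by omega)
      push_cast
      nlinarith
  intro k
  obtain ⟨c, hc, h0⟩ := h2 k
  refine ⟨c, hc, fun n x y hn => ⟨h0 n x y hn, ?_, ?_, ?_⟩⟩
  · rw [cV_eq hQ]
    exact h0 n y x hn
  · rw [dH_eq hQ]
    have := h0 n (x + 1) y hn
    rwa [show x + 1 + k * n = x + k * n + 1 by ring] at this
  · rw [dV_eq hQ, cV_eq hQ]
    have := h0 n y (x + 1) hn
    rwa [show x + 1 + n = x + n + 1 by ring] at this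

/-- All rectangles of bounded aspect ratio. -/
theorem VR.ge (h : VR Q) (hQ : 0 < Q) (hQ1 : Q ≤ 1) (k : ℕ) : ∃ κ : ℝ, 0 < κ ∧ κ ≤ 1 ∧
    (∀ a b c d : ℤ, c < d → b - a ≤ k * (d - c) → κ ≤ cH Q a b c d ∧ κ ≤ dH Q a b c d) ∧
    ∀ a b c d : ℤ, a < b → d - c ≤ k * (b - a) → κ ≤ cV Q a b c d ∧ κ ≤ dV Q a b c d := by
  obtain ⟨κ, hκ, h0⟩ := h k
  refine ⟨κ, hκ, ?_, fun a b c d hcd hab => ?_, fun a b c d hab hcd => ?_⟩
  · exact (h0 1 0 0 le_rfl).1.trans (FKA.Pr_le_one hQ _)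
  · obtain ⟨h1, -, h2, -⟩ := h0 (d - c) a c (by omega)
    exact ⟨h1.trans (cH_mono hQ hQ1 le_rfl (by linarith) le_rfl (by linarith)),
      h2.trans (dH_mono hQ hQ1 le_rfl (by linarith) le_rfl (by linarith))⟩
  · obtain ⟨-, h1, -, h2⟩ := h0 (b - a) a c (by omega)
    exact ⟨h1.trans (cV_mono hQ hQ1 le_rfl (by linarith) le_rfl (by linarith)),
      h2.trans (dV_mono hQ hQ1 le_rfl (by linarith) le_rfl (by linarith))⟩

end Vale.Agent.P167.H816
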