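import Vale.Agent.P167.H816.Ring
import Vale.Agent.P167.FKA.Dual

/-!
# P167: decay of the arms of annuli for `0 < Q ≤ 1`, every configuration outside

`arm_of_vr : VR Q → ∃ α C, 0 < α ∧ 0 < C ∧ ArmDec Q α C ∧ ArmDecD Q α C`.
-/

set_option autoImplicit false

namespace Vale.Agent.P167.H816

open Finset Vale.Agent.P167.FK Vale.Agent.P167.FKA
open Relation (ReflTransGen)
open Vale.Agent.P145.FB (PStep PConn)

variable {Q : ℝ}

theorem op_sh {ω : Cfg} {v : ℤ × ℤ} (h : v ∈ op ω) : FKA.sh v ∈ (op (du ω))ᶜ := by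
  have h1 : ω v = true := h
  show ¬ du ω (FKA.sh v) = true
  simp only [du, FKA.sh, add_sub_cancel_right]
  simpa using h1

theorem op_sh' {ω : Cfg} {v : ℤ × ℤ} (h : v ∈ (op (du ω))ᶜ) : FKA.shi v ∈ op ω := by
  have h1 : ¬ du ω v = true := h
  show ω (FKA.shi v) = true
  simp only [du, FKA.shi] at *
  simpa using h1

/-- Duality for arms. -/
theorem arm_dual' {x : ℤ × ℤ} {r R : ℤ} {ω : Cfg} :
    ArmPx x r R ω ↔ ArmDx (FKA.sh x) r R (du ω) := by
  constructor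
  · rintro ⟨u, v, h1, h2, h3, h4⟩
    refine ⟨FKA.sh u, FKA.sh v, ?_, by rw [nm_sh]; exact h2, by rw [nm_sh]; exact h3,
      pconn_sh (fun w hw => op_sh hw) (fun w hw => ?_) h4⟩
    · simp only [FKA.sh, Int.even_iff, Int.odd_iff] at *; omega
    · show nm (FKA.sh w - FKA.sh x) ≤ R
      rw [nm_sh]; exact hw
  · rintro ⟨u, v, h1, h2, h3, h4⟩
    refine ⟨shi u, shi v, ?_, by rw [nm_shi]; exact h2, by rw [nm_shi]; exact h3,
      pconn_shi (fun w hw => op_sh' hw) (fun w hw => ?_) h4⟩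
    · simp only [shi, Int.even_iff, Int.odd_iff] at *; omega
    · show nm (shi w - x) ≤ R
      rw [nm_shi]; exact hw

/-- Two-sided RSW for open arms. -/
theorem two_sided_open (hQ : 0 < Q) (hQ1 : Q ≤ 1) (hV : VR Q) : ∃ c : ℝ, 0 < c ∧ c < 1 ∧
    ∀ (x : ℤ × ℤ) (r : ℤ) (η : Cfg), 1 ≤ r → Good η →
      Pr Q (Bq x (2 * r) \ Bq x r) η {ω | ArmPx x r (2 * r) ω} ≤ 1 - c := by
  obtain ⟨c, hc0, hc1, h⟩ := two_sided_dual hQ hQ1 hV
  refine ⟨c, hc0, hc1, fun x r η hr hη => ?_⟩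
  have h1 := h (FKA.sh x) r (du η) hr (f_dual.1 η hη)
  have e0 : Bq (FKA.sh x) (2 * r) \ Bq (FKA.sh x) r =
      (Bq x (2 * r) \ Bq x r).image (fun v => (v.1 + 1, v.2)) := by
    ext v
    rw [Finset.mem_sdiff, mem_Bq_sh, mem_Bq_sh, Finset.mem_image]
    constructor
    · rintro ⟨h2, h3⟩
      exact ⟨shi v, Finset.mem_sdiff.2 ⟨h2, h3⟩, sh_shi v⟩
    · rintro ⟨w, hw, rfl⟩
      have e1 : shi (w.1 + 1, w.2) = w := shi_sh w
      rw [e1]
      exact Finset.mem_sdiff.1 hw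
  rw [e0, Pr, f_dual.2 Q _ η _ hQ hη] at h1
  refine le_trans (le_of_eq ?_) h1
  rw [Pr]
  refine FKA.Ex_congr fun S _ => ?_
  by_cases h5 : ArmPx x r (2 * r) (cf (Bq x (2 * r) \ Bq x r) η S)
  · rw [Set.indicator_of_mem (show _ ∈ {ω | ArmPx x r (2 * r) ω} from h5),
      Set.indicator_of_mem (show du _ ∈ {ω | ArmDx (FKA.sh x) r (2 * r) ω} from
        arm_dual'.1 h5)]
    rfl
  · rw [Set.indicator_of_notMem (show _ ∉ {ω | ArmPx x r (2 * r) ω} from h5),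
      Set.indicator_of_notMem (show du _ ∉ {ω | ArmDx (FKA.sh x) r (2 * r) ω} from
        fun h6 => h5 (arm_dual'.2 h6))]

/-- From the one-scale bound to the decay. -/
theorem arm_dec_of (hQ0 : 0 < Q) {L : ℤ} {c : ℝ} (hL : 2 ≤ L) (hc0 : 0 < c) (hc1 : c < 1)
    (h : ∀ (x : ℤ × ℤ) (r : ℤ) (η : Cfg), 1 ≤ r → Good η →
      Pr Q (Bq x (L * r) \ Bq x r) η {ω | ArmPx x r (L * r) ω} ≤ 1 - c) :
    ∃ α C : ℝ, 0 < α ∧ 0 < C ∧ ArmDec Q α C := by
  obtain ⟨α, C, hα, hC, hpow⟩ := pow_decay (a := 1 - c) (by linarith) (by linarith) hL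
  refine ⟨α, C, hα, hC, ?_⟩
  intro x r R D η G hr hrR hη hD hG0 hG
  have key : ∀ n : ℕ, L ^ n * r ≤ R → ∃ P : Cfg → ℝ, (∀ ω, 0 ≤ P ω) ∧
      (∀ ω, ArmPx x r R ω → 1 ≤ P ω) ∧ Loc (Bq x (L ^ n * r)) P ∧
      Ex Q D η (fun ω => G ω * P ω) ≤ (1 - c) ^ n * Ex Q D η G := by
    intro n
    induction n with
    | zero =>
      intro _
      exact ⟨fun _ => 1, fun _ => zero_le_one, fun _ _ => le_refl _, fun _ _ _ => rfl, by simp⟩
    | succ n ih =>
      intro hn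
      have hLn : (1 : ℤ) ≤ L ^ n := one_le_pow₀ (by omega)
      have hrn : r ≤ L ^ n * r := by nlinarith
      have e : L ^ (n + 1) * r = L * (L ^ n * r) := by ring
      have hrn' : L ^ n * r ≤ L ^ (n + 1) * r := by rw [e]; nlinarith
      obtain ⟨P, h0, h1, h2, h3⟩ := ih (hrn'.trans hn)
      have hsub : ∀ a b : ℤ, a ≤ b → Bq x a ⊆ Bq x b := by
        intro a b hab v hv
        simp only [Bq, Finset.mem_product, Finset.mem_Ico] at hv ⊢
        omega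
      refine ⟨fun ω => P ω * {ω | ArmPx x (L ^ n * r) (L * (L ^ n * r)) ω}.indicator 1 ω,
        fun ω => mul_nonneg (h0 ω) (ind_nonneg _ _), ?_, ?_, ?_⟩
      · intro ω hω
        have h4 : ω ∈ {ω | ArmPx x (L ^ n * r) (L * (L ^ n * r)) ω} :=
          arm_sub hrn (by rw [← e]; exact hrn') (by rw [← e]; exact hn) hω
        show 1 ≤ P ω * {ω | ArmPx x (L ^ n * r) (L * (L ^ n * r)) ω}.indicator 1 ω
        rw [Set.indicator_of_mem h4]
        simpa using h1 ω hω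
      · intro ω ω' h4
        have h5 : P ω = P ω' := h2 ω ω' fun v hv => h4 v (hsub _ _ hrn' hv)
        have h6 := loc_arm x (L ^ n * r) (L * (L ^ n * r)) ω ω' fun v hv =>
          h4 v (by rw [e]; exact hv)
        simp only [h5, h6]
      · have hAD : Bq x (L * (L ^ n * r)) \ Bq x (L ^ n * r) ⊆ Bq x R \ Bq x r := by
          refine Finset.sdiff_subset_sdiff (hsub _ _ (by rw [← e]; exact hn)) (hsub _ _ hrn)
        have h7 := markov_le H259.f_markov f_good hQ0 (hAD.trans hD) hη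
          (F := {ω | ArmPx x (L ^ n * r) (L * (L ^ n * r)) ω}.indicator 1)
          (G := fun ω => G ω * P ω) (a := 1 - c) ?_ (fun ω => mul_nonneg (hG0 ω) (h0 ω))
          (fun ω hω => h x (L ^ n * r) ω (by omega) hω)
        · simp only [mul_assoc] at h7 ⊢
          refine h7.trans ?_
          rw [pow_succ, mul_comm ((1 - c) ^ n), mul_assoc]
          exact mul_le_mul_of_nonneg_left h3 (by linarith)
        · refine (hG.mono hAD).mul (h2.ind ?_)
          exact Finset.disjoint_sdiff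
  have hGE : 0 ≤ Ex Q D η G := Ex_nonneg hQ0 fun _ _ => hG0 _
  have h5 : ∀ n : ℕ, L ^ n * r ≤ R →
      Ex Q D η (fun ω => G ω * {ω | ArmPx x r R ω}.indicator 1 ω) ≤
        (1 - c) ^ n * Ex Q D η G := by
    intro n hn
    obtain ⟨P, h0, h1, -, h3⟩ := key n hn
    refine le_trans (Ex_mono hQ0 fun S _ => ?_) h3
    refine mul_le_mul_of_nonneg_left ?_ (hG0 _)
    by_cases h4 : cf D η S ∈ {ω | ArmPx x r R ω}
    · rw [Set.indicator_of_mem h4]
      exact h1 _ h4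
    · rw [Set.indicator_of_notMem h4]
      exact h0 _
  rcases hGE.eq_or_lt with h6 | h6
  · have := h5 0 (by simpa using hrR)
    rw [← h6, mul_zero] at this ⊢
    exact this
  · have h7 := hpow (Ex Q D η (fun ω => G ω * {ω | ArmPx x r R ω}.indicator 1 ω) / Ex Q D η G)
      r R hr hrR fun n hn => by rw [div_le_iff₀ h6]; exact h5 n hn
    rwa [div_le_iff₀ h6] at h7

/-- **Decay of the arms**. -/
theorem arm_of_vr (hQ : 0 < Q) (hQ1 : Q ≤ 1) (hV : VR Q) :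
    ∃ α C : ℝ, 0 < α ∧ 0 < C ∧ ArmDec Q α C ∧ ArmDecD Q α C := by
  obtain ⟨c, hc0, hc1, h⟩ := two_sided_open hQ hQ1 hV
  obtain ⟨α, C, h1, h2, h3⟩ := arm_dec_of hQ le_rfl hc0 hc1 h
  exact ⟨α, C, h1, h2, h3, armdecD f_dual hQ h3⟩

end Vale.Agent.P167.H816
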