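import Vale.Agent.P167.H816.Graph
import Vale.Agent.P167.FK.Flip
import Vale.Agent.P167.FK.Sym

/-!
# P167: the random-cluster model `FK.Ex` as a graph model

`FK.Ex Q D η` is `GE` with the edges `pa`, `pb` (open squares) and the exterior relation
`PCs (cf D η ∅)`, and also with the edges `da`, `db` (closed squares) and the exterior relation
`DCs (cf D η D)`. Local planar duality: `planar`.
-/

set_option autoImplicit false

namespace Vale.Agent.P167.H816

open Finset Vale.Agent.P167.FK
open Vale.Agent.P145.FB (PStep PConn)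

/-! ### Connections -/

theorem PC_symm {ω : Cfg} {s t : ℤ × ℤ} (h : PC ω s t) : PC ω t s := by
  induction h with
  | refl => exact Relation.ReflTransGen.refl
  | tail _ h1 ih => exact Relation.ReflTransGen.head h1.symm ih

theorem DC_symm {ω : Cfg} {s t : ℤ × ℤ} (h : DC ω s t) : DC ω t s := by
  induction h with
  | refl => exact Relation.ReflTransGen.refl
  | tail _ h1 ih => exact Relation.ReflTransGen.head h1.symm ih

theorem PC_even {ω : Cfg} {s t : ℤ × ℤ} (h : PC ω s t) (hs : Even (s.1 + s.2)) :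
    Even (t.1 + t.2) := by
  induction h with
  | refl => exact hs
  | tail _ h1 ih => exact even_step h1 ih

theorem odd_step {F : Set (ℤ × ℤ)} {s t : ℤ × ℤ} (h : PStep F s t) (hs : Odd (s.1 + s.2)) :
    Odd (t.1 + t.2) := by
  obtain ⟨h1, h2, -⟩ := h
  rw [Int.odd_iff] at *
  omega

theorem DC_odd {ω : Cfg} {s t : ℤ × ℤ} (h : DC ω s t) (hs : Odd (s.1 + s.2)) :
    Odd (t.1 + t.2) := by
  induction h with
  | refl => exact hs
  | tail _ h1 ih => exact odd_step h1 ih

theorem even_pa (v : ℤ × ℤ) : Even ((pa v).1 + (pa v).2) := by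
  unfold pa
  split_ifs with h
  · exact h
  · rw [Int.even_iff] at *
    simp only
    omega

theorem even_pb (v : ℤ × ℤ) : Even ((pb v).1 + (pb v).2) := by
  unfold pb
  split_ifs with h <;> rw [Int.even_iff] at * <;> simp only <;> omega

theorem odd_da (v : ℤ × ℤ) : Odd ((da v).1 + (da v).2) := by
  unfold da
  split_ifs with h <;> rw [Int.even_iff] at h <;> rw [Int.odd_iff] <;> (try simp only) <;> omega

theorem odd_db (v : ℤ × ℤ) : Odd ((db v).1 + (db v).2) := by
  unfold db
  split_ifs with h <;> rw [Int.even_iff] at h <;> rw [Int.odd_iff] <;> simp only <;> omega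

/-- Primal connections as an equivalence relation (trivial on the odd sites). -/
def PCs (ω : Cfg) : Setoid (ℤ × ℤ) where
  r s t := s = t ∨ (Even (s.1 + s.2) ∧ PC ω s t)
  iseqv := by
    refine ⟨fun s => Or.inl rfl, ?_, ?_⟩
    · rintro s t (h | ⟨h, h'⟩)
      · exact Or.inl h.symm
      · exact Or.inr ⟨PC_even h' h, PC_symm h'⟩
    · rintro s t u (h | ⟨h, h'⟩) (k | ⟨k, k'⟩)
      · exact Or.inl (h.trans k)
      · rw [h]; exact Or.inr ⟨k, k'⟩
      · rw [← k]; exact Or.inr ⟨h, h'⟩
      · exact Or.inr ⟨h, h'.trans k'⟩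

/-- Dual connections as an equivalence relation (trivial on the even sites). -/
def DCs (ω : Cfg) : Setoid (ℤ × ℤ) where
  r s t := s = t ∨ (Odd (s.1 + s.2) ∧ DC ω s t)
  iseqv := by
    refine ⟨fun s => Or.inl rfl, ?_, ?_⟩
    · rintro s t (h | ⟨h, h'⟩)
      · exact Or.inl h.symm
      · exact Or.inr ⟨DC_odd h' h, DC_symm h'⟩
    · rintro s t u (h | ⟨h, h'⟩) (k | ⟨k, k'⟩)
      · exact Or.inl (h.trans k)
      · rw [h]; exact Or.inr ⟨k, k'⟩
      · rw [← k]; exact Or.inr ⟨h, h'⟩
      · exact Or.inr ⟨h, h'.trans k'⟩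

theorem PCs_iff {ω : Cfg} {s t : ℤ × ℤ} (hs : Even (s.1 + s.2)) : PCs ω s t ↔ PC ω s t := by
  constructor
  · rintro (h | ⟨-, h⟩)
    · rw [h]; exact Relation.ReflTransGen.refl
    · exact h
  · exact fun h => Or.inr ⟨hs, h⟩

theorem DCs_iff {ω : Cfg} {s t : ℤ × ℤ} (hs : Odd (s.1 + s.2)) : DCs ω s t ↔ DC ω s t := by
  constructor
  · rintro (h | ⟨-, h⟩)
    · rw [h]; exact Relation.ReflTransGen.refl
    · exact h
  · exact fun h => Or.inr ⟨hs, h⟩

/-- The square of a step. -/
def sqr (u v : ℤ × ℤ) : ℤ × ℤ := (min u.1 v.1, min u.2 v.2)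

theorem step_even {F : Set (ℤ × ℤ)} {u v : ℤ × ℤ} (h : PStep F u v) (hu : Even (u.1 + u.2)) :
    (u = pa (sqr u v) ∧ v = pb (sqr u v)) ∨ (u = pb (sqr u v) ∧ v = pa (sqr u v)) := by
  obtain ⟨u1, u2⟩ := u
  obtain ⟨v1, v2⟩ := v
  obtain ⟨h1, h2, -⟩ := h
  simp only at h1 h2 hu
  rw [Int.even_iff] at hu
  unfold sqr pa pb
  simp only [Int.even_iff]
  rcases h1 with rfl | rfl <;> rcases h2 with rfl | rfl
  · left
    rw [min_eq_left (by omega), min_eq_left (by omega), if_pos hu, if_pos hu]
    exact ⟨rfl, rfl⟩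
  · left
    rw [min_eq_left (by omega), min_eq_right (by omega), if_neg (by omega), if_neg (by omega)]
    exact ⟨by simp, rfl⟩
  · right
    rw [min_eq_right (by omega), min_eq_left (by omega), if_neg (by omega), if_neg (by omega)]
    exact ⟨by simp, rfl⟩
  · right
    rw [min_eq_right (by omega), min_eq_right (by omega), if_pos (by omega), if_pos (by omega)]
    exact ⟨by simp, rfl⟩

theorem step_odd {F : Set (ℤ × ℤ)} {u v : ℤ × ℤ} (h : PStep F u v) (hu : Odd (u.1 + u.2)) :
    (u = da (sqr u v) ∧ v = db (sqr u v)) ∨ (u = db (sqr u v) ∧ v = da (sqr u v)) := by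
  obtain ⟨u1, u2⟩ := u
  obtain ⟨v1, v2⟩ := v
  obtain ⟨h1, h2, -⟩ := h
  simp only at h1 h2 hu
  rw [Int.odd_iff] at hu
  unfold sqr da db
  simp only [Int.even_iff]
  rcases h1 with rfl | rfl <;> rcases h2 with rfl | rfl
  · left
    rw [min_eq_left (by omega), min_eq_left (by omega), if_neg (by omega), if_neg (by omega)]
    exact ⟨rfl, rfl⟩
  · left
    rw [min_eq_left (by omega), min_eq_right (by omega), if_pos (by omega), if_pos (by omega)]
    exact ⟨by simp, rfl⟩
  · right
    rw [min_eq_right (by omega), min_eq_left (by omega), if_pos (by omega), if_pos (by omega)]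
    exact ⟨by simp, rfl⟩
  · right
    rw [min_eq_right (by omega), min_eq_right (by omega), if_neg (by omega), if_neg (by omega)]
    exact ⟨by simp, rfl⟩

theorem PC_mono {ω ω' : Cfg} (h : ∀ v, ω v = true → ω' v = true) {s t : ℤ × ℤ} (hst : PC ω s t) :
    PC ω' s t := by
  induction hst with
  | refl => exact Relation.ReflTransGen.refl
  | tail _ h' ih => exact ih.tail ⟨h'.1, h'.2.1, h _ h'.2.2⟩

theorem DC_mono {ω ω' : Cfg} (h : ∀ v, ω v = false → ω' v = false) {s t : ℤ × ℤ}
    (hst : DC ω s t) : DC ω' s t := by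
  induction hst with
  | refl => exact Relation.ReflTransGen.refl
  | tail _ h' ih =>
    refine ih.tail ⟨h'.1, h'.2.1, ?_⟩
    have h1 := h'.2.2
    simp only [op, Set.mem_compl_iff, Set.mem_ofPred_eq, Bool.not_eq_true] at h1 ⊢
    exact h _ h1

variable {D : Finset (ℤ × ℤ)} {η : Cfg}

/-- **Connections of `cf D η S`**: the exterior connections and the open squares. -/
theorem PC_cf {S : Finset (ℤ × ℤ)} (hS : S ⊆ D) {s t : ℤ × ℤ} (hs : Even (s.1 + s.2)) :
    PC (cf D η S) s t ↔ con pa pb (PCs (cf D η ∅)) S s t := by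
  constructor
  · intro h
    have key : Even (t.1 + t.2) ∧ con pa pb (PCs (cf D η ∅)) S s t := by
      induction h with
      | refl => exact ⟨hs, (con pa pb _ S).refl s⟩
      | @tail u v _ h1 ih =>
        refine ⟨even_step h1 ih.1, (con pa pb _ S).trans ih.2 ?_⟩
        have h2 : cf D η S (sqr u v) = true := h1.2.2
        by_cases hD : sqr u v ∈ D
        · have h3 : sqr u v ∈ S := by simpa [cf, hD] using h2
          have h4 := con_edge pa pb (PCs (cf D η ∅)) h3
          rcases step_even h1 ih.1 with ⟨h5, h6⟩ | ⟨h5, h6⟩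
          · rw [← h5, ← h6] at h4
            exact h4
          · rw [← h5, ← h6] at h4
            exact (con pa pb _ S).symm h4
        · refine le_con pa pb _ S ((PCs_iff ih.1).2 (Relation.ReflTransGen.single ?_))
          refine ⟨h1.1, h1.2.1, ?_⟩
          show cf D η ∅ (sqr u v) = true
          simpa [cf, hD] using h2
    exact key.2
  · intro h
    have h1 : con pa pb (PCs (cf D η ∅)) S ≤ PCs (cf D η S) := by
      refine sup_le ?_ (Finset.sup_le fun e he => join_le_iff'.2 ?_)
      · rintro u v (h | ⟨h, h'⟩)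
        · exact Or.inl h
        · refine Or.inr ⟨h, PC_mono (fun v hv => ?_) h'⟩
          by_cases hD : v ∈ D
          · simp [cf, hD] at hv
          · simpa [cf, hD] using hv
      · rw [PCs_iff (even_pa e)]
        refine Relation.ReflTransGen.single (step_ab ?_)
        simp [cf, hS he, he]
    exact (PCs_iff hs).1 (h1 h)

/-- Dual connections of `cf D η (D \ S)`. -/
theorem DC_cf {S : Finset (ℤ × ℤ)} (hS : S ⊆ D) {s t : ℤ × ℤ} (hs : Odd (s.1 + s.2)) :
    DC (cf D η (D \ S)) s t ↔ con da db (DCs (cf D η D)) S s t := by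
  constructor
  · intro h
    have key : Odd (t.1 + t.2) ∧ con da db (DCs (cf D η D)) S s t := by
      induction h with
      | refl => exact ⟨hs, (con da db _ S).refl s⟩
      | @tail u v _ h1 ih =>
        refine ⟨odd_step h1 ih.1, (con da db _ S).trans ih.2 ?_⟩
        have h2 : cf D η (D \ S) (sqr u v) = false := by
          have := h1.2.2
          simpa [op, sqr] using this
        by_cases hD : sqr u v ∈ D
        · have h3 : sqr u v ∈ S := by simpa [cf, hD] using h2
          have h4 := con_edge da db (DCs (cf D η D)) h3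
          rcases step_odd h1 ih.1 with ⟨h5, h6⟩ | ⟨h5, h6⟩
          · rw [← h5, ← h6] at h4
            exact h4
          · rw [← h5, ← h6] at h4
            exact (con da db _ S).symm h4
        · refine le_con da db _ S ((DCs_iff ih.1).2 (Relation.ReflTransGen.single ?_))
          refine ⟨h1.1, h1.2.1, ?_⟩
          have : cf D η D (sqr u v) = false := by simpa [cf, hD] using h2
          simpa [op, sqr] using this
    exact key.2
  · intro h
    have h1 : con da db (DCs (cf D η D)) S ≤ DCs (cf D η (D \ S)) := by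
      refine sup_le ?_ (Finset.sup_le fun e he => join_le_iff'.2 ?_)
      · rintro u v (h | ⟨h, h'⟩)
        · exact Or.inl h
        · refine Or.inr ⟨h, DC_mono (fun v hv => ?_) h'⟩
          by_cases hD : v ∈ D
          · simp [cf, hD] at hv
          · simpa [cf, hD] using hv
      · rw [DCs_iff (odd_da e)]
        refine Relation.ReflTransGen.single (dstep_ab ?_)
        simp [cf, hS he, he]
    exact (DCs_iff hs).1 (h1 h)

/-! ### The flips -/

theorem cf_insert_sq {S : Finset (ℤ × ℤ)} {e : ℤ × ℤ} (he : e ∈ D) :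
    cf D η (insert e S) = Function.update (cf D η S) e true := by
  funext v
  by_cases h : v = e
  · subst h
    simp [cf, he]
  · simp [cf, h]

/-- Shift. -/
theorem PC_du {ω : Cfg} {s t : ℤ × ℤ} : PC (du ω) (s.1 + 1, s.2) (t.1 + 1, t.2) ↔ DC ω s t := by
  have hst : ∀ u v : ℤ × ℤ, PStep (op (du ω)) (u.1 + 1, u.2) (v.1 + 1, v.2) ↔
      PStep (op ω)ᶜ u v := by
    intro u v
    unfold PStep
    have e1 : min (u.1 + 1) (v.1 + 1) = min u.1 v.1 + 1 := by omega
    simp only [e1, op, du, Set.mem_compl_iff, Set.mem_ofPred_eq, add_sub_cancel_right]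
    rw [Bool.not_eq_true', Bool.not_eq_true]
    constructor
    · rintro ⟨h1, h2, h3⟩
      exact ⟨by omega, h2, h3⟩
    · rintro ⟨h1, h2, h3⟩
      exact ⟨by omega, h2, h3⟩
  constructor
  · intro h
    have key : ∀ z, PC (du ω) (s.1 + 1, s.2) z → DC ω s (z.1 - 1, z.2) := by
      intro z hz
      induction hz with
      | refl =>
        simp only [add_sub_cancel_right]
        exact Relation.ReflTransGen.refl
      | @tail y z _ h1 ih =>
        refine ih.tail ((hst _ _).1 ?_)
        simpa using h1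
    have := key _ h
    simpa using this
  · intro h
    induction h with
    | refl => exact Relation.ReflTransGen.refl
    | tail _ h1 ih => exact ih.tail ((hst _ _).2 h1)

theorem pa_sh (a : ℤ × ℤ) : pa (a.1 + 1, a.2) = ((da a).1 + 1, (da a).2) := by
  unfold pa da
  by_cases h : Even (a.1 + a.2)
  · have h' : ¬ Even (a.1 + 1 + a.2) := by rw [Int.even_iff] at *; omega
    simp [h, h']
  · have h' : Even (a.1 + 1 + a.2) := by rw [Int.even_iff] at *; omega
    simp [h, h']

theorem pb_sh (a : ℤ × ℤ) : pb (a.1 + 1, a.2) = ((db a).1 + 1, (db a).2) := by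
  unfold pb db
  by_cases h : Even (a.1 + a.2)
  · have h' : ¬ Even (a.1 + 1 + a.2) := by rw [Int.even_iff] at *; omega
    simp [h, h']
  · have h' : Even (a.1 + 1 + a.2) := by rw [Int.even_iff] at *; omega
    simp [h, h']

theorem du_update (ω : Cfg) (a : ℤ × ℤ) (c : Bool) :
    du (Function.update ω a c) = Function.update (du ω) (a.1 + 1, a.2) (!c) := by
  funext v
  unfold du
  by_cases h : v = (a.1 + 1, a.2)
  · subst h
    simp
  · rw [Function.update_of_ne h, Function.update_of_ne]
    intro h'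
    apply h
    rw [← h']
    simp

/-- Closing a square, dual form of `f_flip`. -/
theorem f_flip_dual (D : Finset (ℤ × ℤ)) (ω : Cfg) (a : ℤ × ℤ) (hG : Good ω) (haD : a ∈ D)
    (ha : ω a = true) :
    (DC ω (da a) (db a) → LD D (Function.update ω a false) = LD D ω + 1) ∧
    (¬ DC ω (da a) (db a) → LD D (Function.update ω a false) + 1 = LD D ω) := by
  have h1 := f_flip (D.image shV) (du ω) (a.1 + 1, a.2) ((syR_du ω).sy.good hG)
    (mem_image_of_mem shV haD) (by simp [du, ha])
  have h2 := (syR_du ω).sy.LD D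
  have h3 := (syR_du (Function.update ω a false)).sy.LD D
  rw [du_update, Bool.not_false] at h3
  rw [h2, h3, pa_sh, pb_sh, PC_du] at h1
  exact h1

/-- **Local planar duality**: in a configuration with finite interfaces, the primal corners of the
square `a` are joined off `a` iff the dual corners are not. -/
theorem planar {ω : Cfg} (hG : Good ω) (a : ℤ × ℤ) :
    PC (Function.update ω a false) (pa a) (pb a) ↔
      ¬ DC (Function.update ω a true) (da a) (db a) := by
  have h1 := f_flip {a} (Function.update ω a false) a (good_update hG a false)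
    (mem_singleton_self a) (by simp)
  have h2 := f_flip_dual {a} (Function.update ω a true) a (good_update hG a true)
    (mem_singleton_self a) (by simp)
  rw [Function.update_idem] at h1 h2
  by_cases h3 : PC (Function.update ω a false) (pa a) (pb a)
  · refine ⟨fun _ h4 => ?_, fun _ => h3⟩
    have h5 := h1.1 h3
    have h6 := h2.1 h4
    omega
  · refine ⟨fun h => absurd h h3, fun h4 => ?_⟩
    have h5 := h1.2 h3
    have h6 := h2.2 h4
    omega

/-! ### The bridge -/

variable {Q : ℝ}

theorem rec_P (hQ : 0 < Q) (hη : Good η) : Rec pa pb (fun _ => Q) (Q ^ 2) D (PCs (cf D η ∅))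
    (fun S => Q ^ LD D (cf D η S)) := by
  intro S hS e he heS
  have h1 := f_flip D (cf D η S) e (good_cf D hη S) he (by simp [cf, he, heS])
  rw [← cf_insert_sq he] at h1
  have h2 := PC_cf (η := η) hS (even_pa e) (t := pb e)
  beta_reduce
  by_cases h3 : con pa pb (PCs (cf D η ∅)) S (pa e) (pb e)
  · rw [if_pos h3, h1.1 (h2.2 h3), pow_succ]
    ring
  · rw [if_neg h3, ← h1.2 fun h4 => h3 (h2.1 h4), pow_succ (Q : ℝ) (LD _ _)]
    field_simp

/-- **The bridge**, primal form. -/
theorem Ex_eq_GE (hQ : 0 < Q) (hη : Good η) (D : Finset (ℤ × ℤ)) (F : Cfg → ℝ) :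
    Ex Q D η F =
      GE pa pb (fun _ => Q) (Q ^ 2) D (PCs (cf D η ∅)) (fun S => F (cf D η S)) :=
  (rec_P hQ hη).sum_div (pow_pos hQ 2) (pow_pos hQ _).ne' _

theorem rec_D (hQ : 0 < Q) (hη : Good η) : Rec da db (fun _ => Q) (Q ^ 2) D (DCs (cf D η D))
    (fun S => Q ^ LD D (cf D η (D \ S))) := by
  intro S hS e he heS
  have h1 := f_flip_dual D (cf D η (D \ S)) e (good_cf D hη _) he (by simp [cf, he, heS])
  have h0 : Function.update (cf D η (D \ S)) e false = cf D η (D \ insert e S) := by
    funext v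
    by_cases h : v = e
    · subst h
      simp [cf, he]
    · rw [Function.update_of_ne h]
      simp [cf, h]
  rw [h0] at h1
  have h2 := DC_cf (η := η) hS (odd_da e) (t := db e)
  beta_reduce
  by_cases h3 : con da db (DCs (cf D η D)) S (da e) (db e)
  · rw [if_pos h3, h1.1 (h2.2 h3), pow_succ]
    ring
  · rw [if_neg h3, ← h1.2 fun h4 => h3 (h2.1 h4), pow_succ (Q : ℝ) (LD _ _)]
    field_simp

/-- **The bridge**, dual form. -/
theorem Ex_eq_GE_dual (hQ : 0 < Q) (hη : Good η) (D : Finset (ℤ × ℤ)) (F : Cfg → ℝ) :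
    Ex Q D η F =
      GE da db (fun _ => Q) (Q ^ 2) D (DCs (cf D η D)) (fun S => F (cf D η (D \ S))) := by
  rw [← (rec_D hQ hη).sum_div (pow_pos hQ 2) (pow_pos hQ _).ne', Ex, Zq]
  have h : ∀ f : Finset (ℤ × ℤ) → ℝ, ∑ S ∈ D.powerset, f S = ∑ S ∈ D.powerset, f (D \ S) := by
    intro f
    refine sum_nbij' (fun S => D \ S) (fun S => D \ S) ?_ ?_ ?_ ?_ ?_
    · exact fun S _ => mem_powerset.2 sdiff_subset
    · exact fun S _ => mem_powerset.2 sdiff_subset
    · exact fun S hS => Finset.sdiff_sdiff_eq_self (mem_powerset.1 hS)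
    · exact fun S hS => Finset.sdiff_sdiff_eq_self (mem_powerset.1 hS)
    · intro S hS
      rw [Finset.sdiff_sdiff_eq_self (mem_powerset.1 hS)]
  rw [h, h (fun S => Q ^ LD D (cf D η S))]

end Vale.Agent.P167.H816
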