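import Vale.Agent.P167.H816.Wire

/-!
# P167: comparison for a free target on the boundary (CM), `0 < Q ≤ 1`

`T` is a set of even sites, `w` an even site. `A` is a finite set of squares outside of the domain,
closed for `η`, such that opening all of them (`cf A η A`) joins `T` and `w` outside of the domain and
cuts the free arc; `x`, `y` are odd sites on the two sides of the cut (`Cut`). `cm`: when the two free
arcs between `w` and `T` grow, the probability that `T` and `w` are joined decreases.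
-/

set_option autoImplicit false
set_option linter.unusedSectionVars false

namespace Vale.Agent.P167.H816

open Finset Vale.Agent.P167.FK
open Vale.Agent.P145.FB (PStep PConn)
open Vale.Agent.P167.H623 (join sup_join)

/-! ### Arbitrary exterior relation -/

section rel

variable {X ι : Type*} [DecidableEq ι] (a b : ι → X) {w : ι → ℝ} {q : ℝ} (D : Finset ι)

theorem sep_congr {r r' : Setoid X} {x y : X} {Y : Set X} (hY : ∀ z ∈ ends a b D, z ∈ Y)
    (hx : x ∈ Y) (hy : y ∈ Y) (h : ∀ z ∈ Y, ∀ z' ∈ Y, (r z z' ↔ r' z z')) {S : Finset ι}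
    (hS : S ⊆ D) : con a b r S x y ↔ con a b r' S x y :=
  con_congr a b (S := S) (Y := Y) (fun _ he =>
    ⟨hY _ (fst_mem_ends a b D (hS he)), hY _ (snd_mem_ends a b D (hS he))⟩) h x hx y hy

/-- **T1 with wired bystanders, two roots**: the classes of `x` and `y` grow. -/
theorem t1_by₂ (hw : ∀ e, 0 ≤ w e) (hq : 0 < q) (hq1 : q ≤ 1) {r r' : Setoid X} {x y : X}
    {Y B : Set X} (hY : ∀ z ∈ ends a b D, z ∈ Y) (hx : x ∈ Y) (hy : y ∈ Y) (hB : B ⊆ Y)
    (h1 : ∀ s ∈ Y, ∀ t ∈ Y, r s t → r' s t)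
    (h2 : ∀ s ∈ Y, ∀ t ∈ Y, r' s t → r s t ∨ (r' s x ∧ r' t x) ∨ (r' s y ∧ r' t y)) :
    GP a b w q D (r' ⊔ wir ({x, y} ∪ B)) (fun S => ¬ con a b r' S x y) ≤
      GP a b w q D (r ⊔ wir ({x, y} ∪ B)) (fun S => ¬ con a b r S x y) := by
  set W : Set X := {s | s ∈ Y ∧ r' s x} with hW
  set V : Set X := {s | s ∈ Y ∧ r' s y} with hV
  have hxW : x ∈ W := ⟨hx, r'.refl x⟩
  have hyV : y ∈ V := ⟨hy, r'.refl y⟩
  -- the relation with the class of `x`
  have hle1 : ∀ s ∈ Y, ∀ t ∈ Y, (r ⊔ wir W) s t → r' s t := by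
    intro s hs t ht h
    rcases (sup_wir_iff _ _ _ _).1 h with h | ⟨⟨u, hu, h⟩, v, hv, h'⟩
    · exact h1 s hs t ht h
    · exact r'.trans (h1 s hs u hu.1 h) (r'.trans hu.2
        (r'.trans (r'.symm hv.2) (r'.symm (h1 t ht v hv.1 h'))))
  have heq : ∀ s ∈ Y, ∀ t ∈ Y, ((r ⊔ wir W ⊔ wir V) s t ↔ r' s t) := by
    intro s hs t ht
    constructor
    · intro h
      rcases (sup_wir_iff _ _ _ _).1 h with h | ⟨⟨u, hu, h⟩, v, hv, h'⟩
      · exact hle1 s hs t ht h
      · exact r'.trans (hle1 s hs u hu.1 h) (r'.trans hu.2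
          (r'.trans (r'.symm hv.2) (r'.symm (hle1 t ht v hv.1 h'))))
    · intro h
      rcases h2 s hs t ht h with h | ⟨h, h'⟩ | ⟨h, h'⟩
      · exact (sup_wir_iff _ _ _ _).2 (Or.inl ((sup_wir_iff _ _ _ _).2 (Or.inl h)))
      · exact (sup_wir_iff _ _ _ _).2 (Or.inl ((sup_wir_iff _ _ _ _).2
          (Or.inr ⟨⟨s, ⟨hs, h⟩, r.refl s⟩, ⟨t, ⟨ht, h'⟩, r.refl t⟩⟩)))
      · exact (sup_wir_iff _ _ _ _).2
          (Or.inr ⟨⟨s, ⟨hs, h⟩, Setoid.refl' _ s⟩, ⟨t, ⟨ht, h'⟩, Setoid.refl' _ t⟩⟩)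
  -- a general step
  have step : ∀ (ρ : Setoid X) (u v : X) (U : Set X), u ∈ U →
      GP a b w q D (ρ ⊔ wir U ⊔ wir ({u, v} ∪ B)) (fun S => ¬ con a b (ρ ⊔ wir U) S u v) ≤
        GP a b w q D (ρ ⊔ wir ({u, v} ∪ B)) (fun S => ¬ con a b ρ S u v) := by
    intro ρ u v U hu
    have h := t1_by a b D hw hq hq1 ρ {v} B (Set.singleton_subset_iff.2 hu)
    have e1 : ρ ⊔ wir (U ∪ {v} ∪ B) = ρ ⊔ wir U ⊔ wir ({u, v} ∪ B) := by
      apply le_antisymm
      · refine sup_le (le_sup_left.trans le_sup_left) ?_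
        have g1 : wir U ≤ ρ ⊔ wir U ⊔ wir ({u, v} ∪ B) := le_sup_right.trans le_sup_left
        have g2 : wir ({u, v} ∪ B) ≤ ρ ⊔ wir U ⊔ wir ({u, v} ∪ B) := le_sup_right
        have key : ∀ z ∈ U ∪ {v} ∪ B, (ρ ⊔ wir U ⊔ wir ({u, v} ∪ B)) z u := by
          rintro z ((hz | hz) | hz)
          · exact g1 (Or.inr ⟨hz, hu⟩)
          · exact g2 (Or.inr ⟨Or.inl (Or.inr hz), Or.inl (Or.inl rfl)⟩)
          · exact g2 (Or.inr ⟨Or.inr hz, Or.inl (Or.inl rfl)⟩)
        rintro z z' (h | ⟨h, h'⟩)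
        · rw [h]
        · exact Setoid.trans' _ (key z h) (Setoid.symm' _ (key z' h'))
      · refine sup_le (sup_le le_sup_left ?_) ?_
        · refine le_trans ?_ (le_sup_right : _ ≤ ρ ⊔ wir (U ∪ {v} ∪ B))
          rintro z z' (h | ⟨h, h'⟩)
          · exact Or.inl h
          · exact Or.inr ⟨Or.inl (Or.inl h), Or.inl (Or.inl h')⟩
        · refine le_trans ?_ (le_sup_right : _ ≤ ρ ⊔ wir (U ∪ {v} ∪ B))
          have key : ∀ z ∈ ({u, v} ∪ B : Set X), z ∈ U ∪ {v} ∪ B := by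
            rintro z ((hz | hz) | hz)
            · rw [hz]; exact Or.inl (Or.inl hu)
            · exact Or.inl (Or.inr hz)
            · exact Or.inr hz
          rintro z z' (h | ⟨h, h'⟩)
          · exact Or.inl h
          · exact Or.inr ⟨key z h, key z' h'⟩
    have e2 : wir ({u} ∪ {v} ∪ B) = wir ({u, v} ∪ B) := rfl
    have e3 : GP a b w q D (ρ ⊔ wir U ⊔ wir ({u, v} ∪ B)) (Sep a b ρ {v} U) =
        GP a b w q D (ρ ⊔ wir U ⊔ wir ({u, v} ∪ B)) (fun S => ¬ con a b (ρ ⊔ wir U) S u v) := by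
      refine GP_congr a b D hq (fun _ _ _ _ => Iff.rfl) fun S _ => ?_
      rw [← sep_wir]
      constructor
      · exact fun h hc => h v rfl u hu ((con a b (ρ ⊔ wir U) S).symm hc)
      · intro h t ht z hz hc
        rw [Set.mem_singleton_iff] at ht
        rw [ht] at hc
        refine h ?_
        have g1 : wir U ≤ con a b (ρ ⊔ wir U) S :=
          (le_sup_right : wir U ≤ ρ ⊔ wir U).trans (le_con a b _ S)
        exact (con a b (ρ ⊔ wir U) S).trans (g1 (Or.inr ⟨hu, hz⟩))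
          ((con a b (ρ ⊔ wir U) S).symm hc)
    have e4 : GP a b w q D (ρ ⊔ wir ({u, v} ∪ B)) (Sep a b ρ {v} {u}) =
        GP a b w q D (ρ ⊔ wir ({u, v} ∪ B)) (fun S => ¬ con a b ρ S u v) := by
      refine GP_congr a b D hq (fun _ _ _ _ => Iff.rfl) fun S _ => ?_
      constructor
      · exact fun h hc => h v rfl u rfl ((con a b ρ S).symm hc)
      · intro h t ht z hz hc
        rw [Set.mem_singleton_iff] at ht hz
        rw [ht, hz] at hc
        exact h ((con a b ρ S).symm hc)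
    rw [e1, e2, e3, e4] at h
    exact h
  have hsym : ∀ (ρ : Setoid X), GP a b w q D (ρ ⊔ wir ({x, y} ∪ B)) (fun S => ¬ con a b ρ S x y) =
      GP a b w q D (ρ ⊔ wir ({y, x} ∪ B)) (fun S => ¬ con a b ρ S y x) := by
    intro ρ
    have e : ({y, x} : Set X) = {x, y} := Set.pair_comm y x
    rw [e]
    refine GP_congr a b D hq (fun _ _ _ _ => Iff.rfl) fun S _ => ?_
    exact not_congr ⟨fun h => (con a b ρ S).symm h, fun h => (con a b ρ S).symm h⟩
  have s1 := step r x y W hxW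
  have s2 := step (r ⊔ wir W) y x V hyV
  rw [← hsym, ← hsym] at s2
  refine le_trans (le_of_eq ?_) (s2.trans s1)
  refine GP_congr a b D hq (fun z hz z' hz' => ?_) fun S hS => ?_
  · have hxyB : ({x, y} ∪ B : Set X) ⊆ Y := by
      rintro z ((hz | hz) | hz)
      · rw [hz]; exact hx
      · rw [Set.mem_singleton_iff] at hz
        rw [hz]; exact hy
      · exact hB hz
    refine (sup_wir_iff _ _ _ _).trans (Iff.trans ?_ (sup_wir_iff _ _ _ _).symm)
    refine or_congr (heq z (hY z hz) z' (hY z' hz')).symm (and_congr ?_ ?_)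
    · exact ⟨fun ⟨u, hu, h⟩ => ⟨u, hu, (heq z (hY z hz) u (hxyB hu)).2 h⟩,
        fun ⟨u, hu, h⟩ => ⟨u, hu, (heq z (hY z hz) u (hxyB hu)).1 h⟩⟩
    · exact ⟨fun ⟨u, hu, h⟩ => ⟨u, hu, (heq z' (hY z' hz') u (hxyB hu)).2 h⟩,
        fun ⟨u, hu, h⟩ => ⟨u, hu, (heq z' (hY z' hz') u (hxyB hu)).1 h⟩⟩
  · exact not_congr (sep_congr a b D hY hx hy heq hS).symm

end rel

/-! ### Cuts -/

variable {Q : ℝ} {D E A : Finset (ℤ × ℤ)} {η ξ : Cfg} {T : Set (ℤ × ℤ)} {w x y : ℤ × ℤ}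

theorem cf_comm (hA : ∀ a ∈ A, a ∉ D) (η : Cfg) (S S' : Finset (ℤ × ℤ)) :
    cf D (cf A η S') S = cf A (cf D η S) S' := by
  funext v
  by_cases h : v ∈ A
  · have h' := hA v h
    simp [cf, h, h']
  · simp [cf, h]

/-- Opening the squares of `A` cuts the free arc between `w` and `T`: `x` and `y` are on the two
sides. -/
structure Cut (D : Finset (ℤ × ℤ)) (η : Cfg) (A : Finset (ℤ × ℤ)) (T : Set (ℤ × ℤ))
    (w x y : ℤ × ℤ) : Prop where
  good : Good η
  disj : ∀ a ∈ A, a ∉ D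
  closed : ∀ a ∈ A, η a = false
  oddx : Odd (x.1 + x.2)
  oddy : Odd (y.1 + y.2)
  free : ∀ s ∈ Od A ∪ {x}, DC (cf D η D) s y
  dual : ∀ S ⊆ D, (∃ t ∈ T, PC (cf D η S) t w) ↔ ¬ DC (cf D (cf A η A) S) x y

/-- The dual exterior relation in terms of the one of the cut configuration. -/
theorem Cut.rel (h : Cut D η A T w x y) {s t : ℤ × ℤ} (hs : Odd (s.1 + s.2)) :
    DCs (cf D η D) s t ↔ (DCs (cf D (cf A η A) D) ⊔ wir ({x, y} ∪ Od A)) s t := by
  have e1 : cf A (cf D η D) (A \ A) = cf D η D := by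
    funext v
    by_cases hv : v ∈ A
    · have h1 := h.disj v hv
      have h2 := h.closed v hv
      simp [cf, hv, h1, h2]
    · simp [cf, hv]
  have h1 := DC_cf (D := A) (η := cf D η D) (subset_refl A) (t := t) hs
  rw [e1, ← cf_comm h.disj] at h1
  constructor
  · intro h2
    rw [DCs_iff hs, h1] at h2
    have h3 : con da db (DCs (cf D (cf A η A) D)) A ≤
        DCs (cf D (cf A η A) D) ⊔ wir ({x, y} ∪ Od A) := by
      refine sup_le le_sup_left (Finset.sup_le fun e he => join_le_iff'.2 ?_)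
      have h4 : wir ({x, y} ∪ Od A) ≤ DCs (cf D (cf A η A) D) ⊔ wir ({x, y} ∪ Od A) :=
        le_sup_right
      exact h4 (Or.inr ⟨Or.inr ⟨e, he, Or.inl rfl⟩, Or.inr ⟨e, he, Or.inr rfl⟩⟩)
    exact h3 h2
  · intro h2
    have h3 : DCs (cf D (cf A η A) D) ⊔ wir ({x, y} ∪ Od A) ≤ DCs (cf D η D) := by
      refine sup_le ?_ ?_
      · rintro u v (h | ⟨h', h''⟩)
        · exact Or.inl h
        · refine Or.inr ⟨h', DC_mono (fun z hz => ?_) h''⟩
          by_cases hzA : z ∈ A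
          · have := h.disj z hzA
            simp [cf, this, hzA] at hz
          · by_cases hzD : z ∈ D
            · simp [cf, hzD] at hz
            · simpa [cf, hzD, hzA] using hz
      · have key : ∀ z ∈ ({x, y} ∪ Od A : Set (ℤ × ℤ)), DCs (cf D η D) z y := by
          rintro z ((hz | hz) | hz)
          · rw [hz]
            exact Or.inr ⟨h.oddx, h.free x (Or.inr rfl)⟩
          · rw [Set.mem_singleton_iff] at hz
            rw [hz]
          · exact Or.inr ⟨odd_Od hz, h.free z (Or.inl hz)⟩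
        rintro u v (h | ⟨h', h''⟩)
        · exact Or.inl h
        · exact Setoid.trans' _ (key u h') (Setoid.symm' _ (key v h''))
    exact h3 h2

theorem Cut.Pr_eq (h : Cut D η A T w x y) (hQ : 0 < Q) : Pr Q D η (PJ T w) =
    GP da db (fun _ => Q) (Q ^ 2) D (DCs (cf D (cf A η A) D) ⊔ wir ({x, y} ∪ Od A))
      (fun S => ¬ con da db (DCs (cf D (cf A η A) D)) S x y) := by
  rw [Pr_eq_GP_dual hQ h.good]
  refine GP_congr da db D (pow_pos hQ 2) (fun s hs t _ => h.rel ?_) fun S hS => ?_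
  · obtain ⟨e, -, rfl | rfl⟩ := (mem_ends da db D).1 hs
    · exact odd_da e
    · exact odd_db e
  · rw [← DC_cf hS h.oddx]
    exact h.dual (D \ S) sdiff_subset

/-- **CM**: the free arcs between `w` and `T` are larger in `(E, ξ)` than in `(D, η)`. -/
theorem cm_gen (hQ : 0 < Q) (hQ1 : Q ≤ 1) (hED : E ⊆ D) (hD : Cut D η A T w x y)
    (hE : Cut E ξ A T w x y)
    (h1 : ∀ S ⊆ D, ∀ s ∈ Od E ∪ Od A ∪ {x, y}, ∀ t ∈ Od E ∪ Od A ∪ {x, y},
      DC (cf E (cf D (cf A η A) S) E) s t → DC (cf E (cf A ξ A) E) s t)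
    (h2 : ∀ S ⊆ D, ∀ s ∈ Od E ∪ Od A ∪ {x, y}, ∀ t ∈ Od E ∪ Od A ∪ {x, y},
      DC (cf E (cf A ξ A) E) s t → DC (cf E (cf D (cf A η A) S) E) s t ∨
      (DC (cf E (cf A ξ A) E) s x ∧ DC (cf E (cf A ξ A) E) t x) ∨
      (DC (cf E (cf A ξ A) E) s y ∧ DC (cf E (cf A ξ A) E) t y)) :
    Pr Q E ξ (PJ T w) ≤ Pr Q D η (PJ T w) := by
  refine le_Pr_of_forall hQ hD.good hED fun S hS => ?_
  -- the cut in the domain `E` with the configuration of `D \ E`
  have hcf : ∀ S' ⊆ E, cf E (cf D η S) S' = cf D η (S \ E ∪ S') := by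
    intro S' hS'
    funext v
    by_cases hvE : v ∈ E
    · simp [cf, hvE, hED hvE]
    · have : v ∉ S' := fun h => hvE (hS' h)
      by_cases hvD : v ∈ D <;> simp [cf, hvE, hvD, this]
  have hAE : ∀ a ∈ A, a ∉ E := fun a ha h => hD.disj a ha (hED h)
  have hcA : cf A (cf D η S) A = cf D (cf A η A) S := (cf_comm hD.disj η S A).symm
  have hcut : Cut E (cf D η S) A T w x y := by
    refine ⟨good_cf D hD.good S, hAE, fun a ha => ?_, hD.oddx, hD.oddy, fun s hs => ?_,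
      fun S' hS' => ?_⟩
    · have h3 := hD.disj a ha
      simp [cf, h3, hD.closed a ha]
    · refine DC_mono (fun z hz => ?_) (hD.free s hs)
      by_cases hzD : z ∈ D
      · simp [cf, hzD] at hz
      · have hzE : z ∉ E := fun h => hzD (hED h)
        simpa [cf, hzD, hzE] using hz
    · have h3 := hD.dual (S \ E ∪ S') (union_subset (sdiff_subset.trans hS) (hS'.trans hED))
      rw [hcf S' hS', hcA]
      rw [h3]
      have e : cf E (cf D (cf A η A) S) S' = cf D (cf A η A) (S \ E ∪ S') := by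
        funext v
        by_cases hvE : v ∈ E
        · simp [cf, hvE, hED hvE]
        · have : v ∉ S' := fun h => hvE (hS' h)
          by_cases hvD : v ∈ D <;> simp [cf, hvE, hvD, this]
      rw [e]
  rw [hE.Pr_eq hQ, hcut.Pr_eq hQ, hcA]
  have hodd : ∀ s ∈ Od E ∪ Od A ∪ {x, y}, Odd (s.1 + s.2) := by
    rintro s ((hs | hs) | hs | hs)
    · exact odd_Od hs
    · exact odd_Od hs
    · rw [hs]; exact hD.oddx
    · rw [Set.mem_singleton_iff] at hs
      rw [hs]; exact hD.oddy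
  refine t1_by₂ da db E (fun _ => hQ.le) (pow_pos hQ 2) (pow_le_one' hQ hQ1)
    (Y := Od E ∪ Od A ∪ {x, y}) (fun z hz => Or.inl (Or.inl ((mem_ends da db E).1 hz)))
    (Or.inr (Or.inl rfl)) (Or.inr (Or.inr rfl)) (fun z hz => Or.inl (Or.inr hz)) ?_ ?_
  · intro s hs t ht h
    rw [DCs_iff (hodd s hs)] at h ⊢
    exact h1 S hS s hs t ht h
  · intro s hs t ht h
    rw [DCs_iff (hodd s hs)] at h
    rw [DCs_iff (hodd s hs), DCs_iff (hodd s hs), DCs_iff (hodd t ht), DCs_iff (hodd s hs),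
      DCs_iff (hodd t ht)]
    exact h2 S hS s hs t ht h

/-- **CM with banks**: `U`, `V` (the two free arcs) and `G` (the free arcs between the points of `T`)
are sets of odd sites. -/
theorem cm (hQ : 0 < Q) (hQ1 : Q ≤ 1) (hED : E ⊆ D) (hD : Cut D η A T w x y)
    (hE : Cut E ξ A T w x y) {U V G : Set (ℤ × ℤ)} (hUV : Disjoint U V)
    (hxU : x ∈ U) (hyV : y ∈ V)
    (hG : ∀ b, b ∉ E → b ∉ A → (b ∈ D ∨ η b = false ∨ ξ b = false) → (da b ∈ G ∨ db b ∈ G) →
      da b ∈ G ∧ db b ∈ G ∧ b ∉ D ∧ η b = ξ b)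
    (hH : ∀ b, b ∉ E → b ∉ A → (b ∈ D ∨ η b = false) → (da b ∈ U ↔ db b ∈ U) ∧
      (da b ∈ V ↔ db b ∈ V) ∧ (da b ∈ Od E ∪ Od A → da b ∈ U ∪ V ∪ G) ∧
      (db b ∈ Od E ∪ Od A → db b ∈ U ∪ V ∪ G))
    (hU : ∀ s ∈ U, s ∈ Od E ∪ Od A → DC (cf E (cf A ξ A) E) s x)
    (hV : ∀ s ∈ V, s ∈ Od E ∪ Od A → DC (cf E (cf A ξ A) E) s y)
    (hξE : ∀ b, b ∉ E → b ∉ A → ξ b = false → ∀ s, (s = da b ∨ s = db b) → s ∈ Od E ∪ Od A →
      s ∉ G → DC (cf E (cf A ξ A) E) s x ∨ DC (cf E (cf A ξ A) E) s y) :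
    Pr Q E ξ (PJ T w) ≤ Pr Q D η (PJ T w) := by
  have hodd : ∀ s ∈ Od E ∪ Od A ∪ {x, y}, Odd (s.1 + s.2) := by
    rintro s ((hs | hs) | hs | hs)
    · exact odd_Od hs
    · exact odd_Od hs
    · rw [hs]; exact hD.oddx
    · rw [Set.mem_singleton_iff] at hs
      rw [hs]; exact hD.oddy
  have hU' : ∀ s ∈ Od E ∪ Od A ∪ {x, y}, s ∈ U → DC (cf E (cf A ξ A) E) s x := by
    rintro s (hs | hs | hs) h
    · exact hU s h hs
    · rw [hs]; exact Relation.ReflTransGen.refl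
    · rw [Set.mem_singleton_iff] at hs
      rw [hs] at h
      exact absurd hyV (Set.disjoint_left.1 hUV h)
  have hV' : ∀ s ∈ Od E ∪ Od A ∪ {x, y}, s ∈ V → DC (cf E (cf A ξ A) E) s y := by
    rintro s (hs | hs | hs) h
    · exact hV s h hs
    · rw [hs] at h
      exact absurd h (Set.disjoint_left.1 hUV hxU)
    · rw [Set.mem_singleton_iff] at hs
      rw [hs]; exact Relation.ReflTransGen.refl
  -- closed squares of the two cut configurations
  have op1 : ∀ S ⊆ D, ∀ b, cf E (cf D (cf A η A) S) E b = false →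
      b ∉ E ∧ b ∉ A ∧ (b ∈ D ∨ η b = false) := by
    intro S _ b hb
    by_cases hbE : b ∈ E
    · simp [cf, hbE] at hb
    refine ⟨hbE, ?_⟩
    by_cases hbD : b ∈ D
    · exact ⟨fun h => hD.disj b h hbD, Or.inl hbD⟩
    · by_cases hbA : b ∈ A
      · simp [cf, hbE, hbD, hbA] at hb
      · exact ⟨hbA, Or.inr (by simpa [cf, hbE, hbD, hbA] using hb)⟩
  have op2 : ∀ b, cf E (cf A ξ A) E b = false → b ∉ E ∧ b ∉ A ∧ ξ b = false := by
    intro b hb
    by_cases hbE : b ∈ E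
    · simp [cf, hbE] at hb
    · by_cases hbA : b ∈ A
      · simp [cf, hbE, hbA] at hb
      · exact ⟨hbE, hbA, by simpa [cf, hbE, hbA] using hb⟩
  -- paths which start in `G`
  have pG : ∀ (ω ω' : Cfg), (∀ b, ω b = false → b ∉ E ∧ b ∉ A ∧
      (b ∈ D ∨ η b = false ∨ ξ b = false)) → (∀ b, ω b = false → b ∉ E → b ∉ A → b ∉ D →
      η b = ξ b → ω' b = false) → ∀ s t : ℤ × ℤ, Odd (s.1 + s.2) → s ∈ G → DC ω s t →
      DC ω' s t := by
    intro ω ω' hω hω' s t hs hsG h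
    have key : Odd (t.1 + t.2) ∧ t ∈ G ∧ DC ω' s t := by
      induction h with
      | refl => exact ⟨hs, hsG, Relation.ReflTransGen.refl⟩
      | @tail u v _ h1 ih =>
        obtain ⟨ih1, ih2, ih3⟩ := ih
        have h3 : ω (sqr u v) = false := by
          have := h1.2.2
          simpa [op, sqr] using this
        obtain ⟨k1, k2, k3⟩ := hω _ h3
        have h4 : da (sqr u v) ∈ G ∨ db (sqr u v) ∈ G := by
          rcases step_odd h1 ih1 with ⟨h5, -⟩ | ⟨h5, -⟩
          · rw [← h5]; exact Or.inl ih2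
          · rw [← h5]; exact Or.inr ih2
        obtain ⟨g1, g2, g3, g4⟩ := hG _ k1 k2 k3 h4
        refine ⟨odd_step h1 ih1, ?_, ih3.tail ⟨h1.1, h1.2.1, ?_⟩⟩
        · rcases step_odd h1 ih1 with ⟨-, h5⟩ | ⟨-, h5⟩
          · rw [h5]; exact g2
          · rw [h5]; exact g1
        · have := hω' _ h3 k1 k2 g3 g4
          simpa [op, sqr] using this
    exact key.2.2
  refine cm_gen hQ hQ1 hED hD hE (fun S hS s hs t ht h => ?_) (fun S hS s hs t ht h => ?_)
  · by_cases hst : s = t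
    · rw [hst]; exact Relation.ReflTransGen.refl
    by_cases hsG : s ∈ G
    · refine pG _ _ (fun b hb => ?_) (fun b hb k1 k2 k3 k4 => ?_) s t (hodd s hs) hsG h
      · obtain ⟨k1, k2, k3⟩ := op1 S hS b hb
        exact ⟨k1, k2, k3.elim Or.inl fun h => Or.inr (Or.inl h)⟩
      · obtain ⟨-, -, k5⟩ := op1 S hS b hb
        rcases k5 with k5 | k5
        · exact absurd k5 k3
        · simp [cf, k1, k2, ← k4, k5]
    · have h0 : s ∈ U ∨ s ∈ V := by
        obtain ⟨b, hb, hb'⟩ := first_step_dual (hodd s hs) h hst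
        obtain ⟨k1, k2, k3⟩ := op1 S hS b hb
        obtain ⟨-, -, k4, k5⟩ := hH b k1 k2 k3
        rcases hs with hs | hs | hs
        · rcases hb' with rfl | rfl
          · rcases k4 hs with k | k
            · exact k
            · exact absurd k hsG
          · rcases k5 hs with k | k
            · exact k
            · exact absurd k hsG
        · rw [hs]; exact Or.inl hxU
        · rw [Set.mem_singleton_iff] at hs
          rw [hs]; exact Or.inr hyV
      have hcl : ∀ b, cf E (cf D (cf A η A) S) E b = false →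
          (da b ∈ U ↔ db b ∈ U) ∧ (da b ∈ V ↔ db b ∈ V) := by
        intro b hb
        obtain ⟨k1, k2, k3⟩ := op1 S hS b hb
        exact ⟨(hH b k1 k2 k3).1, (hH b k1 k2 k3).2.1⟩
      rcases h0 with h0 | h0
      · have h3 := path_closed_dual (U := U) (fun b hb => (hcl b hb).1) (hodd s hs) h h0
        exact (hU' s hs h0).trans (DC_symm (hU' t ht h3))
      · have h3 := path_closed_dual (U := V) (fun b hb => (hcl b hb).2) (hodd s hs) h h0
        exact (hV' s hs h0).trans (DC_symm (hV' t ht h3))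
  · by_cases hst : s = t
    · left
      rw [hst]; exact Relation.ReflTransGen.refl
    by_cases hsG : s ∈ G
    · left
      refine pG _ _ (fun b hb => ?_) (fun b hb k1 k2 k3 k4 => ?_) s t (hodd s hs) hsG h
      · obtain ⟨k1, k2, k3⟩ := op2 b hb
        exact ⟨k1, k2, Or.inr (Or.inr k3)⟩
      · obtain ⟨-, -, k5⟩ := op2 b hb
        simp [cf, k1, k2, k3, k4, k5]
    right
    obtain ⟨b, hb, hb'⟩ := first_step_dual (hodd s hs) h hst
    obtain ⟨k1, k2, k3⟩ := op2 b hb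
    have h3 : DC (cf E (cf A ξ A) E) s x ∨ DC (cf E (cf A ξ A) E) s y := by
      rcases hs with hs | hs | hs
      · exact hξE b k1 k2 k3 s hb' hs hsG
      · rw [hs]; exact Or.inl Relation.ReflTransGen.refl
      · rw [Set.mem_singleton_iff] at hs
        rw [hs]; exact Or.inr Relation.ReflTransGen.refl
    rcases h3 with h3 | h3
    · exact Or.inl ⟨h3, (DC_symm h).trans h3⟩
    · exact Or.inr ⟨h3, (DC_symm h).trans h3⟩

end Vale.Agent.P167.H816
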