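import Vale.Agent.P167.H816.T1
import Vale.Agent.P167.H816.Bridge
import Vale.Agent.P167.H259.FKMark

/-!
# P167: comparison of boundary conditions for `0 < Q ≤ 1`

`t1_gen`: the probability that `w` is joined to the set `T` increases when the cluster of `w` outside of
the domain grows; `t1_two`: the same for two sites `u`, `v`, both clusters may grow. `bk`: the form with
banks. `bk_dual`: the dual form (the free arcs grow, the probability decreases). `odds`: wiring the two
sites multiplies the odds by `Q ^ 2`.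
-/

set_option autoImplicit false
set_option linter.unusedSectionVars false

namespace Vale.Agent.P167.H816

open Finset Vale.Agent.P167.FK
open Vale.Agent.P145.FB (PStep PConn)
open Vale.Agent.P167.H623 (join sup_join)

/-! ### Roots, arbitrary exterior relation -/

section root

variable {X ι : Type*} [DecidableEq ι] (a b : ι → X) {w : ι → ℝ} {q : ℝ} (D : Finset ι)

/-- Some point of `T` is joined to `x`. -/
def Jo (r : Setoid X) (T : Set X) (x : X) (S : Finset ι) : Prop := ∃ t ∈ T, con a b r S t x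

theorem wir_singleton (x : X) : wir ({x} : Set X) = ⊥ := by
  ext u v
  constructor
  · rintro (h | ⟨h, h'⟩)
    · exact h
    · rw [Set.mem_singleton_iff] at h h'
      rw [h, h']
  · intro h
    exact Or.inl h

theorem GP_not {r : Setoid X} (hw : ∀ e, 0 ≤ w e) (hq : 0 < q) (A : Finset ι → Prop) :
    GP a b w q D r (fun S => ¬ A S) = 1 - GP a b w q D r A := by
  classical
  have h := sum_gw_pos (a := a) (b := b) (w := w) (q := q) (D := D) (r := r) hw hq
  rw [eq_sub_iff_add_eq, GP, GP, GE, GE, ← add_div, ← sum_add_distrib, div_eq_one_iff_eq h.ne']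
  refine sum_congr rfl fun S _ => ?_
  by_cases h1 : A S
  · simp [h1]
  · simp [h1]

/-- **T1 with a root**: identifying other points with the root `x` increases the probability. -/
theorem t1_root (hw : ∀ e, 0 ≤ w e) (hq : 0 < q) (hq1 : q ≤ 1) (r : Setoid X) (T : Set X) {x : X}
    {W : Set X} (hx : x ∈ W) :
    GP a b w q D r (Jo a b r T x) ≤ GP a b w q D (r ⊔ wir W) (Jo a b (r ⊔ wir W) T x) := by
  have h1 := t1 a b D hw hq hq1 r T (Set.singleton_subset_iff.2 hx)
  rw [wir_singleton, sup_bot_eq] at h1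
  have e1 : GP a b w q D r (Sep a b r T {x}) = 1 - GP a b w q D r (Jo a b r T x) := by
    rw [← GP_not a b D hw hq]
    refine GP_congr a b D hq (fun _ _ _ _ => Iff.rfl) fun S _ => ?_
    constructor
    · rintro h ⟨t, ht, h'⟩
      exact h t ht x rfl h'
    · intro h t ht y hy h'
      rw [Set.mem_singleton_iff] at hy
      rw [hy] at h'
      exact h ⟨t, ht, h'⟩
  have e2 : GP a b w q D (r ⊔ wir W) (Sep a b r T W) =
      1 - GP a b w q D (r ⊔ wir W) (Jo a b (r ⊔ wir W) T x) := by
    rw [← GP_not a b D hw hq]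
    refine GP_congr a b D hq (fun _ _ _ _ => Iff.rfl) fun S _ => ?_
    rw [← sep_wir]
    constructor
    · rintro h ⟨t, ht, h'⟩
      exact h t ht x hx h'
    · intro h t ht y hy h'
      refine h ⟨t, ht, (con a b (r ⊔ wir W) S).trans h' ?_⟩
      have h2 : wir W ≤ r ⊔ wir W := le_sup_right
      exact le_con a b _ S (h2 (Or.inr ⟨hy, hx⟩))
  rw [e1, e2] at h1
  linarith

theorem Jo_congr {r r' : Setoid X} (hq : 0 < q) {T : Set X} {x : X} {Y : Set X}
    (hY : ∀ y ∈ ends a b D, y ∈ Y) (hT : T ⊆ Y) (hx : x ∈ Y)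
    (h : ∀ y ∈ Y, ∀ y' ∈ Y, (r y y' ↔ r' y y')) :
    GP a b w q D r (Jo a b r T x) = GP a b w q D r' (Jo a b r' T x) := by
  refine GP_congr a b D hq (fun y hy y' hy' => h y (hY y hy) y' (hY y' hy')) fun S hS => ?_
  have h1 := con_congr a b (S := S) (Y := Y) (fun e he =>
    ⟨hY _ (fst_mem_ends a b D (hS he)), hY _ (snd_mem_ends a b D (hS he))⟩) h
  constructor
  · rintro ⟨t, ht, h'⟩
    exact ⟨t, ht, (h1 t (hT ht) x hx).1 h'⟩
  · rintro ⟨t, ht, h'⟩
    exact ⟨t, ht, (h1 t (hT ht) x hx).2 h'⟩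

/-- T1 with a root, in terms of the two exterior relations. -/
theorem t1_rel (hw : ∀ e, 0 ≤ w e) (hq : 0 < q) (hq1 : q ≤ 1) {r r' : Setoid X} {T : Set X}
    {x : X} {Y : Set X} (hY : ∀ y ∈ ends a b D, y ∈ Y) (hT : T ⊆ Y) (hx : x ∈ Y)
    (h1 : ∀ y ∈ Y, ∀ y' ∈ Y, r y y' → r' y y')
    (h2 : ∀ y ∈ Y, ∀ y' ∈ Y, r' y y' → r y y' ∨ (r' y x ∧ r' y' x)) :
    GP a b w q D r (Jo a b r T x) ≤ GP a b w q D r' (Jo a b r' T x) := by
  refine (t1_root a b D hw hq hq1 r T (x := x) (W := {y | y ∈ Y ∧ r' y x}) ⟨hx, r'.refl x⟩).trans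
    (Jo_congr a b D hq hY hT hx fun y hy y' hy' => ?_).le
  constructor
  · intro h
    rcases (sup_wir_iff _ _ _ _).1 h with h | ⟨⟨u, hu, h⟩, v, hv, h'⟩
    · exact h1 y hy y' hy' h
    · exact r'.trans (h1 y hy u hu.1 h) (r'.trans hu.2
        (r'.trans (r'.symm hv.2) (r'.symm (h1 y' hy' v hv.1 h'))))
  · intro h
    rcases h2 y hy y' hy' h with h | ⟨h, h'⟩
    · exact (sup_wir_iff _ _ _ _).2 (Or.inl h)
    · exact (sup_wir_iff _ _ _ _).2 (Or.inr ⟨⟨y, ⟨hy, h⟩, r.refl y⟩, ⟨y', ⟨hy', h'⟩, r.refl y'⟩⟩)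

/-- T1 with two roots. -/
theorem t1_rel₂ (hw : ∀ e, 0 ≤ w e) (hq : 0 < q) (hq1 : q ≤ 1) {r r' : Setoid X} {x y : X}
    {Y : Set X} (hY : ∀ y ∈ ends a b D, y ∈ Y) (hx : x ∈ Y) (hy : y ∈ Y)
    (h1 : ∀ s ∈ Y, ∀ t ∈ Y, r s t → r' s t)
    (h2 : ∀ s ∈ Y, ∀ t ∈ Y, r' s t → r s t ∨ (r' s x ∧ r' t x) ∨ (r' s y ∧ r' t y)) :
    GP a b w q D r (fun S => con a b r S x y) ≤ GP a b w q D r' (fun S => con a b r' S x y) := by
  set W : Set X := {s | s ∈ Y ∧ r' s x} with hW
  have hle : ∀ s ∈ Y, ∀ t ∈ Y, (r ⊔ wir W) s t → r' s t := by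
    intro s hs t ht h
    rcases (sup_wir_iff _ _ _ _).1 h with h | ⟨⟨u, hu, h⟩, v, hv, h'⟩
    · exact h1 s hs t ht h
    · exact r'.trans (h1 s hs u hu.1 h) (r'.trans hu.2
        (r'.trans (r'.symm hv.2) (r'.symm (h1 t ht v hv.1 h'))))
  have e1 : GP a b w q D r (fun S => con a b r S x y) ≤
      GP a b w q D (r ⊔ wir W) (Jo a b (r ⊔ wir W) {y} x) := by
    refine le_trans (le_of_eq ?_) (t1_root a b D hw hq hq1 r {y} (x := x) ⟨hx, r'.refl x⟩)
    refine GP_congr a b D hq (fun _ _ _ _ => Iff.rfl) fun S _ => ?_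
    constructor
    · exact fun h => ⟨y, rfl, (con a b r S).symm h⟩
    · rintro ⟨t, ht, h⟩
      rw [Set.mem_singleton_iff] at ht
      rw [ht] at h
      exact (con a b r S).symm h
  have e2 : GP a b w q D (r ⊔ wir W) (Jo a b (r ⊔ wir W) {x} y) ≤
      GP a b w q D r' (Jo a b r' {x} y) := by
    refine t1_rel a b D hw hq hq1 hY (Set.singleton_subset_iff.2 hx) hy hle ?_
    intro s hs t ht h
    rcases h2 s hs t ht h with h | ⟨h, h'⟩ | h
    · exact Or.inl ((sup_wir_iff _ _ _ _).2 (Or.inl h))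
    · exact Or.inl ((sup_wir_iff _ _ _ _).2
        (Or.inr ⟨⟨s, ⟨hs, h⟩, r.refl s⟩, ⟨t, ⟨ht, h'⟩, r.refl t⟩⟩))
    · exact Or.inr h
  have key : ∀ (ρ : Setoid X), GP a b w q D ρ (Jo a b ρ {y} x) =
      GP a b w q D ρ (Jo a b ρ {x} y) := by
    intro ρ
    refine GP_congr a b D hq (fun _ _ _ _ => Iff.rfl) fun S _ => ?_
    constructor <;> rintro ⟨t, ht, h⟩ <;> rw [Set.mem_singleton_iff] at ht <;> rw [ht] at h
    · exact ⟨x, rfl, (con a b ρ S).symm h⟩
    · exact ⟨y, rfl, (con a b ρ S).symm h⟩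
  refine e1.trans ((key _).le.trans (e2.trans (le_of_eq ?_)))
  refine GP_congr a b D hq (fun _ _ _ _ => Iff.rfl) fun S _ => ?_
  constructor
  · rintro ⟨t, ht, h⟩
    rw [Set.mem_singleton_iff] at ht
    rwa [ht] at h
  · exact fun h => ⟨x, rfl, h⟩

open Classical in
/-- **The odds**: the weights after the identification of `u` and `v`. -/
theorem rec_join (hq : q ≠ 0) (r : Setoid X) (u v : X) :
    Rec a b w q D (r ⊔ join u v)
      (fun S => (if con a b r S u v then q else 1) * gw a b w q D r S) := by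
  have hcon : ∀ S, con a b (r ⊔ join u v) S = con a b r S ⊔ join u v := by
    intro S
    rw [con, con, sup_right_comm]
  intro S hS e he heS
  beta_reduce
  rw [gw_rec hq S hS e he heS, hcon]
  have h3 := sup_join (con a b r S) u v
  by_cases h1 : con a b r S (a e) (b e)
  · have h2 : con a b r (insert e S) = con a b r S := by
      rw [con_insert, sup_join_of_rel h1]
    have h4 : (con a b r S ⊔ join u v) (a e) (b e) := by
      rw [h3]; exact Or.inl h1
    rw [h2, if_pos h1, if_pos h4]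
    ring
  · rw [if_neg h1]
    by_cases h5 : con a b r S u v
    · have h6 : con a b r (insert e S) u v := con_mono a b le_rfl (subset_insert e S) h5
      have h7 : ¬ (con a b r S ⊔ join u v) (a e) (b e) := by
        rwa [sup_join_of_rel h5]
      rw [if_pos h5, if_pos h6, if_neg h7]
      ring
    · rw [if_neg h5]
      by_cases h8 : con a b r (insert e S) u v
      · have h9 : (con a b r S ⊔ join u v) (a e) (b e) := by
          rw [h3]
          rw [con_insert_iff] at h8
          rcases h8 with h8 | ⟨h8, h8'⟩ | ⟨h8, h8'⟩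
          · exact absurd h8 h5
          · exact Or.inr (Or.inl ⟨(con a b r S).symm h8, (con a b r S).symm h8'⟩)
          · exact Or.inr (Or.inr ⟨h8', h8⟩)
        rw [if_pos h8, if_pos h9]
        field_simp
      · have h9 : ¬ (con a b r S ⊔ join u v) (a e) (b e) := by
          rw [h3]
          rintro (h | ⟨h, h'⟩ | ⟨h, h'⟩)
          · exact h1 h
          · refine h8 ((con_insert_iff _ _ _ _ _ _ _).2 (Or.inr (Or.inl ?_)))
            exact ⟨(con a b r S).symm h, (con a b r S).symm h'⟩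
          · exact h8 ((con_insert_iff _ _ _ _ _ _ _).2 (Or.inr (Or.inr ⟨h', h⟩)))
        rw [if_neg h8, if_neg h9]
        ring

/-- **The odds**: after the identification of `u` and `v` the odds of `u`, `v` being joined without
the identification are multiplied by `q`. -/
theorem GP_odds (hw : ∀ e, 0 ≤ w e) (hq : 0 < q) (r : Setoid X) (u v : X) :
    GP a b w q D (r ⊔ join u v) (fun S => con a b r S u v) =
      q * GP a b w q D r (fun S => con a b r S u v) /
        (q * GP a b w q D r (fun S => con a b r S u v) +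
          (1 - GP a b w q D r (fun S => con a b r S u v))) := by
  classical
  have hZ := sum_gw_pos (a := a) (b := b) (w := w) (q := q) (D := D) (r := r) hw hq
  have h0 : (fun S => (if con a b r S u v then q else 1) * gw a b w q D r S) ∅ ≠ 0 := by
    beta_reduce
    have : gw a b w q D r ∅ ≠ 0 := by
      rw [gw, prod_empty, one_mul]
      exact (pow_pos hq _).ne'
    split_ifs
    · exact mul_ne_zero hq.ne' this
    · exact mul_ne_zero one_ne_zero this
  rw [← GP_not a b D hw hq, GP, ← (rec_join a b D hq.ne' r u v).sum_div hq h0, GP, GP, GE, GE,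
    ← mul_div_assoc, ← add_div, div_div_div_cancel_right₀ hZ.ne']
  rw [mul_sum, ← sum_add_distrib]
  congr 1
  · refine sum_congr rfl fun S _ => ?_
    split_ifs <;> ring
  · refine sum_congr rfl fun S _ => ?_
    by_cases h1 : con a b r S u v
    · simp [h1]
    · simp [h1]

end root

end Vale.Agent.P167.H816
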