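import Vale.Agent.P167.H816.Model

/-!
# P167: transfer to the finite graph model

`GE` with the exterior relation `r ⊔ wir W` is the expectation for the weight of `H623` on the graph
whose vertices are the classes of `r` in a finite set `Y` which contains all the ends, the wired
vertices being the classes of the points of `W`.
-/

set_option autoImplicit false
set_option linter.unusedSectionVars false

namespace Vale.Agent.P167.H816

open Finset Vale.Agent.P167.H623

variable {X ι : Type*}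

/-- The relation whose only nontrivial class is `W`. -/
def wir (W : Set X) : Setoid X where
  r x y := x = y ∨ (x ∈ W ∧ y ∈ W)
  iseqv := by
    refine ⟨fun x => Or.inl rfl, ?_, ?_⟩
    · rintro x y (h | h)
      · exact Or.inl h.symm
      · exact Or.inr ⟨h.2, h.1⟩
    · rintro x y z (h | h) (k | k)
      · exact Or.inl (h.trans k)
      · rw [h]; exact Or.inr k
      · rw [← k]; exact Or.inr h
      · exact Or.inr ⟨h.1, k.2⟩

/-- The explicit join with a wired set. -/
theorem sup_wir_iff (P : Setoid X) (W : Set X) (x y : X) :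
    (P ⊔ wir W) x y ↔ P x y ∨ ((∃ u ∈ W, P x u) ∧ ∃ v ∈ W, P y v) := by
  constructor
  · let R : Setoid X :=
      { r := fun x y => P x y ∨ ((∃ u ∈ W, P x u) ∧ ∃ v ∈ W, P y v)
        iseqv := by
          refine ⟨fun x => Or.inl (P.refl x), ?_, ?_⟩
          · rintro x y (h | h)
            · exact Or.inl (P.symm h)
            · exact Or.inr ⟨h.2, h.1⟩
          · rintro x y z (h | ⟨h, h'⟩) (k | ⟨k, k'⟩)
            · exact Or.inl (P.trans h k)
            · obtain ⟨u, hu, hu'⟩ := k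
              exact Or.inr ⟨⟨u, hu, P.trans h hu'⟩, k'⟩
            · obtain ⟨u, hu, hu'⟩ := h'
              exact Or.inr ⟨h, ⟨u, hu, P.trans (P.symm k) hu'⟩⟩
            · exact Or.inr ⟨h, k'⟩ }
    have hR : P ⊔ wir W ≤ R := by
      refine sup_le (fun x y h => Or.inl h) ?_
      rintro x y (h | h)
      · rw [h]
      · exact Or.inr ⟨⟨x, h.1, P.refl x⟩, ⟨y, h.2, P.refl y⟩⟩
    intro h
    exact hR h
  · have h1 : P ≤ P ⊔ wir W := le_sup_left
    have h2 : wir W ≤ P ⊔ wir W := le_sup_right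
    rintro (h | ⟨⟨u, hu, hxu⟩, v, hv, hyv⟩)
    · exact h1 h
    · exact Setoid.trans' _ (h1 hxu) (Setoid.trans' _ (h2 (Or.inr ⟨hu, hv⟩))
        (Setoid.symm' _ (h1 hyv)))

theorem con_sup_wir (a b : ι → X) (r : Setoid X) (W : Set X) (S : Finset ι) :
    con a b (r ⊔ wir W) S = con a b r S ⊔ wir W := by
  rw [con, con, sup_right_comm]

theorem sup_wir_empty (P : Setoid X) : P ⊔ wir (∅ : Set X) = P := by
  ext x y
  have := sup_wir_iff P ∅ x y
  simpa using this

section graph

variable [DecidableEq ι] (a b : ι → X) (w : ι → ℝ) (q : ℝ) (D : Finset ι) (Y : Finset X)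
  (r : Setoid X)

/-- The vertices: the classes of `r` in `Y`. -/
def GV : Type _ := Quotient (r.comap (Subtype.val : Y → X))

noncomputable instance : Fintype (GV Y r) :=
  @Fintype.ofFinite _ (inferInstanceAs (Finite (Quotient (r.comap (Subtype.val : Y → X)))))

noncomputable instance : DecidableEq (GV Y r) := Classical.decEq _

variable {Y}

/-- The class of a point. -/
def gv (x : X) (hx : x ∈ Y) : GV Y r := Quotient.mk _ ⟨x, hx⟩

theorem gv_eq_iff {x y : X} (hx : x ∈ Y) (hy : y ∈ Y) : gv r x hx = gv r y hy ↔ r x y :=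
  ⟨fun h => Quotient.exact (s := r.comap (Subtype.val : Y → X)) h,
    fun h => Quotient.sound (s := r.comap (Subtype.val : Y → X)) h⟩

theorem gv_surj (v : GV Y r) : ∃ x, ∃ hx : x ∈ Y, gv r x hx = v := by
  induction v using Quotient.inductionOn with
  | h x => exact ⟨x.1, x.2, rfl⟩

variable (hY : ∀ e ∈ D, a e ∈ Y ∧ b e ∈ Y)

/-- The first end of an edge. -/
def gA (e : D) : GV Y r := gv r (a e) (hY e e.2).1

/-- The second end of an edge. -/
def gB (e : D) : GV Y r := gv r (b e) (hY e e.2).2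

variable (Y) in
open Classical in
/-- The classes of the points of `W`. -/
noncomputable def gW (W : Set X) : Finset (GV Y r) :=
  univ.filter fun v => ∃ x, ∃ hx : x ∈ Y, gv r x hx = v ∧ ∃ z ∈ W, r x z

theorem mem_gW {W : Set X} {x : X} (hx : x ∈ Y) : gv r x hx ∈ gW Y r W ↔ ∃ z ∈ W, r x z := by
  classical
  unfold gW
  rw [mem_filter]
  constructor
  · rintro ⟨-, y, hy, hxy, z, hz, hyz⟩
    rw [gv_eq_iff] at hxy
    exact ⟨z, hz, r.trans (r.symm hxy) hyz⟩
  · rintro ⟨z, hz, hxz⟩
    exact ⟨mem_univ _, x, hx, rfl, z, hz, hxz⟩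

/-- The set of edges. -/
def gS (ω : Finset D) : Finset ι := ω.map (Function.Embedding.subtype _)

theorem gS_subset (ω : Finset D) : gS D ω ⊆ D := by
  intro e he
  obtain ⟨e', -, rfl⟩ := mem_map.1 he
  exact e'.2

theorem gS_insert (e : D) (ω : Finset D) : gS D (insert e ω) = insert (e : ι) (gS D ω) := by
  rw [gS, map_insert]
  rfl

/-- Connections. -/
theorem conf_gv (ω : Finset D) {x y : X} (hx : x ∈ Y) (hy : y ∈ Y) :
    conf (gA a b D r hY) (gB a b D r hY) ω (gv r x hx) (gv r y hy) ↔ con a b r (gS D ω) x y := by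
  induction ω using Finset.induction_on generalizing x y with
  | empty =>
    have h1 : conf (gA a b D r hY) (gB a b D r hY) ∅ = ⊥ := rfl
    have h2 : gS D (∅ : Finset D) = ∅ := rfl
    rw [h1, h2, con_empty, ← gv_eq_iff r hx hy]
    exact Iff.rfl
  | insert e ω _ ih =>
    rw [gS_insert, con_insert_iff, cf_insert', sup_comm, sup_join_iff, ih hx hy]
    exact or_congr Iff.rfl (or_congr
      (and_congr (ih hx (hY e e.2).1) (ih (hY e e.2).2 hy))
      (and_congr (ih hx (hY e e.2).2) (ih (hY e e.2).1 hy)))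

/-- Connections to points outside of `Y`. -/
theorem con_exists {S : Finset ι} (hS : ∀ e ∈ S, a e ∈ Y ∧ b e ∈ Y) {x u : X} (hx : x ∈ Y) :
    con a b r S x u ↔ ∃ y ∈ Y, con a b r S x y ∧ r y u := by
  constructor
  · induction S using Finset.induction_on generalizing x with
    | empty =>
      rw [con_empty]
      exact fun h => ⟨x, hx, r.refl x, h⟩
    | insert e S _ ih =>
      have ih' := fun {x : X} (hx : x ∈ Y) =>
        ih (fun e' he' => hS e' (mem_insert_of_mem he')) (x := x) hx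
      obtain ⟨ha, hb⟩ := hS e (mem_insert_self e S)
      rw [con_insert_iff]
      rintro (h | ⟨h, h'⟩ | ⟨h, h'⟩)
      · obtain ⟨y, hy, h1, h2⟩ := ih' hx h
        exact ⟨y, hy, (con_insert_iff _ _ _ _ _ _ _).2 (Or.inl h1), h2⟩
      · obtain ⟨y, hy, h1, h2⟩ := ih' hb h'
        exact ⟨y, hy, (con_insert_iff _ _ _ _ _ _ _).2 (Or.inr (Or.inl ⟨h, h1⟩)), h2⟩
      · obtain ⟨y, hy, h1, h2⟩ := ih' ha h'
        exact ⟨y, hy, (con_insert_iff _ _ _ _ _ _ _).2 (Or.inr (Or.inr ⟨h, h1⟩)), h2⟩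
  · rintro ⟨y, -, h1, h2⟩
    exact (con a b r S).trans h1 (le_con a b r S h2)

theorem hit_gv (ω : Finset D) {W : Set X} {x : X} (hx : x ∈ Y) :
    (∃ v ∈ gW Y r W, conf (gA a b D r hY) (gB a b D r hY) ω (gv r x hx) v) ↔
      ∃ z ∈ W, con a b r (gS D ω) x z := by
  have hS : ∀ e ∈ gS D ω, a e ∈ Y ∧ b e ∈ Y := fun e he => hY e (gS_subset D ω he)
  constructor
  · rintro ⟨v, hv, h⟩
    obtain ⟨y, hy, rfl⟩ := gv_surj r v
    rw [mem_gW] at hv
    obtain ⟨z, hz, hyz⟩ := hv
    rw [conf_gv] at h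
    exact ⟨z, hz, (con a b r _).trans h (le_con a b r _ hyz)⟩
  · rintro ⟨z, hz, h⟩
    obtain ⟨y, hy, h1, h2⟩ := (con_exists a b r hS hx).1 h
    exact ⟨gv r y hy, (mem_gW r hy).2 ⟨z, hz, h2⟩, (conf_gv a b D r hY ω hx hy).2 h1⟩

/-- Connections with the wired set. -/
theorem conf_sup_gv (ω : Finset D) (W : Set X) {x y : X} (hx : x ∈ Y) (hy : y ∈ Y) :
    (conf (gA a b D r hY) (gB a b D r hY) ω ⊔ wir (gW Y r W : Set (GV Y r)))
      (gv r x hx) (gv r y hy) ↔ con a b (r ⊔ wir W) (gS D ω) x y := by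
  rw [con_sup_wir]
  refine (sup_wir_iff _ _ _ _).trans (Iff.trans ?_ (sup_wir_iff _ _ _ _).symm)
  rw [conf_gv]
  simp only [mem_coe, hit_gv]

/-! ### The weights -/

theorem clusters_classes {V E : Type*} [Fintype V] [DecidableEq V] [Fintype E] [DecidableEq E]
    (a b : E → V) (W : Finset V) (ω : Finset E) :
    clusters a b W ω = (classes (conf a b ω ⊔ wir (W : Set V))).card := by
  set P := conf a b ω ⊔ wir (W : Set V) with hP
  have key : ∀ x y, P x y ↔
      Relation.EqvGen (fun x y => OpenAdj a b ω x y ∨ (x ∈ W ∧ y ∈ W)) x y := by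
    intro x y
    constructor
    · intro h
      have h1 : P ≤ Relation.EqvGen.setoid
          (fun x y => OpenAdj a b ω x y ∨ (x ∈ W ∧ y ∈ W)) := by
        refine sup_le ?_ ?_
        · refine Finset.sup_le fun e he => join_le_iff'.2 ?_
          exact Relation.EqvGen.rel _ _ (Or.inl ⟨e, he, rfl, rfl⟩)
        · rintro u v (h | h)
          · rw [h]
          · exact Relation.EqvGen.rel _ _ (Or.inr h)
      exact h1 h
    · intro h
      induction h with
      | rel x y h =>
        rcases h with ⟨e, he, rfl, rfl⟩ | h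
        · have h2 : conf a b ω ≤ P := le_sup_left
          exact h2 (cf_edge' a b he)
        · have h2 : wir (W : Set V) ≤ P := le_sup_right
          exact h2 (Or.inr h)
      | refl x => exact P.refl x
      | symm x y _ h => exact P.symm h
      | trans x y z _ _ h h' => exact P.trans h h'
  rw [clusters, ← Fintype.card_coe, ← Nat.card_eq_fintype_card]
  refine Nat.card_congr (Equiv.ofBijective (Quot.lift
    (fun x => (⟨cls P x, cls_mem P x⟩ : {c // c ∈ classes P})) fun x y h => ?_) ⟨?_, ?_⟩)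
  · exact Subtype.ext (cls_eq_iff.2 ((key x y).2 (Relation.EqvGen.rel _ _ h)))
  · rintro ⟨x⟩ ⟨y⟩ h
    exact Quot.eqvGen_sound ((key x y).1 (cls_eq_iff.1 (congrArg Subtype.val h)))
  · rintro ⟨c, hc⟩
    obtain ⟨x, hx⟩ := mem_classes.1 hc
    exact ⟨Quot.mk _ x, Subtype.ext hx⟩

theorem conf_insert_sup {V E : Type*} [DecidableEq E] (a b : E → V) (P : Setoid V) (e : E)
    (ω : Finset E) : conf a b (insert e ω) ⊔ P = (conf a b ω ⊔ P) ⊔ join (a e) (b e) := by
  rw [cf_insert', sup_assoc, sup_comm]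

/-- The recursion for the weights of `H623`. -/
theorem weight_insert {V E : Type*} [Fintype V] [DecidableEq V] [Fintype E] [DecidableEq E]
    (a b : E → V) {p : E → ℝ} (hp : ∀ e, p e < 1) {q : ℝ} (hq : q ≠ 0) (W : Finset V)
    {e : E} {ω : Finset E} (he : e ∉ ω) [Decidable ((conf a b ω ⊔ wir (W : Set V)) (a e) (b e))] :
    weight a b p q W (insert e ω) =
      (if (conf a b ω ⊔ wir (W : Set V)) (a e) (b e) then p e / (1 - p e)
        else p e / (1 - p e) / q) * weight a b p q W ω := by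
  have h1 : (1 - p e) ≠ 0 := by linarith [hp e]
  have h2 : ∏ e' ∈ ωᶜ, (1 - p e') = (1 - p e) * ∏ e' ∈ (insert e ω)ᶜ, (1 - p e') := by
    have : ωᶜ = insert e (insert e ω)ᶜ := by
      ext x
      simp only [mem_compl, mem_insert]
      by_cases hx : x = e
      · subst hx; simp [he]
      · simp [hx]
    rw [this, prod_insert (by simp)]
  rw [weight, weight, prod_insert he, h2, clusters_classes, clusters_classes, conf_insert_sup]
  split_ifs with h
  · rw [sup_join_of_rel h]
    field_simp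
  · rw [← card_classes_join _ h, pow_succ]
    field_simp

theorem gS_inj {ω ω' : Finset D} (h : gS D ω = gS D ω') : ω = ω' :=
  map_injective _ h

theorem sum_gS (f : Finset ι → ℝ) : ∑ S ∈ D.powerset, f S = ∑ ω : Finset D, f (gS D ω) := by
  symm
  refine sum_bij (fun ω _ => gS D ω) (fun ω _ => mem_powerset.2 (gS_subset D ω))
    (fun ω _ ω' _ h => gS_inj D h) (fun S hS => ?_) (fun ω _ => rfl)
  refine ⟨S.subtype (· ∈ D), mem_univ _, ?_⟩
  rw [gS, subtype_map, filter_true_of_mem]
  exact fun x hx => mem_powerset.1 hS hx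

/-- The parameter of the edges. -/
noncomputable def pw (w : ι → ℝ) (e : D) : ℝ := w e / (1 + w e)

theorem pw_div {w : ι → ℝ} (hw : ∀ e, 0 ≤ w e) (e : D) :
    pw D w e / (1 - pw D w e) = w e := by
  have : 1 + w (e : ι) ≠ 0 := by linarith [hw e]
  rw [pw]
  field_simp
  ring

theorem pw_mem {w : ι → ℝ} (hw : ∀ e, 0 ≤ w e) (e : D) : 0 ≤ pw D w e ∧ pw D w e < 1 := by
  have : 0 < 1 + w (e : ι) := by linarith [hw e]
  refine ⟨div_nonneg (hw e) this.le, ?_⟩
  rw [pw, div_lt_one this]
  linarith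

/-- The graph weight of a set of edges. -/
noncomputable def hw (W : Set X) (S : Finset ι) : ℝ :=
  weight (gA a b D r hY) (gB a b D r hY) (pw D w) q (gW Y r W) (S.subtype (· ∈ D))

theorem subtype_gS (ω : Finset D) : (gS D ω).subtype (· ∈ D) = ω := by
  ext e
  rw [mem_subtype, gS, mem_map]
  constructor
  · rintro ⟨e', he', h⟩
    rwa [← Subtype.ext h]
  · exact fun h => ⟨e, h, rfl⟩

theorem hw_rec (hw0 : ∀ e, 0 ≤ w e) (hq : q ≠ 0) (W : Set X) :
    Rec a b w q D (r ⊔ wir W) (hw a b w q D r hY W) := by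
  classical
  intro S hS e he heS
  have h1 : (insert e S).subtype (· ∈ D) = insert (⟨e, he⟩ : D) (S.subtype (· ∈ D)) := by
    ext x
    rw [mem_subtype, mem_insert, mem_insert, mem_subtype]
    exact or_congr ⟨fun h => Subtype.ext h, fun h => congrArg Subtype.val h⟩ Iff.rfl
  have h2 : (⟨e, he⟩ : D) ∉ S.subtype (· ∈ D) := fun h => heS (mem_subtype.1 h)
  have h3 : gS D (S.subtype (· ∈ D)) = S := by
    rw [gS, subtype_map, filter_true_of_mem]
    exact fun x hx => hS hx
  have h4 : (conf (gA a b D r hY) (gB a b D r hY) (S.subtype (· ∈ D)) ⊔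
      wir (gW Y r W : Set (GV Y r))) (gA a b D r hY ⟨e, he⟩) (gB a b D r hY ⟨e, he⟩) ↔
      con a b (r ⊔ wir W) (gS D (S.subtype (· ∈ D))) (a e) (b e) :=
    conf_sup_gv a b D r hY (S.subtype (· ∈ D)) W (hY e he).1 (hY e he).2
  rw [h3] at h4
  rw [hw, hw, h1, weight_insert _ _ (fun e => (pw_mem D hw0 e).2) hq _ h2, pw_div D hw0]
  by_cases h5 : con a b (r ⊔ wir W) S (a e) (b e)
  · rw [if_pos h5, if_pos (h4.2 h5)]
  · rw [if_neg h5, if_neg fun h6 => h5 (h4.1 h6)]

/-- **Transfer to the graph model.** -/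
theorem GE_graph (hw0 : ∀ e, 0 ≤ w e) (hq : 0 < q) (W : Set X) (F : Finset ι → ℝ) :
    GE a b w q D (r ⊔ wir W) F =
      (∑ ω : Finset D, weight (gA a b D r hY) (gB a b D r hY) (pw D w) q (gW Y r W) ω *
        F (gS D ω)) /
      ∑ ω : Finset D, weight (gA a b D r hY) (gB a b D r hY) (pw D w) q (gW Y r W) ω := by
  have h0 : hw a b w q D r hY W ∅ ≠ 0 := by
    have h1 : (∅ : Finset ι).subtype (· ∈ D) = ∅ := rfl
    rw [hw, h1, weight, prod_empty, one_mul]
    refine mul_ne_zero (prod_ne_zero_iff.2 fun e _ => ?_) (pow_ne_zero _ hq.ne')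
    linarith [(pw_mem D hw0 e).2]
  rw [← (hw_rec a b w q D r hY hw0 hq.ne' W).sum_div hq h0 F, sum_gS, sum_gS]
  simp only [hw, subtype_gS]

end graph

end Vale.Agent.P167.H816
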