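import Vale.Agent.P167.H92.Cap

/-!
# P167: the random-cluster model with an arbitrary exterior relation

`D` is a finite set of edges with ends `a`, `b` in any type `X`, `r` any equivalence relation on `X`
(the connections outside of `D`). The weight of `S ⊆ D` is `∏ w` times `q` to the number of the classes
of `con a b r S` which contain ends of edges of `D`.
-/

set_option autoImplicit false
set_option linter.unusedSectionVars false

namespace Vale.Agent.P167.H816

open Finset Vale.Agent.P167.H623

variable {X ι : Type*}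

section basic

variable (a b : ι → X)

theorem cf_insert' [DecidableEq ι] (e : ι) (S : Finset ι) :
    conf a b (insert e S) = join (a e) (b e) ⊔ conf a b S := by
  rw [conf, Finset.sup_insert, conf]

theorem cf_mono' {S S' : Finset ι} (h : S ⊆ S') : conf a b S ≤ conf a b S' :=
  Finset.sup_mono h

theorem join_le_iff' {x y : X} {P : Setoid X} : join x y ≤ P ↔ P x y := by
  constructor
  · intro h
    exact h (Or.inr (Or.inl ⟨rfl, rfl⟩))
  · rintro h u v (k | ⟨k, k'⟩ | ⟨k, k'⟩)
    · rw [k]
    · rw [k, k']; exact h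
    · rw [k, k']; exact P.symm h

theorem cf_edge' {S : Finset ι} {e : ι} (he : e ∈ S) : conf a b S (a e) (b e) :=
  join_le_iff'.1 (Finset.le_sup (f := fun e => join (a e) (b e)) he)

/-- Connections through the exterior relation `r` and the open edges `S`. -/
def con (r : Setoid X) (S : Finset ι) : Setoid X := r ⊔ conf a b S

theorem con_empty (r : Setoid X) : con a b r ∅ = r := by
  rw [con, conf, Finset.sup_empty, sup_bot_eq]

theorem con_insert [DecidableEq ι] (r : Setoid X) (e : ι) (S : Finset ι) :
    con a b r (insert e S) = con a b r S ⊔ join (a e) (b e) := by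
  rw [con, cf_insert', sup_comm (join (a e) (b e)), ← sup_assoc, con]

theorem con_insert_iff [DecidableEq ι] (r : Setoid X) (e : ι) (S : Finset ι) (x y : X) :
    con a b r (insert e S) x y ↔ con a b r S x y ∨ (con a b r S x (a e) ∧ con a b r S (b e) y) ∨
      (con a b r S x (b e) ∧ con a b r S (a e) y) := by
  rw [con_insert, sup_join]
  rfl

theorem le_con (r : Setoid X) (S : Finset ι) : r ≤ con a b r S := le_sup_left

theorem con_mono {r r' : Setoid X} (h : r ≤ r') {S S' : Finset ι} (hS : S ⊆ S') :
    con a b r S ≤ con a b r' S' := sup_le_sup h (cf_mono' a b hS)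

theorem con_edge (r : Setoid X) {S : Finset ι} {e : ι} (he : e ∈ S) :
    con a b r S (a e) (b e) := by
  have h : conf a b S ≤ con a b r S := le_sup_right
  exact h (cf_edge' a b he)

/-- Connections depend only on the exterior relation between the ends. -/
theorem con_congr [DecidableEq ι] {r r' : Setoid X} {S : Finset ι} {Y : Set X}
    (hY : ∀ e ∈ S, a e ∈ Y ∧ b e ∈ Y) (h : ∀ x ∈ Y, ∀ y ∈ Y, (r x y ↔ r' x y)) :
    ∀ x ∈ Y, ∀ y ∈ Y, (con a b r S x y ↔ con a b r' S x y) := by
  induction S using Finset.induction_on with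
  | empty =>
    intro x hx y hy
    rw [con_empty, con_empty]
    exact h x hx y hy
  | insert e S _ ih =>
    have ih' := ih fun e' he' => hY e' (mem_insert_of_mem he')
    obtain ⟨ha, hb⟩ := hY e (mem_insert_self e S)
    intro x hx y hy
    rw [con_insert_iff, con_insert_iff, ih' x hx y hy, ih' x hx _ ha, ih' _ hb y hy,
      ih' x hx _ hb, ih' _ ha y hy]

end basic

/-! ### Counting classes -/

section count

open Classical in
/-- The number of the classes of `P` which meet the finite set `Y`. -/
noncomputable def kk (Y : Finset X) (P : Setoid X) : ℕ :=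
  (classes (P.comap (Subtype.val : Y → X))).card

theorem comap_sup_join {Y : Finset X} (P : Setoid X) {x y : X} (hx : x ∈ Y) (hy : y ∈ Y) :
    (P ⊔ join x y).comap (Subtype.val : Y → X) =
      P.comap (Subtype.val : Y → X) ⊔ join (⟨x, hx⟩ : Y) ⟨y, hy⟩ := by
  ext u v
  rw [sup_join_iff]
  exact sup_join_iff P x y u v

theorem card_classes_join {V : Type*} [Fintype V] [DecidableEq V] (P : Setoid V) {x y : V}
    (h : ¬ P x y) : (classes (P ⊔ join x y)).card + 1 = (classes P).card := by
  have hne : cls P y ≠ cls P x := fun k => h (cls_eq_iff.1 k.symm)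
  have h2 : cls P x ∪ cls P y ∉ ((classes P).erase (cls P x)).erase (cls P y) := by
    intro h'
    rw [mem_erase, mem_erase, mem_classes] at h'
    obtain ⟨-, -, u, hu⟩ := h'
    have h3 : P u x := mem_cls.1 (hu ▸ mem_union_left _ (self_mem_cls P x))
    have h4 : P u y := mem_cls.1 (hu ▸ mem_union_right _ (self_mem_cls P y))
    exact h (P.trans (P.symm h3) h4)
  rw [classes_sup_join, card_insert_of_notMem h2,
    card_erase_of_mem (mem_erase.2 ⟨hne, cls_mem P y⟩), card_erase_of_mem (cls_mem P x)]
  have h3 : 2 ≤ (classes P).card := by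
    have : ({cls P x, cls P y} : Finset (Finset V)) ⊆ classes P := by
      intro c hc
      rw [mem_insert, mem_singleton] at hc
      rcases hc with rfl | rfl
      · exact cls_mem P _
      · exact cls_mem P _
    have h4 := card_le_card this
    rwa [card_pair (fun h => hne h.symm)] at h4
  omega

theorem kk_join {Y : Finset X} (P : Setoid X) {x y : X} (hx : x ∈ Y) (hy : y ∈ Y)
    (h : ¬ P x y) : kk Y (P ⊔ join x y) + 1 = kk Y P := by
  classical
  rw [kk, kk, comap_sup_join P hx hy]
  exact card_classes_join _ h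

theorem sup_join_of_rel {P : Setoid X} {x y : X} (h : P x y) : P ⊔ join x y = P :=
  sup_eq_left.2 (join_le_iff'.2 h)

end count

/-! ### The measure -/

section measure

variable [DecidableEq ι] (a b : ι → X) (w : ι → ℝ) (q : ℝ) (D : Finset ι)

open Classical in
/-- The ends of the edges of `D`. -/
noncomputable def ends : Finset X := D.image a ∪ D.image b

theorem fst_mem_ends {e : ι} (he : e ∈ D) : a e ∈ ends a b D := by
  classical
  exact mem_union_left _ (mem_image_of_mem _ he)

theorem snd_mem_ends {e : ι} (he : e ∈ D) : b e ∈ ends a b D := by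
  classical
  exact mem_union_right _ (mem_image_of_mem _ he)

theorem mem_ends {x : X} : x ∈ ends a b D ↔ ∃ e ∈ D, x = a e ∨ x = b e := by
  classical
  rw [ends, mem_union, mem_image, mem_image]
  constructor
  · rintro (⟨e, he, rfl⟩ | ⟨e, he, rfl⟩)
    · exact ⟨e, he, Or.inl rfl⟩
    · exact ⟨e, he, Or.inr rfl⟩
  · rintro ⟨e, he, rfl | rfl⟩
    · exact Or.inl ⟨e, he, rfl⟩
    · exact Or.inr ⟨e, he, rfl⟩

/-- The weight of the set `S` of open edges. -/
noncomputable def gw (r : Setoid X) (S : Finset ι) : ℝ :=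
  (∏ e ∈ S, w e) * q ^ kk (ends a b D) (con a b r S)

/-- The expectation. -/
noncomputable def GE (r : Setoid X) (F : Finset ι → ℝ) : ℝ :=
  (∑ S ∈ D.powerset, gw a b w q D r S * F S) / ∑ S ∈ D.powerset, gw a b w q D r S

open Classical in
/-- The recursion which characterizes the weight up to a constant. -/
def Rec (r : Setoid X) (g : Finset ι → ℝ) : Prop :=
  ∀ S ⊆ D, ∀ e ∈ D, e ∉ S →
    g (insert e S) = (if con a b r S (a e) (b e) then w e else w e / q) * g S

variable {a b w q D}

theorem gw_pos {r : Setoid X} (hw : ∀ e, 0 < w e) (hq : 0 < q) (S : Finset ι) :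
    0 < gw a b w q D r S := mul_pos (prod_pos fun e _ => hw e) (pow_pos hq _)

theorem gw_nonneg {r : Setoid X} (hw : ∀ e, 0 ≤ w e) (hq : 0 < q) (S : Finset ι) :
    0 ≤ gw a b w q D r S := mul_nonneg (prod_nonneg fun e _ => hw e) (pow_pos hq _).le

theorem gw_rec {r : Setoid X} (hq : q ≠ 0) : Rec a b w q D r (gw a b w q D r) := by
  intro S _ e he heS
  rw [gw, gw, prod_insert heS, con_insert]
  split_ifs with h
  · rw [sup_join_of_rel h, mul_assoc]
  · rw [← kk_join (con a b r S) (fst_mem_ends a b D he) (snd_mem_ends a b D he) h, pow_succ]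
    field_simp

/-- Two solutions of the recursion are proportional. -/
theorem Rec.eq {r : Setoid X} {g g' : Finset ι → ℝ} (hg : Rec a b w q D r g)
    (hg' : Rec a b w q D r g') {S : Finset ι} (hS : S ⊆ D) : g S * g' ∅ = g' S * g ∅ := by
  induction S using Finset.induction_on with
  | empty => exact mul_comm _ _
  | insert e S heS ih =>
    have hS' : S ⊆ D := (subset_insert e S).trans hS
    have he : e ∈ D := hS (mem_insert_self e S)
    rw [hg S hS' e he heS, hg' S hS' e he heS, mul_assoc, ih hS', mul_assoc]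

theorem Rec.congr {r r' : Setoid X} {g : Finset ι → ℝ} (hg : Rec a b w q D r g)
    (h : ∀ x ∈ ends a b D, ∀ y ∈ ends a b D, (r x y ↔ r' x y)) : Rec a b w q D r' g := by
  intro S hS e he heS
  rw [hg S hS e he heS]
  have := con_congr (S := S) (Y := (ends a b D : Set X)) a b
    (fun e he => ⟨fst_mem_ends a b D (hS he), snd_mem_ends a b D (hS he)⟩) h _
    (fst_mem_ends a b D he) _ (snd_mem_ends a b D he)
  by_cases h' : con a b r S (a e) (b e)
  · rw [if_pos h', if_pos (this.1 h')]
  · rw [if_neg h', if_neg fun h'' => h' (this.2 h'')]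

/-- The expectation for any solution of the recursion. -/
theorem Rec.sum_div {r : Setoid X} {g : Finset ι → ℝ} (hg : Rec a b w q D r g) (hq : 0 < q)
    (h0 : g ∅ ≠ 0) (F : Finset ι → ℝ) :
    (∑ S ∈ D.powerset, g S * F S) / (∑ S ∈ D.powerset, g S) = GE a b w q D r F := by
  have h1 : gw a b w q D r ∅ ≠ 0 := by
    rw [gw, prod_empty, one_mul]
    exact (pow_pos hq _).ne'
  have h2 : ∀ S ∈ D.powerset, g S = g ∅ / gw a b w q D r ∅ * gw a b w q D r S := by
    intro S hS
    have := hg.eq (gw_rec hq.ne') (mem_powerset.1 hS)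
    field_simp
    linarith
  have h3 : ∑ S ∈ D.powerset, g S * F S =
      g ∅ / gw a b w q D r ∅ * ∑ S ∈ D.powerset, gw a b w q D r S * F S := by
    rw [mul_sum]
    refine sum_congr rfl fun S hS => ?_
    rw [h2 S hS, mul_assoc]
  have h4 : ∑ S ∈ D.powerset, g S =
      g ∅ / gw a b w q D r ∅ * ∑ S ∈ D.powerset, gw a b w q D r S := by
    rw [mul_sum]
    exact sum_congr rfl fun S hS => h2 S hS
  rw [h3, h4, GE, mul_div_mul_left _ _ (div_ne_zero h0 h1)]

/-- The expectation depends only on the exterior relation between the ends. -/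
theorem GE_congr {r r' : Setoid X} (hq : 0 < q)
    (h : ∀ x ∈ ends a b D, ∀ y ∈ ends a b D, (r x y ↔ r' x y)) {F F' : Finset ι → ℝ}
    (hF : ∀ S ⊆ D, F S = F' S) : GE a b w q D r F = GE a b w q D r' F' := by
  have h1 : gw a b w q D r ∅ ≠ 0 := by
    rw [gw, prod_empty, one_mul]
    exact (pow_pos hq _).ne'
  rw [← ((gw_rec hq.ne').congr h).sum_div hq h1 F', GE]
  congr 1
  exact sum_congr rfl fun S hS => by rw [hF S (mem_powerset.1 hS)]

theorem sum_gw_pos {r : Setoid X} (hw : ∀ e, 0 ≤ w e) (hq : 0 < q) :
    0 < ∑ S ∈ D.powerset, gw a b w q D r S := by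
  refine sum_pos' (fun S _ => gw_nonneg hw hq S) ⟨∅, empty_mem_powerset D, ?_⟩
  rw [gw, prod_empty, one_mul]
  exact pow_pos hq _

theorem GE_mono {r : Setoid X} (hw : ∀ e, 0 ≤ w e) (hq : 0 < q) {F F' : Finset ι → ℝ}
    (h : ∀ S ⊆ D, F S ≤ F' S) : GE a b w q D r F ≤ GE a b w q D r F' :=
  div_le_div_of_nonneg_right
    (sum_le_sum fun S hS => mul_le_mul_of_nonneg_left (h S (mem_powerset.1 hS)) (gw_nonneg hw hq S))
    (sum_gw_pos hw hq).le

theorem GE_const {r : Setoid X} (hw : ∀ e, 0 ≤ w e) (hq : 0 < q) (c : ℝ) :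
    GE a b w q D r (fun _ => c) = c := by
  rw [GE, ← sum_mul, mul_comm, mul_div_assoc, div_self (sum_gw_pos hw hq).ne', mul_one]

end measure

end Vale.Agent.P167.H816
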