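import Vale.Agent.P167.H816.Vr
import Vale.Agent.P167.H816.Stop

/-!
# P167: exploration of the closed clusters of a set of sites

* `Kc Z A ω`: the sites reached from `A` by closed squares of `Z`; `Tq Z A ω`: the squares of `Z` which
  touch it; `Kc_self`: they are determined by the configuration on `Tq Z A ω`;
* `easy_v`: crossings of a rectangle, transposed form;
* `around`, `detour`: paths around the explored cluster.
-/

set_option autoImplicit false

namespace Vale.Agent.P167.H816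

open Finset Vale.Agent.P167.FK Vale.Agent.P167.H262
open Relation (ReflTransGen)
open Vale.Agent.P145.FB (PStep PConn)
open Vale.Agent.P153.Topo (Rect mem_rect)

variable {ω ω' : Cfg} {Z : Finset (ℤ × ℤ)} {A : Set (ℤ × ℤ)}

/-- The sites reached from `A` by closed squares of `Z`. -/
def Kc (Z : Finset (ℤ × ℤ)) (A : Set (ℤ × ℤ)) (ω : Cfg) : Set (ℤ × ℤ) :=
  {p | ∃ u ∈ A, ReflTransGen (PStep ((op ω)ᶜ ∩ ↑Z)) u p}

/-- The square `v` has an odd corner in `K`. -/
def Tch (K : Set (ℤ × ℤ)) (v : ℤ × ℤ) : Prop := da v ∈ K ∨ db v ∈ K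

open Classical in
/-- The squares of `Z` which touch the explored set. -/
noncomputable def Tq (Z : Finset (ℤ × ℤ)) (A : Set (ℤ × ℤ)) (ω : Cfg) : Finset (ℤ × ℤ) :=
  Z.filter fun v => Tch (Kc Z A ω) v

theorem mem_Tq {v : ℤ × ℤ} : v ∈ Tq Z A ω ↔ v ∈ Z ∧ Tch (Kc Z A ω) v := by
  classical
  rw [Tq, mem_filter]

theorem Tq_subset : Tq Z A ω ⊆ Z := fun _ h => (mem_Tq.1 h).1

theorem Kc_odd (hA : ∀ s ∈ A, Odd (s.1 + s.2)) {p : ℤ × ℤ} (h : p ∈ Kc Z A ω) :
    Odd (p.1 + p.2) := by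
  obtain ⟨u, hu, h⟩ := h
  have h0 := hA u hu
  clear hu
  induction h with
  | refl => exact h0
  | tail _ h ih => exact odd_step h ih

theorem Kc_step {u v : ℤ × ℤ} (hu : u ∈ Kc Z A ω) (h : PStep ((op ω)ᶜ ∩ ↑Z) u v) :
    v ∈ Kc Z A ω := by
  obtain ⟨s, hs, h'⟩ := hu
  exact ⟨s, hs, h'.tail h⟩

/-- The square of a step from an odd site touches its end points. -/
theorem tch_step {K F : Set (ℤ × ℤ)} {u v : ℤ × ℤ} (h : PStep F u v) (ho : Odd (u.1 + u.2))
    (hu : u ∈ K ∨ v ∈ K) : Tch K (sqr u v) := by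
  rcases step_odd h ho with ⟨h1, h2⟩ | ⟨h1, h2⟩
  · rcases hu with hu | hu
    · left; rwa [← h1]
    · right; rwa [← h2]
  · rcases hu with hu | hu
    · right; rwa [← h1]
    · left; rwa [← h2]

/-- The explored set is determined by the explored squares. -/
theorem Kc_self (hA : ∀ s ∈ A, Odd (s.1 + s.2)) (h : ∀ v ∈ Tq Z A ω, ω v = ω' v) :
    Kc Z A ω' = Kc Z A ω := by
  ext p
  constructor
  · rintro ⟨u, hu, h'⟩
    induction h' with
    | refl => exact ⟨u, hu, ReflTransGen.refl⟩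
    | @tail x y _ hxy ih =>
      refine Kc_step ih ⟨hxy.1, hxy.2.1, ?_, hxy.2.2.2⟩
      have h1 : sqr x y ∈ Tq Z A ω :=
        mem_Tq.2 ⟨Finset.mem_coe.1 hxy.2.2.2, tch_step hxy (Kc_odd hA ih) (Or.inl ih)⟩
      have h2 : ¬ ω' (sqr x y) = true := hxy.2.2.1
      show ¬ ω (sqr x y) = true
      rwa [h _ h1]
  · rintro ⟨u, hu, h'⟩
    have key : p ∈ Kc Z A ω ∧ p ∈ Kc Z A ω' := by
      induction h' with
      | refl => exact ⟨⟨u, hu, ReflTransGen.refl⟩, u, hu, ReflTransGen.refl⟩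
      | @tail x y _ hxy ih =>
        refine ⟨Kc_step ih.1 hxy, Kc_step ih.2 ⟨hxy.1, hxy.2.1, ?_, hxy.2.2.2⟩⟩
        have h1 : sqr x y ∈ Tq Z A ω :=
          mem_Tq.2 ⟨Finset.mem_coe.1 hxy.2.2.2, tch_step hxy (Kc_odd hA ih.1) (Or.inl ih.1)⟩
        have h2 : ¬ ω (sqr x y) = true := hxy.2.2.1
        show ¬ ω' (sqr x y) = true
        rwa [← h _ h1]
    exact key.2

theorem Tq_self (hA : ∀ s ∈ A, Odd (s.1 + s.2)) (h : ∀ v ∈ Tq Z A ω, ω v = ω' v) :
    Tq Z A ω' = Tq Z A ω := by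
  ext v
  rw [mem_Tq, mem_Tq, Kc_self hA h]

theorem rtg_symm' {F : Set (ℤ × ℤ)} {u v : ℤ × ℤ} (h : ReflTransGen (PStep F) u v) :
    ReflTransGen (PStep F) v u := by
  induction h with
  | refl => exact ReflTransGen.refl
  | tail _ h ih => exact ReflTransGen.head h.symm ih

/-! ### Rectangles -/

/-- A path of squares of a rectangle which is not trivial starts in the rectangle. -/
theorem path_mem {F : Set (ℤ × ℤ)} {u v : ℤ × ℤ} {a b c d : ℤ}
    (h : ReflTransGen (PStep (F ∩ ↑(Rsq a b c d))) u v) (hne : u ≠ v) : u ∈ Rect a b c d := by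
  rcases ReflTransGen.cases_head h with h | ⟨w, h, -⟩
  · exact absurd h hne
  · have h1 : (min u.1 w.1, min u.2 w.2) ∈ Rsq a b c d := Finset.mem_coe.1 h.2.2.2
    have h2 := h.1
    have h3 := h.2.1
    rw [mem_Rsq] at h1
    simp only at h1
    rw [mem_rect]
    omega

theorem path_mem' {F : Set (ℤ × ℤ)} {u v : ℤ × ℤ} {a b c d : ℤ}
    (h : ReflTransGen (PStep (F ∩ ↑(Rsq a b c d))) u v) (hne : u ≠ v) : v ∈ Rect a b c d :=
  path_mem (rtg_symm' h) (Ne.symm hne)

/-- `P145.FB.easy`, transposed: an open path from the bottom to the top of a rectangle excludes closed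
paths from its left to its right. -/
theorem easy_v {F : Set (ℤ × ℤ)} {a b c d : ℤ} {u v y y' : ℤ × ℤ}
    (hF : PConn F (Rect a b c d) u v) (hu : u.2 = c) (hv : v.2 = d) (he : (u.1 + u.2) % 2 = 0)
    (hE : PConn Fᶜ (Rect a b c d) y y') (ho : (y.1 + y.2) % 2 = 1)
    (hy : y.1 = a ∨ (y.2 = d ∧ y.1 < v.1) ∨ (y.2 = c ∧ y.1 < u.1))
    (hy' : y'.1 = b ∨ (y'.2 = d ∧ v.1 < y'.1) ∨ (y'.2 = c ∧ u.1 < y'.1)) : False := by
  have e0 : Prod.swap ⁻¹' Rect a b c d = Rect c d a b := by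
    ext z
    rw [Set.mem_preimage, mem_rect, mem_rect]
    simp only [Prod.fst_swap, Prod.snd_swap]
    tauto
  have h1 := hF.swap
  have h2 := hE.swap
  rw [e0] at h1 h2
  exact Vale.Agent.P145.FB.easy h1 (by simpa using hu) (by simpa using hv)
    (by simp only [Prod.fst_swap, Prod.snd_swap]; omega) h2
    (by simp only [Prod.fst_swap, Prod.snd_swap]; omega)
    (by simpa using hy) (by simpa using hy')

theorem nb_symm {s f : ℤ × ℤ} (h : Nb s f) : Nb f s := by
  obtain ⟨s1, s2⟩ := s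
  obtain ⟨f1, f2⟩ := f
  simp only [Nb, Prod.mk.injEq] at h ⊢
  omega

/-- Two neighbours of `k` in the rectangle are joined by the squares around `k`. -/
theorem around {F : Set (ℤ × ℤ)} {a b c d : ℤ} (hab : a < b) (hcd : c < d) {k s s' : ℤ × ℤ}
    (hk : k ∈ Rect a b c d) (hF : ∀ q ∈ four k, q ∈ Rsq a b c d → q ∈ F)
    (h : Nb k s) (h' : Nb k s') (hs : s ∈ Rect a b c d) (hs' : s' ∈ Rect a b c d) :
    PConn F (Rect a b c d) s s' := by
  obtain ⟨k1, k2⟩ := k
  rw [mem_rect] at hk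
  simp only at hk
  -- the four steps
  have ne : (k1 + 1, k2) ∈ Rect a b c d → (k1, k2 + 1) ∈ Rect a b c d →
      PStep F (k1 + 1, k2) (k1, k2 + 1) := by
    intro h1 h2
    rw [mem_rect] at h1 h2
    simp only at h1 h2
    refine ⟨Or.inr (by simp), Or.inl rfl, ?_⟩
    have e1 : (min (k1 + 1) k1, min k2 (k2 + 1)) = (k1, k2) := by ext <;> simp
    rw [e1]
    refine hF _ (by simp [four]) ?_
    rw [mem_Rsq]
    simp only
    omega
  have nw : (k1 - 1, k2) ∈ Rect a b c d → (k1, k2 + 1) ∈ Rect a b c d →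
      PStep F (k1 - 1, k2) (k1, k2 + 1) := by
    intro h1 h2
    rw [mem_rect] at h1 h2
    simp only at h1 h2
    refine ⟨Or.inl (by simp), Or.inl rfl, ?_⟩
    have e1 : (min (k1 - 1) k1, min k2 (k2 + 1)) = (k1 - 1, k2) := by ext <;> simp
    rw [e1]
    refine hF _ (by simp [four]) ?_
    rw [mem_Rsq]
    simp only
    omega
  have se : (k1 + 1, k2) ∈ Rect a b c d → (k1, k2 - 1) ∈ Rect a b c d →
      PStep F (k1 + 1, k2) (k1, k2 - 1) := by
    intro h1 h2
    rw [mem_rect] at h1 h2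
    simp only at h1 h2
    refine ⟨Or.inr (by simp), Or.inr rfl, ?_⟩
    have e1 : (min (k1 + 1) k1, min k2 (k2 - 1)) = (k1, k2 - 1) := by ext <;> simp
    rw [e1]
    refine hF _ (by simp [four]) ?_
    rw [mem_Rsq]
    simp only
    omega
  have sw : (k1 - 1, k2) ∈ Rect a b c d → (k1, k2 - 1) ∈ Rect a b c d →
      PStep F (k1 - 1, k2) (k1, k2 - 1) := by
    intro h1 h2
    rw [mem_rect] at h1 h2
    simp only at h1 h2
    refine ⟨Or.inl (by simp), Or.inr rfl, ?_⟩
    have e1 : (min (k1 - 1) k1, min k2 (k2 - 1)) = (k1 - 1, k2 - 1) := by ext <;> simp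
    rw [e1]
    refine hF _ (by simp [four]) ?_
    rw [mem_Rsq]
    simp only
    omega
  have one : ∀ {x y : ℤ × ℤ}, x ∈ Rect a b c d → y ∈ Rect a b c d → PStep F x y →
      PConn F (Rect a b c d) x y := fun hx hy hxy => (PConn.refl hx).tail hxy hy
  -- the hub
  obtain ⟨t, ht⟩ : ∃ t, ∀ s, Nb (k1, k2) s → s ∈ Rect a b c d →
      PConn F (Rect a b c d) s t := by
    by_cases hN : k2 < d
    · have mN : (k1, k2 + 1) ∈ Rect a b c d := by
        rw [mem_rect]; simp only; omega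
      refine ⟨(k1, k2 + 1), ?_⟩
      rintro s (hs | hs | hs | hs) hsR <;> subst hs
      · exact one hsR mN (ne hsR mN)
      · exact one hsR mN (nw hsR mN)
      · exact PConn.refl hsR
      · by_cases hE : k1 < b
        · have mE : (k1 + 1, k2) ∈ Rect a b c d := by
            rw [mem_rect]; simp only; omega
          exact (one hsR mE (se mE hsR).symm).trans (one mE mN (ne mE mN))
        · have mW : (k1 - 1, k2) ∈ Rect a b c d := by
            rw [mem_rect]; simp only; omega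
          exact (one hsR mW (sw mW hsR).symm).trans (one mW mN (nw mW mN))
    · have mS : (k1, k2 - 1) ∈ Rect a b c d := by
        rw [mem_rect]; simp only; omega
      refine ⟨(k1, k2 - 1), ?_⟩
      rintro s (hs | hs | hs | hs) hsR <;> subst hs
      · exact one hsR mS (se hsR mS)
      · exact one hsR mS (sw hsR mS)
      · rw [mem_rect] at hsR
        simp only at hsR
        omega
      · exact PConn.refl hsR
  exact (ht s h hs).trans (ht s' h' hs').symm

/-- The corners of a square of the rectangle. -/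
theorem corner_mem {a b c d : ℤ} {q : ℤ × ℤ} (hq : q ∈ Rsq a b c d) : pa q ∈ Rect a b c d ∧
    pb q ∈ Rect a b c d ∧ da q ∈ Rect a b c d ∧ db q ∈ Rect a b c d := by
  rw [mem_Rsq] at hq
  simp only [mem_rect]
  unfold pa pb da db
  split_ifs <;> (simp only; omega)

/-- The squares around a corner. -/
theorem four_of_tch {K : Set (ℤ × ℤ)} {k q : ℤ × ℤ} (hk : k ∈ K) (ho : Odd (k.1 + k.2))
    (hq : q ∈ four k) : Tch K q := by
  obtain ⟨k1, k2⟩ := k
  simp only at ho
  rw [Int.odd_iff] at ho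
  simp only [four, mem_insert, mem_singleton] at hq
  rcases hq with rfl | rfl | rfl | rfl
  · left
    rw [da_mk, if_neg (by rw [Int.even_iff]; omega)]
    exact hk
  · right
    rw [db_mk, if_pos (by rw [Int.even_iff]; omega)]
    simpa using hk
  · left
    rw [da_mk, if_pos (by rw [Int.even_iff]; omega)]
    simpa using hk
  · right
    rw [db_mk, if_neg (by rw [Int.even_iff]; omega)]
    simpa using hk

/-- The even corners are neighbours of the odd corners. -/
theorem nb_corner {s q : ℤ × ℤ} (hs : s = pa q ∨ s = pb q) : Nb (da q) s ∧ Nb (db q) s :=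
  ⟨nb_symm (Co.nb (s := s) (b := q) hs).1, nb_symm (Co.nb (s := s) (b := q) hs).2⟩

/-- **Detour around the explored set**: `K` is explored from `A`; all squares of the rectangle which
touch `K` belong to `F`. If the neighbours of the sites of `A` are joined to the goal `P` then so are
the neighbours of the sites of `K`. -/
theorem detour_gen {F : Set (ℤ × ℤ)} {a b c d : ℤ} (hab : a < b) (hcd : c < d)
    (hA : ∀ s ∈ A, Odd (s.1 + s.2)) {P : ℤ × ℤ → Prop}
    (hF : ∀ q ∈ Rsq a b c d, Tch (Kc (Rsq a b c d) A ω) q → q ∈ F)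
    (hbase : ∀ u ∈ A, u ∈ Rect a b c d → ∀ s, Nb u s → s ∈ Rect a b c d →
      ∃ t, P t ∧ PConn F (Rect a b c d) s t) {k s : ℤ × ℤ}
    (hk : k ∈ Kc (Rsq a b c d) A ω) (hkR : k ∈ Rect a b c d) (hks : Nb k s)
    (hs : s ∈ Rect a b c d) : ∃ t, P t ∧ PConn F (Rect a b c d) s t := by
  set K := Kc (Rsq a b c d) A ω with hK
  have hodd : ∀ p ∈ K, Odd (p.1 + p.2) := fun p hp => Kc_odd hA hp
  have har : ∀ k ∈ K, k ∈ Rect a b c d → ∀ s s', Nb k s → Nb k s' → s ∈ Rect a b c d →
      s' ∈ Rect a b c d → PConn F (Rect a b c d) s s' := fun k hk hkR s s' h h' hs hs' =>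
    around hab hcd hkR (fun q hq hqR => hF q hqR (four_of_tch hk (hodd k hk) hq)) h h' hs hs'
  obtain ⟨u, hu, h⟩ := hk
  have key : k ∈ K ∧ (k ∈ Rect a b c d → ∀ s, Nb k s → s ∈ Rect a b c d →
      ∃ t, P t ∧ PConn F (Rect a b c d) s t) := by
    clear hks hs hkR
    induction h with
    | refl => exact ⟨⟨u, hu, ReflTransGen.refl⟩, hbase u hu⟩
    | @tail x y hux hxy ih =>
      have hxK : x ∈ K := ⟨u, hu, hux⟩
      have hyK : y ∈ K := Kc_step hxK hxy
      refine ⟨hyK, fun hyR s hys hs => ?_⟩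
      have hq : sqr x y ∈ Rsq a b c d := Finset.mem_coe.1 hxy.2.2.2
      obtain ⟨m1, m2, m3, m4⟩ := corner_mem hq
      have hn := nb_corner (s := pa (sqr x y)) (q := sqr x y) (Or.inl rfl)
      have hxR : x ∈ Rect a b c d ∧ Nb x (pa (sqr x y)) ∧ Nb y (pa (sqr x y)) := by
        rcases step_odd hxy (hodd x hxK) with ⟨h1, h2⟩ | ⟨h1, h2⟩
        · rw [← h1, ← h2] at hn
          rw [← h1] at m3
          exact ⟨m3, hn.1, hn.2⟩
        · rw [← h1, ← h2] at hn
          rw [← h1] at m4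
          exact ⟨m4, hn.2, hn.1⟩
      obtain ⟨t, ht, h1⟩ := ih.2 hxR.1 _ hxR.2.1 m1
      exact ⟨t, ht, (har y hyK hyR s _ hys hxR.2.2 hs m1).trans h1⟩
  exact key.2 hkR s hks hs

/-- **Detour around the set explored from the top**: every neighbour of a site of `K` is joined to the
top. -/
theorem detour {F : Set (ℤ × ℤ)} {a b c d : ℤ} (hab : a < b) (hcd : c < d)
    (hF : ∀ q ∈ Rsq a b c d, Tch (Kc (Rsq a b c d) (Upd d) ω) q → q ∈ F) {k s : ℤ × ℤ}
    (hk : k ∈ Kc (Rsq a b c d) (Upd d) ω) (hkR : k ∈ Rect a b c d) (hks : Nb k s)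
    (hs : s ∈ Rect a b c d) : ∃ t, t.2 = d ∧ PConn F (Rect a b c d) s t := by
  refine detour_gen (P := fun t => t.2 = d) hab hcd (fun s hs => hs.1) hF ?_ hk hkR hks hs
  intro u hu huR s hus hs
  have huK : u ∈ Kc (Rsq a b c d) (Upd d) ω := ⟨u, hu, ReflTransGen.refl⟩
  have har : ∀ s s', Nb u s → Nb u s' → s ∈ Rect a b c d → s' ∈ Rect a b c d →
      PConn F (Rect a b c d) s s' := fun s s' h h' hs hs' =>
    around hab hcd huR (fun q hq hqR => hF q hqR (four_of_tch huK hu.1 hq)) h h' hs hs'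
  obtain ⟨u1, u2⟩ := u
  have h1 : d ≤ u2 := hu.2
  rw [mem_rect] at huR
  simp only at huR
  have h2 : u2 = d := by omega
  subst h2
  by_cases hE : u1 < b
  · refine ⟨(u1 + 1, u2), rfl, har s _ hus (Or.inl rfl) hs ?_⟩
    rw [mem_rect]; simp only; omega
  · refine ⟨(u1 - 1, u2), rfl, har s _ hus (Or.inr (Or.inl rfl)) hs ?_⟩
    rw [mem_rect]; simp only; omega

/-- The same from the bottom. -/
theorem detour_b {F : Set (ℤ × ℤ)} {a b c d : ℤ} (hab : a < b) (hcd : c < d)
    (hF : ∀ q ∈ Rsq a b c d, Tch (Kc (Rsq a b c d) (Dnd c) ω) q → q ∈ F) {k s : ℤ × ℤ}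
    (hk : k ∈ Kc (Rsq a b c d) (Dnd c) ω) (hkR : k ∈ Rect a b c d) (hks : Nb k s)
    (hs : s ∈ Rect a b c d) : ∃ t, t.2 = c ∧ PConn F (Rect a b c d) s t := by
  refine detour_gen (P := fun t => t.2 = c) hab hcd (fun s hs => hs.1) hF ?_ hk hkR hks hs
  intro u hu huR s hus hs
  have huK : u ∈ Kc (Rsq a b c d) (Dnd c) ω := ⟨u, hu, ReflTransGen.refl⟩
  have har : ∀ s s', Nb u s → Nb u s' → s ∈ Rect a b c d → s' ∈ Rect a b c d →
      PConn F (Rect a b c d) s s' := fun s s' h h' hs hs' =>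
    around hab hcd huR (fun q hq hqR => hF q hqR (four_of_tch huK hu.1 hq)) h h' hs hs'
  obtain ⟨u1, u2⟩ := u
  have h1 : u2 ≤ c := hu.2
  rw [mem_rect] at huR
  simp only at huR
  have h2 : u2 = c := by omega
  subst h2
  by_cases hE : u1 < b
  · refine ⟨(u1 + 1, u2), rfl, har s _ hus (Or.inl rfl) hs ?_⟩
    rw [mem_rect]; simp only; omega
  · refine ⟨(u1 - 1, u2), rfl, har s _ hus (Or.inr (Or.inl rfl)) hs ?_⟩
    rw [mem_rect]; simp only; omega

/-- A path down a column. -/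
theorem col_path {F : Set (ℤ × ℤ)} {a b c d : ℤ} {y : ℤ × ℤ} (hy : y ∈ Rect a b c d) {i : ℤ}
    (hi : a ≤ i ∧ i + 1 ≤ b) (hyi : y.1 = i ∨ y.1 = i + 1)
    (hF : ∀ j, c ≤ j → j < y.2 → (i, j) ∈ F) :
    ∃ z, z.2 = c ∧ (z.1 = i ∨ z.1 = i + 1) ∧ PConn F (Rect a b c d) y z := by
  rw [mem_rect] at hy
  obtain ⟨n, hn⟩ := Int.eq_ofNat_of_zero_le (sub_nonneg.2 hy.2.2.1)
  induction n generalizing y with
  | zero =>
    refine ⟨y, by push_cast at hn; omega, hyi, PConn.refl ?_⟩
    rw [mem_rect]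
    omega
  | succ n ih =>
    obtain ⟨y1, y2⟩ := y
    simp only at hy hyi hF hn
    push_cast at hn
    set y' : ℤ × ℤ := (if y1 = i then i + 1 else i, y2 - 1) with hy'
    have h1 : y'.1 = i ∨ y'.1 = i + 1 := by
      rw [hy']
      simp only
      split_ifs
      · exact Or.inr rfl
      · exact Or.inl rfl
    have h2 : y'.2 = y2 - 1 := rfl
    obtain ⟨z, hz, hz', h⟩ := ih (y := y') (by omega) h1
      (fun j h3 h4 => hF j h3 (by omega)) (by omega)
    refine ⟨z, hz, hz', PConn.trans (PConn.tail (PConn.refl ?_) ?_ ?_) h⟩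
    · rw [mem_rect]; simp only; omega
    · have h5 : y'.1 = if y1 = i then i + 1 else i := rfl
      refine ⟨?_, Or.inr h2, ?_⟩
      · rw [h5]
        simp only
        split_ifs <;> omega
      · have e1 : min y1 y'.1 = i := by
          rw [h5]
          split_ifs <;> omega
        have e2 : min y2 y'.2 = y2 - 1 := by omega
        simp only
        rw [e1, e2]
        exact hF _ (by omega) (by omega)
    · rw [mem_rect]; omega

/-- A path along a row, to the right. -/
theorem row_right {F : Set (ℤ × ℤ)} {a b c d : ℤ} {y : ℤ × ℤ} (hy : y ∈ Rect a b c d) {j : ℤ}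
    (hj : c ≤ j ∧ j + 1 ≤ d) (hyj : y.2 = j ∨ y.2 = j + 1)
    (hF : ∀ i, y.1 ≤ i → i < b → (i, j) ∈ F) :
    ∃ z, z.1 = b ∧ (z.2 = j ∨ z.2 = j + 1) ∧ PConn F (Rect a b c d) y z := by
  rw [mem_rect] at hy
  obtain ⟨n, hn⟩ := Int.eq_ofNat_of_zero_le (sub_nonneg.2 hy.2.1)
  induction n generalizing y with
  | zero =>
    refine ⟨y, by push_cast at hn; omega, hyj, PConn.refl ?_⟩
    rw [mem_rect]
    omega
  | succ n ih =>
    obtain ⟨y1, y2⟩ := y
    simp only at hy hyj hF hn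
    push_cast at hn
    set y' : ℤ × ℤ := (y1 + 1, if y2 = j then j + 1 else j) with hy'
    have h1 : y'.2 = j ∨ y'.2 = j + 1 := by
      rw [hy']
      simp only
      split_ifs
      · exact Or.inr rfl
      · exact Or.inl rfl
    have h2 : y'.1 = y1 + 1 := rfl
    obtain ⟨z, hz, hz', h⟩ := ih (y := y') (by omega) h1
      (fun i h3 h4 => hF i (by omega) h4) (by omega)
    refine ⟨z, hz, hz', PConn.trans (PConn.tail (PConn.refl ?_) ?_ ?_) h⟩
    · rw [mem_rect]; simp only; omega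
    · have h5 : y'.2 = if y2 = j then j + 1 else j := rfl
      refine ⟨Or.inl h2, ?_, ?_⟩
      · rw [h5]
        simp only
        split_ifs <;> omega
      · have e1 : min y2 y'.2 = j := by
          rw [h5]
          split_ifs <;> omega
        have e2 : min y1 y'.1 = y1 := by omega
        simp only
        rw [e1, e2]
        exact hF _ le_rfl (by omega)
    · rw [mem_rect]; omega

/-- A path along a row, to the left. -/
theorem row_left {F : Set (ℤ × ℤ)} {a b c d : ℤ} {y : ℤ × ℤ} (hy : y ∈ Rect a b c d) {j : ℤ}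
    (hj : c ≤ j ∧ j + 1 ≤ d) (hyj : y.2 = j ∨ y.2 = j + 1)
    (hF : ∀ i, a ≤ i → i < y.1 → (i, j) ∈ F) :
    ∃ z, z.1 = a ∧ (z.2 = j ∨ z.2 = j + 1) ∧ PConn F (Rect a b c d) y z := by
  rw [mem_rect] at hy
  obtain ⟨n, hn⟩ := Int.eq_ofNat_of_zero_le (sub_nonneg.2 hy.1)
  induction n generalizing y with
  | zero =>
    refine ⟨y, by push_cast at hn; omega, hyj, PConn.refl ?_⟩
    rw [mem_rect]
    omega
  | succ n ih =>
    obtain ⟨y1, y2⟩ := y
    simp only at hy hyj hF hn
    push_cast at hn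
    set y' : ℤ × ℤ := (y1 - 1, if y2 = j then j + 1 else j) with hy'
    have h1 : y'.2 = j ∨ y'.2 = j + 1 := by
      rw [hy']
      simp only
      split_ifs
      · exact Or.inr rfl
      · exact Or.inl rfl
    have h2 : y'.1 = y1 - 1 := rfl
    obtain ⟨z, hz, hz', h⟩ := ih (y := y') (by omega) h1
      (fun i h3 h4 => hF i h3 (by omega)) (by omega)
    refine ⟨z, hz, hz', PConn.trans (PConn.tail (PConn.refl ?_) ?_ ?_) h⟩
    · rw [mem_rect]; simp only; omega
    · have h5 : y'.2 = if y2 = j then j + 1 else j := rfl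
      refine ⟨Or.inr h2, ?_, ?_⟩
      · rw [h5]
        simp only
        split_ifs <;> omega
      · have e1 : min y2 y'.2 = j := by
          rw [h5]
          split_ifs <;> omega
        have e2 : min y1 y'.1 = y1 - 1 := by omega
        simp only
        rw [e1, e2]
        exact hF _ (by omega) (by omega)
    · rw [mem_rect]; omega

end Vale.Agent.P167.H816
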