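import Vale.Agent.P167.H816.Peel
import Vale.Agent.P167.H259.FKDone

/-!
# P167: open circuits in annuli, every configuration outside and inside, `0 < Q ≤ 1`

`ring_le`: with a probability bounded from below no closed path joins the inner box to the outside of
the outer box. The closed clusters of the top and of the bottom are explored in the upper and in the
lower rectangle, then the explored squares are joined by open paths of the left and of the right
rectangle. `two_sided_of_vr`, `arm_of_vr : VR Q → ArmDec, ArmDecD`.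
-/

set_option autoImplicit false

namespace Vale.Agent.P167.H816

open Finset Vale.Agent.P167.FK Vale.Agent.P167.H262
open Relation (ReflTransGen)
open Vale.Agent.P145.FB (PStep PConn)
open Vale.Agent.P153.Topo (Rect mem_rect)

variable {Q : ℝ} {ω ω' : Cfg} {a a' e' e c c' m d : ℤ}

/-- The squares of the annulus with the outer box `[a, e] × [c, d]` and the inner box
`[a', e'] × [c', m]`. -/
def An (a a' e' e c c' m d : ℤ) (v : ℤ × ℤ) : Prop :=
  (a ≤ v.1 ∧ v.1 < e ∧ c ≤ v.2 ∧ v.2 < d) ∧ ¬ (a' ≤ v.1 ∧ v.1 < e' ∧ c' ≤ v.2 ∧ v.2 < m)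

/-- The explored set of the top. -/
def Kt (a e m d : ℤ) (ω : Cfg) : Set (ℤ × ℤ) := Kc (Rsq a e m d) (Upd d) ω

/-- The explored set of the bottom. -/
def Kb (a e c c' : ℤ) (ω : Cfg) : Set (ℤ × ℤ) := Kc (Rsq a e c c') (Dnd c) ω

theorem Kt_odd {p : ℤ × ℤ} (h : p ∈ Kt a e m d ω) : Odd (p.1 + p.2) :=
  Kc_odd (fun _ hs => hs.1) h

theorem Kb_odd {p : ℤ × ℤ} (h : p ∈ Kb a e c c' ω) : Odd (p.1 + p.2) :=
  Kc_odd (fun _ hs => hs.1) h

/-- The sites joined to the set explored from the top. -/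
def Y1 (a e m d : ℤ) (K : Set (ℤ × ℤ)) : Set (ℤ × ℤ) :=
  Up d ∪ {s | ∃ q ∈ Rsq a e m d, Tch K q ∧ (s = pa q ∨ s = pb q)}

/-- The sites joined to the set explored from the bottom. -/
def Y0 (a e c c' : ℤ) (K : Set (ℤ × ℤ)) : Set (ℤ × ℤ) :=
  Dn c ∪ {s | ∃ q ∈ Rsq a e c c', Tch K q ∧ (s = pa q ∨ s = pb q)}

theorem Y1_le (hmd : m < d) {K : Set (ℤ × ℤ)} {s : ℤ × ℤ} (h : s ∈ Y1 a e m d K) : m ≤ s.2 := by
  rcases h with h | ⟨q, hq, -, h⟩
  · exact hmd.le.trans h.2
  · obtain ⟨h1, h2, -, -⟩ := corner_mem hq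
    rw [mem_rect] at h1 h2
    rcases h with rfl | rfl
    · exact h1.2.2.1
    · exact h2.2.2.1

theorem Y0_le (hcc : c < c') {K : Set (ℤ × ℤ)} {s : ℤ × ℤ} (h : s ∈ Y0 a e c c' K) :
    s.2 ≤ c' := by
  rcases h with h | ⟨q, hq, -, h⟩
  · exact h.2.trans hcc.le
  · obtain ⟨h1, h2, -, -⟩ := corner_mem hq
    rw [mem_rect] at h1 h2
    rcases h with rfl | rfl
    · exact h1.2.2.2
    · exact h2.2.2.2

/-- The open path from the bottom to the top. -/
theorem ring_path (hae : a < e) (hcc : c < c') (hcm : c' < m) (hmd : m < d) {l r : ℤ}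
    (hal : a ≤ l) (hre : r ≤ e) {T : Finset (ℤ × ℤ)} {F : Set (ℤ × ℤ)}
    (hF : ∀ q, Tch (Kt a e m d ω) q ∨ Tch (Kb a e c c' ω) q → q ∈ F)
    (hF' : ∀ q ∈ Rsq l r c d, ω q = true → q ∈ F)
    (hγ : ω ∈ CI (Rsq l r c d \ T) (Y0 a e c c' (Kb a e c c' ω)) (Y1 a e m d (Kt a e m d ω))) :
    ∃ u t : ℤ × ℤ, u.2 = c ∧ t.2 = d ∧ Even (u.1 + u.2) ∧ PConn F (Rect a e c d) u t := by
  obtain ⟨u, hu, s, hs, h⟩ := hγ
  have hus : u.2 < s.2 := (Y0_le hcc hu).trans_lt (hcm.trans_le (Y1_le hmd hs))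
  have hne : u ≠ s := by
    rintro rfl
    exact lt_irrefl _ hus
  have h1 : ReflTransGen (PStep (op ω ∩ ↑(Rsq l r c d))) u s := by
    refine ReflTransGen.mono (fun x y h => ⟨h.1, h.2.1, h.2.2.1, ?_⟩) _ _ h
    have := Finset.mem_coe.1 h.2.2.2
    exact Finset.mem_coe.2 (mem_sdiff.1 this).1
  have huR := path_mem h1 hne
  have hsR := path_mem' h1 hne
  have h2 : PConn (F ∩ ↑(Rsq l r c d)) (Rect l r c d) u s := by
    refine (rtg_rect (by rw [mem_rect] at huR; exact huR)).1 ?_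
    refine ReflTransGen.mono (fun x y h => ⟨h.1, h.2.1, ⟨?_, h.2.2.2⟩, h.2.2.2⟩) _ _ h1
    exact hF' _ (Finset.mem_coe.1 h.2.2.2) h.2.2.1
  have hsub : Rect l r c d ⊆ Rect a e c d := by
    intro z hz
    rw [mem_rect] at *
    omega
  have h3 : PConn F (Rect a e c d) u s := h2.mono Set.inter_subset_left hsub
  -- to the top
  have htop : ∃ t, t.2 = d ∧ PConn F (Rect a e c d) s t := by
    rcases hs with hs | ⟨q, hq, hqK, hsq⟩
    · rw [mem_rect] at hsR
      have h4 := hs.2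
      refine ⟨s, by omega, PConn.refl ?_⟩
      rw [mem_rect]
      omega
    · obtain ⟨m1, m2, m3, m4⟩ := corner_mem hq
      have hsR' : s ∈ Rect a e m d := by
        rcases hsq with rfl | rfl
        · exact m1
        · exact m2
      have hn := nb_corner hsq
      have hsub' : Rect a e m d ⊆ Rect a e c d := by
        intro z hz
        rw [mem_rect] at *
        omega
      obtain ⟨t, ht, h4⟩ : ∃ t, t.2 = d ∧ PConn F (Rect a e m d) s t := by
        rcases hqK with hk | hk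
        · exact detour (ω := ω) hae hmd (fun q _ h => hF q (Or.inl h)) hk m3 hn.1 hsR'
        · exact detour (ω := ω) hae hmd (fun q _ h => hF q (Or.inl h)) hk m4 hn.2 hsR'
      exact ⟨t, ht, h4.mono subset_rfl hsub'⟩
  have hbot : ∃ t, t.2 = c ∧ PConn F (Rect a e c d) u t := by
    rcases hu with hu | ⟨q, hq, hqK, huq⟩
    · rw [mem_rect] at huR
      have h4 := hu.2
      refine ⟨u, by omega, PConn.refl ?_⟩
      rw [mem_rect]
      omega
    · obtain ⟨m1, m2, m3, m4⟩ := corner_mem hq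
      have huR' : u ∈ Rect a e c c' := by
        rcases huq with rfl | rfl
        · exact m1
        · exact m2
      have hn := nb_corner huq
      have hsub' : Rect a e c c' ⊆ Rect a e c d := by
        intro z hz
        rw [mem_rect] at *
        omega
      obtain ⟨t, ht, h4⟩ : ∃ t, t.2 = c ∧ PConn F (Rect a e c c') u t := by
        rcases hqK with hk | hk
        · exact detour_b (ω := ω) hae hcc (fun q _ h => hF q (Or.inr h)) hk m3 hn.1 huR'
        · exact detour_b (ω := ω) hae hcc (fun q _ h => hF q (Or.inr h)) hk m4 hn.2 huR'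
      exact ⟨t, ht, h4.mono subset_rfl hsub'⟩
  obtain ⟨t, ht, h4⟩ := htop
  obtain ⟨b, hb, h5⟩ := hbot
  have h6 := h5.symm.trans (h3.trans h4)
  have hue : Even (u.1 + u.2) := by
    rcases hu with hu | ⟨q, -, -, rfl | rfl⟩
    · exact hu.1
    · exact even_pa q
    · exact even_pb q
  refine ⟨b, t, hb, ht, ?_, h6⟩
  have h7 := h5.parity
  rw [Int.even_iff] at *
  omega

/-- **No closed path from the inner box to the outside**, deterministic part. -/
theorem ring_det (haa : a < a') (hae' : a' < e') (hee : e' < e) (hcc : c < c') (hcm : c' < m)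
    (hmd : m < d) (hT : ∀ p ∈ Kt a e m d ω, m < p.2) (hB : ∀ p ∈ Kb a e c c' ω, p.2 < c')
    {T : Finset (ℤ × ℤ)}
    (hL : ω ∈ CI (Rsq a a' c d \ T) (Y0 a e c c' (Kb a e c c' ω)) (Y1 a e m d (Kt a e m d ω)))
    (hR : ω ∈ CI (Rsq e' e c d \ T) (Y0 a e c c' (Kb a e c c' ω)) (Y1 a e m d (Kt a e m d ω)))
    {y y' : ℤ × ℤ} (hyo : Odd (y.1 + y.2)) (hy : a' ≤ y.1 ∧ y.1 ≤ e' ∧ c' ≤ y.2 ∧ y.2 ≤ m)
    (hyy : ReflTransGen (PStep ((op ω)ᶜ ∩ ↑(Rsq a e c d))) y y')
    (hy' : y'.1 ≤ a ∨ e ≤ y'.1 ∨ y'.2 ≤ c ∨ d ≤ y'.2) : False := by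
  -- squares which touch the explored sets
  have htm : ∀ q, Tch (Kt a e m d ω) q → m ≤ q.2 := by
    intro q hq
    have h1 : (da q).2 ≤ q.2 + 1 ∧ (db q).2 ≤ q.2 + 1 := by
      unfold da db
      split_ifs <;> constructor <;> (try simp only) <;> omega
    rcases hq with hq | hq
    · have := hT _ hq; omega
    · have := hT _ hq; omega
  have hbm : ∀ q, Tch (Kb a e c c' ω) q → q.2 < c' := by
    intro q hq
    have h1 : q.2 ≤ (da q).2 ∧ q.2 ≤ (db q).2 := by
      unfold da db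
      split_ifs <;> constructor <;> (try simp only) <;> omega
    rcases hq with hq | hq
    · have := hB _ hq; omega
    · have := hB _ hq; omega
  have hyR : y ∈ Rect a e c d := by
    rw [mem_rect]
    omega
  -- the closed path avoids the explored sets
  have key : ∀ x, ReflTransGen (PStep ((op ω)ᶜ ∩ ↑(Rsq a e c d))) y x →
      x ∉ Kt a e m d ω ∧ x ∉ Kb a e c c' ω ∧ Odd (x.1 + x.2) ∧ x ∈ Rect a e c d ∧
      ∀ F : Set (ℤ × ℤ), (∀ q, ω q = false → ¬ Tch (Kt a e m d ω) q →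
        ¬ Tch (Kb a e c c' ω) q → q ∉ F) → PConn Fᶜ (Rect a e c d) y x := by
    intro x hx
    induction hx with
    | refl =>
      refine ⟨fun h => ?_, fun h => ?_, hyo, hyR, fun F _ => PConn.refl hyR⟩
      · have := hT _ h; omega
      · have := hB _ h; omega
    | @tail x z hyx hxz ih =>
      obtain ⟨ih1, ih2, ih3, ih4, ih5⟩ := ih
      have hsq : sqr x z ∈ Rsq a e c d := Finset.mem_coe.1 hxz.2.2.2
      have hsqc : ¬ ω (sqr x z) = true := hxz.2.2.1
      have hx1 := hxz.1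
      have hx2 := hxz.2.1
      have hsq' := hsq
      rw [mem_Rsq] at hsq'
      have e1 : (min z.1 x.1, min z.2 x.2) = sqr x z := by
        rw [sqr, min_comm, min_comm z.2]
      have hz1 : z ∉ Kt a e m d ω := by
        intro hzK
        have h1 := htm _ (tch_step hxz ih3 (Or.inr hzK))
        refine ih1 (Kc_step hzK ⟨by omega, by omega, ?_, ?_⟩)
        · rw [e1]
          exact hsqc
        · rw [e1]
          refine Finset.mem_coe.2 ?_
          rw [mem_Rsq]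
          omega
      have hz2 : z ∉ Kb a e c c' ω := by
        intro hzK
        have h1 := hbm _ (tch_step hxz ih3 (Or.inr hzK))
        refine ih2 (Kc_step hzK ⟨by omega, by omega, ?_, ?_⟩)
        · rw [e1]
          exact hsqc
        · rw [e1]
          refine Finset.mem_coe.2 ?_
          rw [mem_Rsq]
          omega
      have hnt : ∀ K : Set (ℤ × ℤ), x ∉ K → z ∉ K → ¬ Tch K (sqr x z) := by
        rintro K hx hz (h | h)
        · rcases step_odd hxz ih3 with ⟨h1, -⟩ | ⟨-, h2⟩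
          · rw [← h1] at h; exact hx h
          · rw [← h2] at h; exact hz h
        · rcases step_odd hxz ih3 with ⟨-, h2⟩ | ⟨h1, -⟩
          · rw [← h2] at h; exact hz h
          · rw [← h1] at h; exact hx h
      have hzR : z ∈ Rect a e c d := by
        have e2 : (sqr x z).1 = min x.1 z.1 := rfl
        have e3 : (sqr x z).2 = min x.2 z.2 := rfl
        rw [mem_rect]
        omega
      refine ⟨hz1, hz2, odd_step hxz ih3, hzR, fun F hF => ?_⟩
      refine (ih5 F hF).tail ⟨hx1, hx2, ?_⟩ hzR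
      exact hF (sqr x z) (by simpa using hsqc) (hnt _ ih1 hz1) (hnt _ ih2 hz2)
  obtain ⟨k1, k2, k3, k4, k5⟩ := key y' hyy
  have k4' := k4
  rw [mem_rect] at k4'
  -- a row through the inner box
  have hj : ∃ j, c' ≤ j ∧ j < m ∧ (y.2 = j ∨ y.2 = j + 1) := by
    by_cases h : y.2 < m
    · exact ⟨y.2, hy.2.2.1, h, Or.inl rfl⟩
    · exact ⟨y.2 - 1, by omega, by omega, Or.inr (by ring)⟩
  obtain ⟨j, hj1, hj2, hj3⟩ := hj
  have hnt : ∀ i, ¬ (Tch (Kt a e m d ω) (i, j) ∨ Tch (Kb a e c c' ω) (i, j)) := by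
    rintro i (h | h)
    · have := htm _ h
      simp only at this
      omega
    · have := hbm _ h
      simp only at this
      omega
  have hop : ∀ (l r : ℤ) (q : ℤ × ℤ), ω q = false → ¬ Tch (Kt a e m d ω) q →
      ¬ Tch (Kb a e c c' ω) q →
      q ∉ ({q | (Tch (Kt a e m d ω) q ∨ Tch (Kb a e c c' ω) q) ∨
        (q ∈ Rsq l r c d ∧ ω q = true)} : Set (ℤ × ℤ)) := by
    rintro l r q h1 h2 h3 (h4 | ⟨-, h4⟩)
    · rcases h4 with h4 | h4
      · exact h2 h4
      · exact h3 h4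
    · rw [h1] at h4
      exact Bool.false_ne_true h4
  rcases hy' with h | h | h | h
  · -- the left side
    set F : Set (ℤ × ℤ) := {q | (Tch (Kt a e m d ω) q ∨ Tch (Kb a e c c' ω) q) ∨
      (q ∈ Rsq a a' c d ∧ ω q = true)} with hF
    obtain ⟨u, t, hu, ht, hue, hp⟩ := ring_path (a := a) (e := e) (c := c) (c' := c') (m := m)
      (d := d) (ω := ω) (F := F) (by omega) hcc hcm hmd (l := a) (r := a') le_rfl (by omega)
      (fun q h => Or.inl h) (fun q h1 h2 => Or.inr ⟨h1, h2⟩) hL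
    obtain ⟨z, hz, -, hz'⟩ := row_right (F := Fᶜ) hyR (j := j) ⟨by omega, by omega⟩ hj3
      (fun i h1 h2 => by
        rintro (h3 | ⟨h3, -⟩)
        · exact hnt i h3
        · rw [mem_Rsq] at h3
          simp only at h3
          omega)
    rw [Int.even_iff] at hue
    rw [Int.odd_iff] at k3
    exact easy_v hp hu ht hue ((k5 F (hop a a')).symm.trans hz') k3 (Or.inl (by omega))
      (Or.inl hz)
  · -- the right side
    set F : Set (ℤ × ℤ) := {q | (Tch (Kt a e m d ω) q ∨ Tch (Kb a e c c' ω) q) ∨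
      (q ∈ Rsq e' e c d ∧ ω q = true)} with hF
    obtain ⟨u, t, hu, ht, hue, hp⟩ := ring_path (a := a) (e := e) (c := c) (c' := c') (m := m)
      (d := d) (ω := ω) (F := F) (by omega) hcc hcm hmd (l := e') (r := e) (by omega) le_rfl
      (fun q h => Or.inl h) (fun q h1 h2 => Or.inr ⟨h1, h2⟩) hR
    obtain ⟨z, hz, -, hz'⟩ := row_left (F := Fᶜ) hyR (j := j) ⟨by omega, by omega⟩ hj3
      (fun i h1 h2 => by
        rintro (h3 | ⟨h3, -⟩)
        · exact hnt i h3
        · rw [mem_Rsq] at h3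
          simp only at h3
          omega)
    have hzo := hz'.parity
    rw [Int.even_iff] at hue
    rw [Int.odd_iff] at hyo
    exact easy_v hp hu ht hue (hz'.symm.trans (k5 F (hop e' e))) (by omega) (Or.inl hz)
      (Or.inl (by omega))
  · exact k2 ⟨y', ⟨k3, h⟩, ReflTransGen.refl⟩
  · exact k1 ⟨y', ⟨k3, h⟩, ReflTransGen.refl⟩

/-! ### Probabilities -/

/-- The event that the set explored from the top stays above `m`. -/
def Et (a e m d : ℤ) : Set Cfg := {ω | ∀ p ∈ Kt a e m d ω, m < p.2}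

/-- The event that the set explored from the bottom stays below `c'`. -/
def Eb (a e c c' : ℤ) : Set Cfg := {ω | ∀ p ∈ Kb a e c c' ω, p.2 < c'}

theorem cross_top (hae : a < e) (hmd : m < d) : CI (Rsq a e m d) (Lf a) (Rg e) ⊆ Et a e m d := by
  rintro ω ⟨u, hu, v, hv, h⟩ p ⟨s, hs, hp⟩
  by_contra hpm
  have hsm : d ≤ s.2 := hs.2
  have hsp : s ≠ p := by
    rintro rfl
    omega
  have huv : u ≠ v := by
    rintro rfl
    have h1 := hu.2
    have h2 := hv.2
    omega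
  have huR := path_mem h huv
  have hvR := path_mem' h huv
  have hsR := path_mem hp hsp
  have hpR := path_mem' hp hsp
  rw [mem_rect] at huR hvR hsR hpR
  have h1 : PConn (op ω) (Rect a e m d) u v := (rtg_rect huR).1 h
  have h2 : PConn (op ω)ᶜ (Rect a e m d) p s := (rtg_rect hpR).1 (rtg_symm' hp)
  have hu1 := hu.1
  have hu2 := hu.2
  have hv2 := hv.2
  have hs1 := hs.1
  have h3 := h2.parity
  rw [Int.even_iff] at hu1
  rw [Int.odd_iff] at hs1
  exact Vale.Agent.P145.FB.easy h1 (by omega) (by omega) hu1 h2 (by omega) (Or.inl (by omega))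
    (Or.inl (by omega))

theorem cross_bot (hae : a < e) (hcc : c < c') :
    CI (Rsq a e c c') (Lf a) (Rg e) ⊆ Eb a e c c' := by
  rintro ω ⟨u, hu, v, hv, h⟩ p ⟨s, hs, hp⟩
  by_contra hpm
  have hsm : s.2 ≤ c := hs.2
  have hsp : s ≠ p := by
    rintro rfl
    omega
  have huv : u ≠ v := by
    rintro rfl
    have h1 := hu.2
    have h2 := hv.2
    omega
  have huR := path_mem h huv
  have hvR := path_mem' h huv
  have hsR := path_mem hp hsp
  have hpR := path_mem' hp hsp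
  rw [mem_rect] at huR hvR hsR hpR
  have h1 : PConn (op ω) (Rect a e c c') u v := (rtg_rect huR).1 h
  have h2 : PConn (op ω)ᶜ (Rect a e c c') s p := (rtg_rect hsR).1 hp
  have hu1 := hu.1
  have hu2 := hu.2
  have hv2 := hv.2
  have hs1 := hs.1
  rw [Int.even_iff] at hu1
  rw [Int.odd_iff] at hs1
  exact Vale.Agent.P145.FB.easy h1 (by omega) (by omega) hu1 h2 (by omega) (Or.inl (by omega))
    (Or.inl (by omega))

/-- Events which depend on disjoint sets of squares. -/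
theorem out_CI {S S' : Finset (ℤ × ℤ)} (h : Disjoint S S') (A B : Set (ℤ × ℤ)) :
    Out S' ((CI S A B).indicator 1 : Cfg → ℝ) := by
  have key : ∀ ω₁ ω₂ : Cfg, (∀ v, v ∉ S' → ω₁ v = ω₂ v) → ω₁ ∈ CI S A B → ω₂ ∈ CI S A B := by
    rintro ω₁ ω₂ h1 ⟨u, hu, v, hv, h'⟩
    refine ⟨u, hu, v, hv, ReflTransGen.mono (fun x y hxy => ⟨hxy.1, hxy.2.1, ?_,
      hxy.2.2.2⟩) _ _ h'⟩
    have h5 : (min x.1 y.1, min x.2 y.2) ∉ S' :=
      Finset.disjoint_left.1 h (Finset.mem_coe.1 hxy.2.2.2)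
    have h6 : ω₁ (min x.1 y.1, min x.2 y.2) = true := hxy.2.2.1
    show ω₂ _ = true
    rw [← h1 _ h5]
    exact h6
  intro ω₁ ω₂ h1
  by_cases h6 : ω₁ ∈ CI S A B
  · rw [Set.indicator_of_mem h6, Set.indicator_of_mem (key ω₁ ω₂ h1 h6)]
    rfl
  · rw [Set.indicator_of_notMem h6, Set.indicator_of_notMem fun h7 =>
      h6 (key ω₂ ω₁ (fun v hv => (h1 v hv).symm) h7)]

/-- Two crossings of disjoint regions. -/
theorem two_CI (hQ : 0 < Q) {D S S' : Finset (ℤ × ℤ)} {η : Cfg} (hη : Good η) (hS' : S' ⊆ D)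
    (hd : Disjoint S S') {A B A' B' : Set (ℤ × ℤ)} {κ : ℝ} (hκ : 0 ≤ κ)
    (h1 : κ ≤ Pr Q D η (CI S A B)) (h2 : ∀ ω : Cfg, Good ω → κ ≤ Pr Q S' ω (CI S' A' B')) :
    κ * κ ≤ Pr Q D η (CI S A B ∩ CI S' A' B') := by
  have h5 := cond_ge (Q := Q) hQ hη hS' (A := CI S' A' B')
    (fun T _ => h2 _ (good_cf D hη T)) (out_CI hd A B)
    (fun S' _ => FKA.ind_nonneg (CI S A B) _)
  calc κ * κ ≤ κ * Pr Q D η (CI S A B) := mul_le_mul_of_nonneg_left h1 hκ
    _ ≤ _ := h5
    _ = _ := by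
      rw [Pr]
      exact FKA.Ex_congr fun S' _ => (FKA.ind_inter (CI S A B) _ _).symm

/-- The event that no closed path of the outer box joins the inner box to the outside. -/
def NoC (a a' e' e c c' m d : ℤ) : Set Cfg :=
  {ω | ∀ y y' : ℤ × ℤ, Odd (y.1 + y.2) → (a' ≤ y.1 ∧ y.1 ≤ e' ∧ c' ≤ y.2 ∧ y.2 ≤ m) →
      ReflTransGen (PStep ((op ω)ᶜ ∩ ↑(Rsq a e c d))) y y' →
      ¬ (y'.1 ≤ a ∨ e ≤ y'.1 ∨ y'.2 ≤ c ∨ d ≤ y'.2)}

/-- **Open circuits**: for every configuration outside of the annulus. -/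
theorem ring_le (hQ : 0 < Q) (hQ1 : Q ≤ 1) (haa : a < a') (hae' : a' < e') (hee : e' < e)
    (hcc : c < c') (hcm : c' < m) (hmd : m < d) {D : Finset (ℤ × ℤ)}
    (hD : ∀ v, v ∈ D ↔ An a a' e' e c c' m d v) {η : Cfg} (hη : Good η)
    {κ : ℝ} (hκ : 0 ≤ κ) (h1 : κ ≤ cH Q a e m d) (h2 : κ ≤ cH Q a e c c')
    (h3 : κ ≤ cV Q a a' c d) (h4 : κ ≤ cV Q e' e c d) :
    κ * κ * (κ * κ) ≤ Pr Q D η (NoC a a' e' e c c' m d) := by
  classical
  have hA : ∀ s ∈ Upd d, Odd (s.1 + s.2) := fun s hs => hs.1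
  have hA' : ∀ s ∈ Dnd c, Odd (s.1 + s.2) := fun s hs => hs.1
  set T : Cfg → Finset (ℤ × ℤ) :=
    fun ω => Tq (Rsq a e m d) (Upd d) ω ∪ Tq (Rsq a e c c') (Dnd c) ω with hT
  have hDt : Rsq a e m d ⊆ D := by
    intro v hv
    rw [mem_Rsq] at hv
    rw [hD]
    exact ⟨by omega, by omega⟩
  have hDb : Rsq a e c c' ⊆ D := by
    intro v hv
    rw [mem_Rsq] at hv
    rw [hD]
    exact ⟨by omega, by omega⟩
  have hLD : Rsq a a' c d ⊆ D := by
    intro v hv
    rw [mem_Rsq] at hv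
    rw [hD]
    exact ⟨by omega, by omega⟩
  have hRD : Rsq e' e c d ⊆ D := by
    intro v hv
    rw [mem_Rsq] at hv
    rw [hD]
    exact ⟨by omega, by omega⟩
  have hs1 : ∀ ω ω' : Cfg, (∀ v, v ∉ D \ T ω → ω v = ω' v) →
      ∀ v ∈ Tq (Rsq a e m d) (Upd d) ω, ω v = ω' v := fun ω ω' h v hv => h v fun h' =>
    (mem_sdiff.1 h').2 (mem_union_left _ hv)
  have hs2 : ∀ ω ω' : Cfg, (∀ v, v ∉ D \ T ω → ω v = ω' v) →
      ∀ v ∈ Tq (Rsq a e c c') (Dnd c) ω, ω v = ω' v := fun ω ω' h v hv => h v fun h' =>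
    (mem_sdiff.1 h').2 (mem_union_right _ hv)
  have hstop := stop_le (Q := Q) (D := D) (η := η) hQ hη (E := fun ω => D \ T ω)
    (A := Et a e m d ∩ Eb a e c c') (F := NoC a a' e' e c c' m d) (c := κ * κ)
    (fun ω => sdiff_subset)
    (fun ω ω' h => by
      have e1 := Tq_self hA (hs1 ω ω' h)
      have e2 := Tq_self hA' (hs2 ω ω' h)
      simp only [hT]
      rw [e1, e2])
    (fun ω ω' h => by
      have e1 := Kc_self hA (hs1 ω ω' h)
      have e2 := Kc_self hA' (hs2 ω ω' h)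
      show ((∀ p ∈ Kc _ _ ω, m < p.2) ∧ (∀ p ∈ Kc _ _ ω, p.2 < c')) ↔
        ((∀ p ∈ Kc _ _ ω', m < p.2) ∧ (∀ p ∈ Kc _ _ ω', p.2 < c'))
      rw [e1, e2])
    (fun S hS hGt => ?_)
  · have h5 : κ * κ ≤ Pr Q D η (Et a e m d ∩ Eb a e c c') := by
      refine (two_CI hQ hη hDb (S := Rsq a e m d) ?_ hκ (A := Lf a) (B := Rg e) (A' := Lf a)
        (B' := Rg e) (h1.trans (worst_rect hQ hQ1 hη hDt Lf_sub (Rg e)))
        (fun ω hω => h2.trans (worst_rect hQ hQ1 hω subset_rfl Lf_sub (Rg e)))).trans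
        (FKA.Pr_mono hQ (Set.inter_subset_inter (cross_top (by omega) hmd)
          (cross_bot (by omega) hcc)))
      rw [Finset.disjoint_left]
      intro v hv hv'
      rw [mem_Rsq] at hv hv'
      omega
    calc κ * κ * (κ * κ) ≤ κ * κ * Pr Q D η (Et a e m d ∩ Eb a e c c') :=
          mul_le_mul_of_nonneg_left h5 (mul_nonneg hκ hκ)
      _ ≤ _ := hstop
      _ ≤ _ := FKA.Pr_mono hQ Set.inter_subset_right
  · -- conditionally on the explored part
    set ω := cf D η S with hω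
    set K1 := Kt a e m d ω with hK1
    set K0 := Kb a e c c' ω with hK0
    set T₀ := T ω with hT₀
    have hgood : Good ω := good_cf D hη S
    have hcor : ∀ q ∈ T₀, (pa q ∈ Y0 a e c c' K0 ∧ pb q ∈ Y0 a e c c' K0) ∨
        (pa q ∈ Y1 a e m d K1 ∧ pb q ∈ Y1 a e m d K1) := by
      intro q hq
      rcases mem_union.1 hq with hq | hq
      · right
        exact ⟨Or.inr ⟨q, (mem_Tq.1 hq).1, (mem_Tq.1 hq).2, Or.inl rfl⟩,
          Or.inr ⟨q, (mem_Tq.1 hq).1, (mem_Tq.1 hq).2, Or.inr rfl⟩⟩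
      · left
        exact ⟨Or.inr ⟨q, (mem_Tq.1 hq).1, (mem_Tq.1 hq).2, Or.inl rfl⟩,
          Or.inr ⟨q, (mem_Tq.1 hq).1, (mem_Tq.1 hq).2, Or.inr rfl⟩⟩
    set E := D \ T₀ with hE
    have hsubL : Rsq a a' c d \ T₀ ⊆ E := sdiff_subset_sdiff hLD le_rfl
    have hsubR : Rsq e' e c d \ T₀ ⊆ E := sdiff_subset_sdiff hRD le_rfl
    have h6 : κ * κ ≤ Pr Q E ω (CI (Rsq a a' c d \ T₀) (Y0 a e c c' K0) (Y1 a e m d K1) ∩
        CI (Rsq e' e c d \ T₀) (Y0 a e c c' K0) (Y1 a e m d K1)) := by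
      refine two_CI hQ hgood hsubR ?_ hκ
        (h3.trans (rough_rect hQ hQ1 hgood Dn_sub Up_sub Set.subset_union_left
          Set.subset_union_left (fun q hq _ => hcor q hq) hsubL))
        (fun ω₂ hω₂ => h4.trans (rough_rect hQ hQ1 hω₂ Dn_sub Up_sub Set.subset_union_left
          Set.subset_union_left (fun q hq _ => hcor q hq) subset_rfl))
      rw [Finset.disjoint_left]
      intro v hv hv'
      rw [mem_sdiff, mem_Rsq] at hv hv'
      omega
    refine h6.trans ?_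
    -- deterministic part
    rw [Pr, Pr]
    refine FKA.Ex_mono hQ fun S' hS' => ?_
    set ω₁ := cf E ω S' with hω₁
    rw [Set.indicator_apply, Set.indicator_apply]
    by_cases h7 : ω₁ ∈ CI (Rsq a a' c d \ T₀) (Y0 a e c c' K0) (Y1 a e m d K1) ∩
        CI (Rsq e' e c d \ T₀) (Y0 a e c c' K0) (Y1 a e m d K1)
    · rw [if_pos h7, if_pos]
      have h8 : ∀ v, v ∉ D \ T ω → ω v = ω₁ v := by
        intro v hv
        rw [hω₁, FKA.cf_out hv]
      have e1 : Kt a e m d ω₁ = K1 := Kc_self hA (hs1 ω ω₁ h8)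
      have e2 : Kb a e c c' ω₁ = K0 := Kc_self hA' (hs2 ω ω₁ h8)
      intro y y' hyo hy hyy hy'
      refine ring_det (ω := ω₁) haa hae' hee hcc hcm hmd (T := T₀) ?_ ?_ ?_ ?_ hyo hy hyy hy'
      · rw [e1]; exact hGt.1
      · rw [e2]; exact hGt.2
      · rw [e1, e2]; exact h7.1
      · rw [e1, e2]; exact h7.2
    · rw [if_neg h7]
      split_ifs
      · exact zero_le_one
      · exact le_rfl

/-! ### Decay of the arms -/

/-- Two-sided RSW for closed arms. -/
theorem two_sided_dual (hQ : 0 < Q) (hQ1 : Q ≤ 1) (hV : VR Q) : ∃ c : ℝ, 0 < c ∧ c < 1 ∧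
    ∀ (x : ℤ × ℤ) (r : ℤ) (η : Cfg), 1 ≤ r → Good η →
      Pr Q (Bq x (2 * r) \ Bq x r) η {ω | ArmDx x r (2 * r) ω} ≤ 1 - c := by
  obtain ⟨κ, hκ, hκ1, hH, hV'⟩ := hV.ge hQ hQ1 4
  have hc1 : κ * κ * (κ * κ) / 2 < 1 := by
    have h1 : κ * κ ≤ 1 := mul_le_one₀ hκ1 hκ.le hκ1
    have h2 : κ * κ * (κ * κ) ≤ 1 := mul_le_one₀ h1 (by positivity) h1
    linarith
  refine ⟨κ * κ * (κ * κ) / 2, by positivity, hc1, fun x r η hr hη => ?_⟩
  have h := ring_le (Q := Q) (a := x.1 - 2 * r) (a' := x.1 - r) (e' := x.1 + r)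
    (e := x.1 + 2 * r) (c := x.2 - 2 * r) (c' := x.2 - r) (m := x.2 + r) (d := x.2 + 2 * r) hQ hQ1
    (by omega) (by omega) (by omega) (by omega) (by omega) (by omega)
    (D := Bq x (2 * r) \ Bq x r) (fun v => by
      simp only [Bq, mem_sdiff, mem_product, mem_Ico, An]
      tauto) hη hκ.le (hH _ _ _ _ (by omega) (by push_cast; omega)).1
    (hH _ _ _ _ (by omega) (by push_cast; omega)).1
    (hV' _ _ _ _ (by omega) (by push_cast; omega)).1
    (hV' _ _ _ _ (by omega) (by push_cast; omega)).1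
  have h1 : {ω | ArmDx x r (2 * r) ω} ⊆ (NoC (x.1 - 2 * r) (x.1 - r) (x.1 + r) (x.1 + 2 * r)
      (x.2 - 2 * r) (x.2 - r) (x.2 + r) (x.2 + 2 * r))ᶜ := by
    rintro ω ⟨u, v, huo, hu, hv, huv⟩ hω
    rw [FKA.nm_le_iff] at hu
    rw [FKA.le_nm_iff] at hv
    simp only [Prod.fst_sub, Prod.snd_sub] at hu hv
    refine hω u v huo ⟨by omega, by omega, by omega, by omega⟩ ?_ (by omega)
    obtain ⟨h0, h2⟩ := huv
    have key : v ∈ {w | nm (w - x) ≤ 2 * r} ∧
        ReflTransGen (PStep ((op ω)ᶜ ∩ ↑(Bq x (2 * r)))) u v := by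
      clear hv
      induction h2 with
      | refl => exact ⟨h0, ReflTransGen.refl⟩
      | @tail y z _ hyz ih =>
        refine ⟨hyz.2, ih.2.tail ⟨hyz.1.1, hyz.1.2.1, hyz.1.2.2, Finset.mem_coe.2 ?_⟩⟩
        exact FKA.step_mem hyz.1 ih.1 hyz.2
    exact key.2
  have h2 := FKA.Pr_mono (Q := Q) (D := Bq x (2 * r) \ Bq x r) (η := η) hQ h1
  rw [FKA.Pr_compl hQ] at h2
  have : 0 ≤ κ * κ * (κ * κ) := by positivity
  linarith

end Vale.Agent.P167.H816
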