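import Vale.Agent.P167.H816.Peel
import Vale.Agent.P167.H192.Q.SDefs

/-!
# P167: the strong Russo-Seymour-Welsh property at a flat side, `0 < Q ≤ 1`

`srsw_of_vr : VR Q → SRSW Q`: with everything outside closed, an open path joins the two rays of the
half annulus. The closed cluster of the top side is explored in the upper rectangle; then an open path
of the left rectangle joins the left ray to the explored squares, and an open path of the right
rectangle joins them to the right ray.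
-/

set_option autoImplicit false

namespace Vale.Agent.P167.H816

open Finset Vale.Agent.P167.FK Vale.Agent.P167.H262
open Relation (ReflTransGen)
open Vale.Agent.P145.FB (PStep PConn)
open Vale.Agent.P153.Topo (Rect mem_rect)
open Vale.Agent.P167.H192.TA (dq sr dF mem_dF Xc)

variable {Q : ℝ} {ω ω' : Cfg} {a a' e' e c m d : ℤ}

/-- The half annulus with sides `a ≤ a' ≤ e' ≤ e`, `c ≤ m ≤ d`. -/
def HA (a a' e' e c m d : ℤ) (v : ℤ × ℤ) : Prop :=
  a ≤ v.1 ∧ v.1 < e ∧ c ≤ v.2 ∧ v.2 < d ∧ (v.1 < a' ∨ e' ≤ v.1 ∨ m ≤ v.2)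

/-- The sites joined to the explored set or to the top. -/
def Yt (a e m d : ℤ) (K : Set (ℤ × ℤ)) : Set (ℤ × ℤ) :=
  Up d ∪ {s | ∃ q ∈ Rsq a e m d, Tch K q ∧ (s = pa q ∨ s = pb q)}

theorem Yt_even {K : Set (ℤ × ℤ)} {s : ℤ × ℤ} (h : s ∈ Yt a e m d K) : Even (s.1 + s.2) := by
  rcases h with h | ⟨q, -, -, rfl | rfl⟩
  · exact h.1
  · exact even_pa q
  · exact even_pb q

/-- **The crossing, deterministic part**: the sites of the explored set `K` lie above `m`; an open path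
of the rectangle `[l, r] × [c, d]`, off the squares which touch `K`, joins the bottom to the explored set
or to the top. Then an open path joins the bottom to the top of the large rectangle, the squares which
touch `K` being opened. -/
theorem open_path (hae : a < e) (hcm : c < m) (hmd : m < d) {l r : ℤ} (hal : a ≤ l) (hre : r ≤ e)
    {T : Finset (ℤ × ℤ)}
    (hγ : ω ∈ CI (Rsq l r c d \ T) (Dn c) (Yt a e m d (Kc (Rsq a e m d) (Upd d) ω))) :
    ∃ u t : ℤ × ℤ, u.2 = c ∧ t.2 = d ∧ Even (u.1 + u.2) ∧ l ≤ u.1 ∧ u.1 ≤ r ∧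
      PConn {q | ω q = true ∨ Tch (Kc (Rsq a e m d) (Upd d) ω) q} (Rect a e c d) u t := by
  set K := Kc (Rsq a e m d) (Upd d) ω with hK
  set F : Set (ℤ × ℤ) := {q | ω q = true ∨ Tch K q} with hF
  obtain ⟨u, hu, s, hs, h⟩ := hγ
  have hms : m ≤ s.2 := by
    rcases hs with hs | ⟨q, hq, -, hs⟩
    · exact hmd.le.trans hs.2
    · obtain ⟨h1, h2, -, -⟩ := corner_mem hq
      rw [mem_rect] at h1 h2
      rcases hs with rfl | rfl
      · exact h1.2.2.1
      · exact h2.2.2.1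
  have hR : ∀ {x y : ℤ × ℤ}, ReflTransGen (PStep (op ω ∩ ↑(Rsq l r c d \ T))) x y →
      ReflTransGen (PStep (op ω ∩ ↑(Rsq l r c d))) x y := by
    intro x y h
    refine ReflTransGen.mono (fun x y h => ⟨h.1, h.2.1, h.2.2.1, ?_⟩) _ _ h
    have := Finset.mem_coe.1 h.2.2.2
    exact Finset.mem_coe.2 (mem_sdiff.1 this).1
  have h1 := hR h
  have huc : u.2 ≤ c := hu.2
  have hne : u ≠ s := by
    rintro rfl
    omega
  have huR := path_mem h1 hne
  rw [mem_rect] at huR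
  have hsR : s ∈ Rect l r c d := by
    have h2 : ReflTransGen (PStep (op ω ∩ ↑(Rsq l r c d))) s u := by
      clear hne huR h hR hms hs huc hu
      induction h1 with
      | refl => exact ReflTransGen.refl
      | tail _ h ih => exact ReflTransGen.head h.symm ih
    exact path_mem h2 (Ne.symm hne)
  -- the path in the large rectangle
  have h2 : PConn (op ω) (Rect l r c d) u s :=
    (rtg_rect (by show l ≤ u.1 ∧ u.1 ≤ r ∧ c ≤ u.2 ∧ u.2 ≤ d; omega)).1 h1
  have hsub : Rect l r c d ⊆ Rect a e c d := by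
    intro z hz
    rw [mem_rect] at *
    omega
  have hop : op ω ⊆ F := fun q hq => Or.inl hq
  have h3 : PConn F (Rect a e c d) u s := h2.mono hop hsub
  rcases hs with hs | ⟨q, hq, hqK, hsq⟩
  · refine ⟨u, s, by omega, ?_, hu.1, huR.1, huR.2.1, h3⟩
    rw [mem_rect] at hsR
    have := hs.2
    omega
  · -- the detour
    obtain ⟨m1, m2, m3, m4⟩ := corner_mem hq
    have hsR' : s ∈ Rect a e m d := by
      rcases hsq with rfl | rfl
      · exact m1
      · exact m2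
    have hn := nb_corner hsq
    have hsub' : Rect a e m d ⊆ Rect a e c d := by
      intro z hz
      rw [mem_rect] at *
      omega
    obtain ⟨t, ht, h4⟩ : ∃ t, t.2 = d ∧ PConn F (Rect a e m d) s t := by
      rcases hqK with hk | hk
      · exact detour (ω := ω) hae hmd (fun q _ h => Or.inr h) hk m3 hn.1 hsR'
      · exact detour (ω := ω) hae hmd (fun q _ h => Or.inr h) hk m4 hn.2 hsR'
    exact ⟨u, t, by omega, ht, hu.1, huR.1, huR.2.1, h3.trans (h4.mono subset_rfl hsub')⟩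

/-- **No closed crossing of the half annulus.** -/
theorem no_closed (haa : a ≤ a') (hae' : a' < e') (hee : e' ≤ e) (hcm : c < m) (hmd : m < d)
    {D : Finset (ℤ × ℤ)} (hD : ∀ v, v ∈ D ↔ HA a a' e' e c m d v)
    (hcl : ∀ v, v ∉ D → ω v = false)
    (hK : ∀ p ∈ Kc (Rsq a e m d) (Upd d) ω, m < p.2) {T : Finset (ℤ × ℤ)}
    (hL : ω ∈ CI (Rsq a a' c d \ T) (Dn c) (Yt a e m d (Kc (Rsq a e m d) (Upd d) ω)))
    (hR : ω ∈ CI (Rsq e' e c d \ T) (Dn c) (Yt a e m d (Kc (Rsq a e m d) (Upd d) ω)))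
    {y y' : ℤ × ℤ} (hyo : Odd (y.1 + y.2)) (hy : a' ≤ y.1 ∧ y.1 ≤ e' ∧ c ≤ y.2 ∧ y.2 ≤ m)
    (hyy : ReflTransGen (PStep ((op ω)ᶜ ∩ ↑D)) y y')
    (hy' : y'.1 ≤ a ∨ e ≤ y'.1 ∨ d ≤ y'.2) : False := by
  set K := Kc (Rsq a e m d) (Upd d) ω with hKdef
  set F : Set (ℤ × ℤ) := {q | ω q = true ∨ Tch K q} with hF
  have hodd : ∀ p ∈ K, Odd (p.1 + p.2) := fun p hp => Kc_odd (fun s hs => hs.1) hp
  -- squares which touch `K` lie above `m`
  have htm : ∀ q, Tch K q → m ≤ q.2 := by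
    intro q hq
    have h1 : (da q).2 ≤ q.2 + 1 ∧ (db q).2 ≤ q.2 + 1 := by
      unfold da db
      split_ifs <;> constructor <;> (try simp only) <;> omega
    rcases hq with hq | hq
    · have := hK _ hq; omega
    · have := hK _ hq; omega
  -- the closed path avoids `K`
  have key : ∀ x, ReflTransGen (PStep ((op ω)ᶜ ∩ ↑D)) y x → x ∉ K ∧
      (x = y ∨ x ∈ Rect a e c d) ∧ (y = x ∨ y ∈ Rect a e c d) ∧ Odd (x.1 + x.2) ∧
      (y ∈ Rect a e c d → PConn Fᶜ (Rect a e c d) y x) := by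
    intro x hx
    induction hx with
    | refl =>
      refine ⟨fun h => ?_, Or.inl rfl, Or.inl rfl, hyo, fun h => PConn.refl h⟩
      have := hK _ h
      omega
    | @tail x z hyx hxz ih =>
      obtain ⟨ih1, ih2, ih3, ih4, ih5⟩ := ih
      have hsq : sqr x z ∈ D := Finset.mem_coe.1 hxz.2.2.2
      have hsqc : ¬ ω (sqr x z) = true := hxz.2.2.1
      have hHA := (hD _).1 hsq
      have hx1 := hxz.1
      have hx2 := hxz.2.1
      have hz' : z ∉ K := by
        intro hzK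
        have h1 : m ≤ (sqr x z).2 := by
          have := htm _ (tch_step hxz ih4 (Or.inr hzK))
          exact this
        refine ih1 (Kc_step hzK ?_)
        refine ⟨by omega, by omega, ?_, ?_⟩
        · have e1 : (min z.1 x.1, min z.2 x.2) = sqr x z := by
            rw [sqr, min_comm, min_comm z.2]
          rw [e1]
          exact hsqc
        · have e1 : (min z.1 x.1, min z.2 x.2) = sqr x z := by
            rw [sqr, min_comm, min_comm z.2]
          rw [e1]
          refine Finset.mem_coe.2 ?_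
          rw [mem_Rsq]
          obtain ⟨h2, h3, -, h5, -⟩ := hHA
          exact ⟨h2, h3, h1, h5⟩
      have hnt : ¬ Tch K (sqr x z) := by
        rintro (h | h)
        · rcases step_odd hxz ih4 with ⟨h1, -⟩ | ⟨-, h2⟩
          · rw [← h1] at h; exact ih1 h
          · rw [← h2] at h; exact hz' h
        · rcases step_odd hxz ih4 with ⟨-, h2⟩ | ⟨h1, -⟩
          · rw [← h2] at h; exact hz' h
          · rw [← h1] at h; exact ih1 h
      have hxzR : x ∈ Rect a e c d ∧ z ∈ Rect a e c d := by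
        obtain ⟨h2, h3, h4, h5, -⟩ := hHA
        have e1 : (sqr x z).1 = min x.1 z.1 := rfl
        have e2 : (sqr x z).2 = min x.2 z.2 := rfl
        rw [mem_rect, mem_rect]
        omega
      have hyR : y ∈ Rect a e c d := by
        rcases ih3 with rfl | h
        · exact hxzR.1
        · exact h
      refine ⟨hz', Or.inr hxzR.2, Or.inr hyR, odd_step hxz ih4, fun _ => ?_⟩
      refine (ih5 hyR).tail ⟨hx1, hx2, ?_⟩ hxzR.2
      rintro (h | h)
      · exact hsqc h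
      · exact hnt h
  have hyR : y ∈ Rect a e c d := by
    rw [mem_rect]
    omega
  obtain ⟨k1, k2, -, k4, k5⟩ := key y' hyy
  have hy'R : y' ∈ Rect a e c d := by
    rcases k2 with rfl | h
    · exact hyR
    · exact h
  rw [mem_rect] at hy'R
  -- it does not reach the top
  have htop : ¬ d ≤ y'.2 := fun h => k1 ⟨y', ⟨k4, h⟩, ReflTransGen.refl⟩
  -- from `y` to the bottom
  have hbot : ∃ z, z.2 = c ∧ a' ≤ z.1 ∧ z.1 ≤ e' ∧ PConn Fᶜ (Rect a e c d) y z := by
    have hi : ∃ i, a' ≤ i ∧ i + 1 ≤ e' ∧ (y.1 = i ∨ y.1 = i + 1) := by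
      by_cases h : y.1 < e'
      · exact ⟨y.1, hy.1, by omega, Or.inl rfl⟩
      · exact ⟨y.1 - 1, by omega, by omega, Or.inr (by ring)⟩
    obtain ⟨i, h1, h2, h3⟩ := hi
    obtain ⟨z, hz1, hz2, hz3⟩ := col_path (F := Fᶜ) hyR (i := i) ⟨by omega, by omega⟩ h3
      (fun j h4 h5 => by
        have h6 : (i, j) ∉ D := by
          rw [hD]
          rintro ⟨-, -, -, -, h7⟩
          simp only at h7
          omega
        rintro (h7 | h7)
        · rw [hcl _ h6] at h7
          exact Bool.false_ne_true h7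
        · have := htm _ h7
          simp only at this
          omega)
    exact ⟨z, hz1, by omega, by omega, hz3⟩
  obtain ⟨z, hz1, hz2, hz3, hz4⟩ := hbot
  have hzo : (z.1 + z.2) % 2 = 1 := by
    have := hz4.parity
    rw [Int.odd_iff] at hyo
    omega
  rcases hy' with h | h | h
  · -- the left side
    obtain ⟨u, t, hu, ht, hue, hu1, hu2, hp⟩ := open_path (a := a) (e := e) (c := c) (m := m)
      (d := d) (by omega) hcm hmd le_rfl (by omega) hL
    rw [Int.even_iff] at hue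
    refine easy_v hp hu ht hue ((k5 hyR).symm.trans hz4) ?_ (Or.inl (by omega)) (Or.inr (Or.inr ?_))
    · rw [Int.odd_iff] at k4; exact k4
    · refine ⟨hz1, ?_⟩
      by_contra h5
      have : u.1 = z.1 := by omega
      omega
  · -- the right side
    obtain ⟨u, t, hu, ht, hue, hu1, hu2, hp⟩ := open_path (a := a) (e := e) (c := c) (m := m)
      (d := d) (by omega) hcm hmd (by omega) le_rfl hR
    rw [Int.even_iff] at hue
    refine easy_v hp hu ht hue (hz4.symm.trans (k5 hyR)) hzo (Or.inr (Or.inr ?_))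
      (Or.inl (by omega))
    refine ⟨hz1, ?_⟩
    by_contra h5
    have : u.1 = z.1 := by omega
    omega
  · exact htop h

/-- The event that the explored set of the top side stays above `m`. -/
def Gt (a e m d : ℤ) : Set Cfg := {ω | ∀ p ∈ Kc (Rsq a e m d) (Upd d) ω, m < p.2}

/-- An open crossing keeps the explored set above `m`. -/
theorem cross_sub (hae : a ≤ e) (hmd : m < d) : CI (Rsq a e m d) (Lf a) (Rg e) ⊆ Gt a e m d := by
  rintro ω ⟨u, hu, v, hv, h⟩ p ⟨s, hs, hp⟩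
  by_contra hpm
  rcases hae.eq_or_lt with rfl | hae
  · -- no squares
    rcases ReflTransGen.cases_head hp with h1 | ⟨w, h1, -⟩
    · have := hs.2
      rw [← h1] at hpm
      omega
    · have h2 := Finset.mem_coe.1 h1.2.2.2
      rw [mem_Rsq] at h2
      omega
  have hsm : d ≤ s.2 := hs.2
  have hsp : s ≠ p := by
    rintro rfl
    omega
  have huv : u ≠ v := by
    rintro rfl
    have h1 := hu.2
    have h2 := hv.2
    omega
  have huR := path_mem h huv
  have h' : ReflTransGen (PStep (op ω ∩ ↑(Rsq a e m d))) v u := by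
    clear huR huv hsp hp hpm hu hv hs hsm
    induction h with
    | refl => exact ReflTransGen.refl
    | tail _ h ih => exact ReflTransGen.head h.symm ih
  have hvR := path_mem h' (Ne.symm huv)
  have hsR := path_mem hp hsp
  have hp' : ReflTransGen (PStep ((op ω)ᶜ ∩ ↑(Rsq a e m d))) p s := by
    clear hsR hvR h' huR huv hsp hpm hu hv hs hsm h
    induction hp with
    | refl => exact ReflTransGen.refl
    | tail _ h ih => exact ReflTransGen.head h.symm ih
  have hpR := path_mem hp' (Ne.symm hsp)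
  rw [mem_rect] at huR hvR hsR hpR
  have h1 : PConn (op ω) (Rect a e m d) u v :=
    (rtg_rect (by show a ≤ u.1 ∧ u.1 ≤ e ∧ m ≤ u.2 ∧ u.2 ≤ d; omega)).1 h
  have h2 : PConn (op ω)ᶜ (Rect a e m d) p s :=
    (rtg_rect (by show a ≤ p.1 ∧ p.1 ≤ e ∧ m ≤ p.2 ∧ p.2 ≤ d; omega)).1 hp'
  have hu1 := hu.1
  have hu2 := hu.2
  have hv2 := hv.2
  have hs1 := hs.1
  have h3 := h2.parity
  rw [Int.even_iff] at hu1
  rw [Int.odd_iff] at hs1
  exact Vale.Agent.P145.FB.easy h1 (by omega) (by omega) hu1 h2 (by omega) (Or.inl (by omega))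
    (Or.inl (by omega))

/-- **The crossing**: every configuration outside which is closed near the half annulus. -/
theorem ha_le (hQ : 0 < Q) (hQ1 : Q ≤ 1) (haa : a ≤ a') (hae' : a' < e') (hee : e' ≤ e)
    (hcm : c < m) (hmd : m < d) {D : Finset (ℤ × ℤ)} (hD : ∀ v, v ∈ D ↔ HA a a' e' e c m d v)
    {κ : ℝ} (hκ : 0 ≤ κ) (h1 : κ ≤ cH Q a e m d) (h2 : κ ≤ cV Q a a' c d)
    (h3 : κ ≤ cV Q e' e c d) :
    κ * κ * κ ≤ Pr Q D eta0 {ω | ∀ y y' : ℤ × ℤ, Odd (y.1 + y.2) →
      (a' ≤ y.1 ∧ y.1 ≤ e' ∧ c ≤ y.2 ∧ y.2 ≤ m) →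
      ReflTransGen (PStep ((op ω)ᶜ ∩ ↑D)) y y' → ¬ (y'.1 ≤ a ∨ e ≤ y'.1 ∨ d ≤ y'.2)} := by
  classical
  set G : Set Cfg := {ω | ∀ y y' : ℤ × ℤ, Odd (y.1 + y.2) →
      (a' ≤ y.1 ∧ y.1 ≤ e' ∧ c ≤ y.2 ∧ y.2 ≤ m) →
      ReflTransGen (PStep ((op ω)ᶜ ∩ ↑D)) y y' → ¬ (y'.1 ≤ a ∨ e ≤ y'.1 ∨ d ≤ y'.2)} with hG
  have hA : ∀ s ∈ Upd d, Odd (s.1 + s.2) := fun s hs => hs.1
  set T : Cfg → Finset (ℤ × ℤ) := Tq (Rsq a e m d) (Upd d) with hT
  have hZD : Rsq a e m d ⊆ D := by
    intro v hv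
    rw [mem_Rsq] at hv
    rw [hD]
    exact ⟨hv.1, hv.2.1, by omega, hv.2.2.2, Or.inr (Or.inr hv.2.2.1)⟩
  have hLD : Rsq a a' c d ⊆ D := by
    intro v hv
    rw [mem_Rsq] at hv
    rw [hD]
    exact ⟨hv.1, by omega, hv.2.2.1, hv.2.2.2, Or.inl hv.2.1⟩
  have hRD : Rsq e' e c d ⊆ D := by
    intro v hv
    rw [mem_Rsq] at hv
    rw [hD]
    exact ⟨by omega, hv.2.1, hv.2.2.1, hv.2.2.2, Or.inr (Or.inl hv.1)⟩
  have hself : ∀ ω ω' : Cfg, (∀ v, v ∉ D \ T ω → ω v = ω' v) →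
      ∀ v ∈ Tq (Rsq a e m d) (Upd d) ω, ω v = ω' v := fun ω ω' h v hv => h v fun h' =>
    (mem_sdiff.1 h').2 hv
  have hstop := stop_le (Q := Q) (D := D) (η := eta0) hQ good_eta0 (E := fun ω => D \ T ω)
    (A := Gt a e m d) (F := G) (c := κ * κ) (fun ω => sdiff_subset)
    (fun ω ω' h => by
      have := Tq_self hA (hself ω ω' h)
      simp only [hT]
      rw [this])
    (fun ω ω' h => by
      have := Kc_self hA (hself ω ω' h)
      show (∀ p ∈ Kc _ _ ω, m < p.2) ↔ ∀ p ∈ Kc _ _ ω', m < p.2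
      rw [this])
    (fun S hS hGt => ?_)
  · have h4 : κ ≤ Pr Q D eta0 (Gt a e m d) :=
      h1.trans ((worst_rect hQ hQ1 good_eta0 hZD Lf_sub (Rg e)).trans
        (FKA.Pr_mono hQ (cross_sub (by omega) hmd)))
    calc κ * κ * κ ≤ κ * κ * Pr Q D eta0 (Gt a e m d) :=
          mul_le_mul_of_nonneg_left h4 (mul_nonneg hκ hκ)
      _ ≤ _ := hstop
      _ ≤ _ := FKA.Pr_mono hQ Set.inter_subset_right
  · -- conditionally on the explored part
    set ω := cf D eta0 S with hω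
    set K := Kc (Rsq a e m d) (Upd d) ω with hK
    set T₀ := T ω with hT₀
    have hgood : Good ω := good_cf D good_eta0 S
    have hTz : T₀ ⊆ Rsq a e m d := Tq_subset
    have hcor : ∀ q ∈ T₀, pa q ∈ Yt a e m d K ∧ pb q ∈ Yt a e m d K := fun q hq =>
      ⟨Or.inr ⟨q, hTz hq, (mem_Tq.1 hq).2, Or.inl rfl⟩,
        Or.inr ⟨q, hTz hq, (mem_Tq.1 hq).2, Or.inr rfl⟩⟩
    set E := D \ T₀ with hE
    set AL : Set Cfg := CI (Rsq a a' c d \ T₀) (Dn c) (Yt a e m d K) with hAL
    set AR : Set Cfg := CI (Rsq e' e c d \ T₀) (Dn c) (Yt a e m d K) with hAR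
    have hsubL : Rsq a a' c d \ T₀ ⊆ E := sdiff_subset_sdiff hLD le_rfl
    have hsubR : Rsq e' e c d \ T₀ ⊆ E := sdiff_subset_sdiff hRD le_rfl
    have pL : κ ≤ Pr Q E ω AL := h2.trans (rough_rect hQ hQ1 hgood Dn_sub Up_sub subset_rfl
      Set.subset_union_left (fun q hq _ => Or.inr (hcor q hq)) hsubL)
    have pR : ∀ S' ⊆ E, κ ≤ Pr Q (Rsq e' e c d \ T₀) (cf E ω S') AR := fun S' _ =>
      h3.trans (rough_rect hQ hQ1 (good_cf E hgood S') Dn_sub Up_sub subset_rfl
        Set.subset_union_left (fun q hq _ => Or.inr (hcor q hq)) subset_rfl)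
    have hdisj : ∀ v, v ∈ Rsq a a' c d \ T₀ → v ∉ Rsq e' e c d \ T₀ := by
      intro v hv hv'
      rw [mem_sdiff, mem_Rsq] at hv hv'
      omega
    have hout : Out (Rsq e' e c d \ T₀) (AL.indicator 1 : Cfg → ℝ) := by
      intro ω₁ ω₂ h
      have key : ∀ ω₁ ω₂ : Cfg, (∀ v, v ∉ Rsq e' e c d \ T₀ → ω₁ v = ω₂ v) →
          ω₁ ∈ AL → ω₂ ∈ AL := by
        rintro ω₁ ω₂ h ⟨u, hu, v, hv, h'⟩
        refine ⟨u, hu, v, hv, ReflTransGen.mono (fun x y hxy => ⟨hxy.1, hxy.2.1, ?_,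
          hxy.2.2.2⟩) _ _ h'⟩
        have h5 := hdisj _ (Finset.mem_coe.1 hxy.2.2.2)
        have h6 : ω₁ (min x.1 y.1, min x.2 y.2) = true := hxy.2.2.1
        show ω₂ _ = true
        rw [← h _ h5]
        exact h6
      by_cases h6 : ω₁ ∈ AL
      · rw [Set.indicator_of_mem h6, Set.indicator_of_mem (key ω₁ ω₂ h h6)]
        rfl
      · rw [Set.indicator_of_notMem h6, Set.indicator_of_notMem fun h7 =>
          h6 (key ω₂ ω₁ (fun v hv => (h v hv).symm) h7)]
    have h5 := cond_ge (Q := Q) hQ hgood hsubR (A := AR) pR hout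
      (fun S' _ => FKA.ind_nonneg AL _)
    have h6 : κ * κ ≤ Pr Q E ω (AL ∩ AR) := by
      calc κ * κ ≤ κ * Pr Q E ω AL := mul_le_mul_of_nonneg_left pL hκ
        _ ≤ _ := h5
        _ = _ := by
          rw [Pr]
          exact FKA.Ex_congr fun S' _ => (FKA.ind_inter AL AR _).symm
    refine h6.trans ?_
    -- deterministic part
    rw [Pr, Pr]
    refine FKA.Ex_mono hQ fun S' hS' => ?_
    set ω₁ := cf E ω S' with hω₁
    rw [Set.indicator_apply, Set.indicator_apply]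
    by_cases h7 : ω₁ ∈ AL ∩ AR
    · rw [if_pos h7, if_pos]
      have h8 : ∀ v ∈ Tq (Rsq a e m d) (Upd d) ω, ω v = ω₁ v := by
        intro v hv
        rw [hω₁, FKA.cf_out]
        exact fun h => (mem_sdiff.1 h).2 hv
      have h9 : Kc (Rsq a e m d) (Upd d) ω₁ = K := Kc_self hA h8
      have hcl : ∀ v, v ∉ D → ω₁ v = false := by
        intro v hv
        rw [hω₁, FKA.cf_out fun h => hv (mem_sdiff.1 h).1, hω, FKA.cf_out hv]
        rfl
      have hK₁ : ∀ p ∈ Kc (Rsq a e m d) (Upd d) ω₁, m < p.2 := by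
        rw [h9]
        exact hGt
      intro y y' hyo hy hyy hy'
      refine no_closed haa hae' hee hcm hmd hD hcl hK₁ (T := T₀) ?_ ?_ hyo hy hyy hy'
      · rw [h9]; exact h7.1
      · rw [h9]; exact h7.2
    · rw [if_neg h7]
      split_ifs
      · exact zero_le_one
      · exact le_rfl

/-- **The strong Russo-Seymour-Welsh property.** -/
theorem srsw_of_vr (hQ : 0 < Q) (hQ1 : Q ≤ 1) (hV : VR Q) : H192.Q.SRSW Q := by
  obtain ⟨κ, hκ, hκ1, hH, hV'⟩ := hV.ge hQ hQ1 4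
  refine ⟨2, κ * κ * κ, le_rfl, by positivity, fun b r hr => ?_⟩
  have h := ha_le (Q := Q) (a := b.1 - 2 * r) (a' := b.1 - r) (e' := b.1 + r) (e := b.1 + 2 * r)
    (c := b.2) (m := b.2 + r) (d := b.2 + 2 * r) hQ hQ1 (by omega) (by omega) (by omega)
    (by omega) (by omega) (D := dF b r (2 * r)) (fun v => by rw [mem_dF]; rfl) hκ.le
    (hH _ _ _ _ (by omega) (by push_cast; omega)).1 (hV' _ _ _ _ (by omega) (by push_cast; omega)).1
    (hV' _ _ _ _ (by omega) (by push_cast; omega)).1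
  rw [H192.Q.pX, H192.Q.etac_false]
  set G : Set Cfg := {ω | ∀ y y' : ℤ × ℤ, Odd (y.1 + y.2) →
      (b.1 - r ≤ y.1 ∧ y.1 ≤ b.1 + r ∧ b.2 ≤ y.2 ∧ y.2 ≤ b.2 + r) →
      ReflTransGen (PStep ((op ω)ᶜ ∩ ↑(dF b r (2 * r)))) y y' →
      ¬ (y'.1 ≤ b.1 - 2 * r ∨ b.1 + 2 * r ≤ y'.1 ∨ b.2 + 2 * r ≤ y'.2)} with hG
  have h1 : Xc false b r (2 * r) ⊆ Gᶜ := by
    rintro ω ⟨y, y', hy, hp, hyr, hyy, hyR⟩ hωG
    have hy1 : b.1 - 2 * r ≤ y.1 ∧ y.1 ≤ b.1 + 2 * r ∧ b.2 ≤ y.2 ∧ y.2 ≤ b.2 + 2 * r ∧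
        (y.1 ≤ b.1 - r ∨ b.1 + r ≤ y.1 ∨ b.2 + r ≤ y.2) := hy
    have hyr' : |y.1 - b.1| ≤ r ∧ |y.2 - b.2| ≤ r := by
      have := hyr
      unfold nm at this
      exact max_le_iff.1 this
    have hyR' : 2 * r ≤ |y'.1 - b.1| ∨ 2 * r ≤ |y'.2 - b.2| := by
      have := hyR
      unfold nm at this
      exact le_max_iff.1 this
    rw [abs_le, abs_le] at hyr'
    have hyo : Odd (y.1 + y.2) := by
      rw [Int.odd_iff]
      exact hp
    have hyy' : ReflTransGen (PStep ((op ω)ᶜ ∩ ↑(dF b r (2 * r)))) y y' := by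
      refine ReflTransGen.mono (fun u v huv => ⟨huv.1, huv.2.1, ?_, ?_⟩) _ _ hyy
      · have h2 : ω (min u.1 v.1, min u.2 v.2) = false := huv.2.2.1
        show ¬ ω _ = true
        rw [h2]
        exact Bool.false_ne_true
      · exact Finset.mem_coe.2 (mem_dF.2 huv.2.2.2)
    have hb : b.2 ≤ y'.2 := by
      clear hyR' hyR hωG
      induction hyy' with
      | refl => exact hy1.2.2.1
      | @tail u v _ huv _ =>
        have h2 := mem_dF.1 (Finset.mem_coe.1 huv.2.2.2)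
        have h3 : b.2 ≤ min u.2 v.2 := h2.2.2.1
        exact h3.trans (min_le_right _ _)
    refine hωG y y' hyo ⟨by omega, by omega, by omega, by omega⟩ hyy' ?_
    rcases hyR' with h2 | h2
    · rcases le_abs.1 h2 with h3 | h3
      · exact Or.inr (Or.inl (by omega))
      · exact Or.inl (by omega)
    · rcases le_abs.1 h2 with h3 | h3
      · exact Or.inr (Or.inr (by omega))
      · omega
  have h2 := FKA.Pr_mono (Q := Q) (D := dF b r (2 * r)) (η := eta0) hQ h1
  rw [FKA.Pr_compl hQ] at h2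
  linarith

end Vale.Agent.P167.H816
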