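import Vale.Agent.P167.H816.Graph

/-!
# P167: the comparison T1 for `q ≤ 1`, arbitrary exterior relation

`t1_cap`: with the points of `W` identified, the probability that `T` and `W` are not joined is the
probability that a random set, whose law does not depend on `W`, misses `W`. `t1_by`: the same with the
points of `T` and of a further set `B` identified with those of `W`, for the connections which do not
use this identification.
-/

set_option autoImplicit false
set_option linter.unusedSectionVars false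

namespace Vale.Agent.P167.H816

open Finset Vale.Agent.P167.H623 Vale.Agent.P167.H92

variable {X ι : Type*} [DecidableEq ι] (a b : ι → X) (w : ι → ℝ) (q : ℝ) (D : Finset ι)

open Classical in
/-- The probability. -/
noncomputable def GP (r : Setoid X) (A : Finset ι → Prop) : ℝ :=
  GE a b w q D r fun S => if A S then 1 else 0

variable {w q}

theorem GP_congr {r r' : Setoid X} (hq : 0 < q)
    (h : ∀ x ∈ ends a b D, ∀ y ∈ ends a b D, (r x y ↔ r' x y)) {A A' : Finset ι → Prop}
    (hA : ∀ S ⊆ D, (A S ↔ A' S)) : GP a b w q D r A = GP a b w q D r' A' := by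
  classical
  refine GE_congr hq h fun S hS => ?_
  by_cases h1 : A S
  · rw [if_pos h1, if_pos ((hA S hS).1 h1)]
  · rw [if_neg h1, if_neg fun h2 => h1 ((hA S hS).2 h2)]

theorem GP_nonneg {r : Setoid X} (hw : ∀ e, 0 ≤ w e) (hq : 0 < q) (A : Finset ι → Prop) :
    0 ≤ GP a b w q D r A := by
  classical
  rw [← GE_const (a := a) (b := b) (D := D) (r := r) hw hq 0]
  refine GE_mono hw hq fun S _ => ?_
  split_ifs
  · exact zero_le_one
  · exact le_rfl

theorem GP_mono {r : Setoid X} (hw : ∀ e, 0 ≤ w e) (hq : 0 < q) {A A' : Finset ι → Prop}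
    (h : ∀ S ⊆ D, A S → A' S) : GP a b w q D r A ≤ GP a b w q D r A' := by
  classical
  refine GE_mono hw hq fun S hS => ?_
  by_cases h1 : A S
  · rw [if_pos h1, if_pos (h S hS h1)]
  · rw [if_neg h1]
    split_ifs
    · exact zero_le_one
    · exact le_rfl

theorem GP_false {r : Setoid X} {A : Finset ι → Prop} (h : ∀ S ⊆ D, ¬ A S) :
    GP a b w q D r A = 0 := by
  classical
  rw [GP, GE, sum_eq_zero fun S hS => ?_, zero_div]
  rw [if_neg (h S (mem_powerset.1 hS)), mul_zero]

theorem GP_true {r : Setoid X} (hw : ∀ e, 0 ≤ w e) (hq : 0 < q) {A : Finset ι → Prop}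
    (h : ∀ S ⊆ D, A S) : GP a b w q D r A = 1 := by
  classical
  rw [← GE_const (a := a) (b := b) (D := D) (r := r) hw hq 1, GP]
  refine GE_congr hq (fun x _ y _ => Iff.rfl) fun S hS => ?_
  rw [if_pos (h S hS)]

theorem GP_graph {Y : Finset X} (r : Setoid X) (hY : ∀ e ∈ D, a e ∈ Y ∧ b e ∈ Y)
    (hw : ∀ e, 0 ≤ w e) (hq : 0 < q) (W : Set X) (A : Finset ι → Prop) :
    GP a b w q D (r ⊔ wir W) A = prob (gA a b D r hY) (gB a b D r hY) (pw D w) q (gW Y r W)
      (fun ω => A (gS D ω)) := by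
  classical
  rw [GP, GE_graph a b w q D r hY hw hq, prob]
  congr 1
  rw [sum_filter]
  refine sum_congr rfl fun ω _ => ?_
  split_ifs
  · rw [mul_one]
  · rw [mul_zero]

/-! ### Connections between sets -/

/-- `T` and `W` are not joined. -/
def Sep (r : Setoid X) (T W : Set X) (S : Finset ι) : Prop :=
  ∀ t ∈ T, ∀ x ∈ W, ¬ con a b r S t x

theorem sep_wir (r : Setoid X) (T W : Set X) (S : Finset ι) :
    Sep a b (r ⊔ wir W) T W S ↔ Sep a b r T W S := by
  constructor
  · intro h t ht x hx hc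
    refine h t ht x hx ?_
    exact con_mono a b le_sup_left (Subset.refl S) hc
  · intro h t ht x hx hc
    rw [con_sup_wir] at hc
    rcases (sup_wir_iff _ _ _ _).1 hc with hc | ⟨⟨u, hu, hc⟩, -⟩
    · exact h t ht x hx hc
    · exact h t ht u hu hc

/-- Connections between any two points. -/
theorem con_exists₂ {Y : Finset X} {r : Setoid X} {S : Finset ι}
    (hS : ∀ e ∈ S, a e ∈ Y ∧ b e ∈ Y) {t x : X} (h : con a b r S t x) :
    r t x ∨ ∃ y ∈ Y, ∃ y' ∈ Y, r t y ∧ con a b r S y y' ∧ r y' x := by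
  induction S using Finset.induction_on generalizing t x with
  | empty =>
    rw [con_empty] at h
    exact Or.inl h
  | insert e S _ ih =>
    have ih' := fun {t x : X} => ih (fun e' he' => hS e' (mem_insert_of_mem he')) (t := t) (x := x)
    obtain ⟨ha, hb⟩ := hS e (mem_insert_self e S)
    have hm : con a b r S ≤ con a b r (insert e S) := con_mono a b le_rfl (subset_insert e S)
    have hab : con a b r (insert e S) (a e) (b e) := con_edge a b r (mem_insert_self e S)
    rw [con_insert_iff] at h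
    have left : ∀ z ∈ Y, con a b r S t z →
        ∃ y ∈ Y, r t y ∧ con a b r (insert e S) y z := by
      intro z hz h
      rcases ih' h with h | ⟨y, hy, y', -, h1, h2, h3⟩
      · exact ⟨z, hz, h, (con a b r _).refl z⟩
      · exact ⟨y, hy, h1, (con a b r _).trans (hm h2) (le_con a b r _ h3)⟩
    have right : ∀ z ∈ Y, con a b r S z x →
        ∃ y ∈ Y, con a b r (insert e S) z y ∧ r y x := by
      intro z hz h
      rcases ih' h with h | ⟨y, -, y', hy', h1, h2, h3⟩
      · exact ⟨z, hz, (con a b r _).refl z, h⟩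
      · exact ⟨y', hy', (con a b r _).trans (le_con a b r _ h1) (hm h2), h3⟩
    rcases h with h | ⟨h, h'⟩ | ⟨h, h'⟩
    · rcases ih' h with h | ⟨y, hy, y', hy', h1, h2, h3⟩
      · exact Or.inl h
      · exact Or.inr ⟨y, hy, y', hy', h1, hm h2, h3⟩
    · obtain ⟨y, hy, h1, h2⟩ := left _ ha h
      obtain ⟨y', hy', h3, h4⟩ := right _ hb h'
      exact Or.inr ⟨y, hy, y', hy', h1, (con a b r _).trans h2
        ((con a b r _).trans hab h3), h4⟩
    · obtain ⟨y, hy, h1, h2⟩ := left _ hb h
      obtain ⟨y', hy', h3, h4⟩ := right _ ha h'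
      exact Or.inr ⟨y, hy, y', hy', h1, (con a b r _).trans h2
        ((con a b r _).trans ((con a b r _).symm hab) h3), h4⟩

/-- The separation in the graph. -/
theorem miss_iff {Y : Finset X} (r : Setoid X) (hY : ∀ e ∈ D, a e ∈ Y ∧ b e ∈ Y) {T W : Set X}
    (h0 : ∀ t ∈ T, ∀ x ∈ W, ¬ r t x) (ω : Finset D) :
    Miss (gA a b D r hY) (gB a b D r hY) (gW Y r T) (gW Y r W) ω ↔ Sep a b r T W (gS D ω) := by
  have hS : ∀ e ∈ gS D ω, a e ∈ Y ∧ b e ∈ Y := fun e he => hY e (gS_subset D ω he)
  constructor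
  · intro h t ht x hx hc
    rcases con_exists₂ a b hS hc with h1 | ⟨y, hy, y', hy', h1, h2, h3⟩
    · exact h0 t ht x hx h1
    · refine h (gv r y hy) ((mem_gW r hy).2 ⟨t, ht, r.symm h1⟩) (gv r y' hy')
        ((mem_gW r hy').2 ⟨x, hx, h3⟩) ?_
      rw [conn_iff, conf_gv]
      exact h2
  · intro h u hu v hv hc
    obtain ⟨y, hy, rfl⟩ := gv_surj r u
    obtain ⟨y', hy', rfl⟩ := gv_surj r v
    rw [mem_gW] at hu hv
    obtain ⟨t, ht, ht'⟩ := hu
    obtain ⟨x, hx, hx'⟩ := hv
    rw [conn_iff, conf_gv] at hc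
    refine h t ht x hx ?_
    exact (con a b r _).trans (le_con a b r _ (r.symm ht'))
      ((con a b r _).trans hc (le_con a b r _ hx'))

/-- **The capacity**, arbitrary exterior relation. -/
theorem t1_cap (hw : ∀ e, 0 ≤ w e) (hq : 0 < q) (hq1 : q ≤ 1) (r : Setoid X) (T : Set X) :
    ∃ (n : ℕ) (π : Fin n → ℝ) (R : Fin n → Set X), (∀ i, 0 ≤ π i) ∧ ∑ i, π i = 1 ∧
      ∀ W : Set X, GP a b w q D (r ⊔ wir W) (Sep a b r T W) =
        ∑ i, Set.indicator {i | Disjoint (R i) W} π i := by
  classical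
  have hY : ∀ e ∈ D, a e ∈ ends a b D ∧ b e ∈ ends a b D :=
    fun e he => ⟨fst_mem_ends a b D he, snd_mem_ends a b D he⟩
  obtain ⟨π, h0, h1, h2⟩ := capacity (gA a b D r hY) (gB a b D r hY) (pw_mem D hw) hq hq1
    (gW (ends a b D) r T)
  set φ := Fintype.equivFin (Finset (GV (ends a b D) r)) with hφ
  set RR : Finset (GV (ends a b D) r) → Set X :=
    fun A => {x | (∃ y, ∃ hy : y ∈ ends a b D, gv r y hy ∈ A ∧ r y x) ∨ ∃ t ∈ T, r t x} with hRR
  suffices h : ∀ W : Set X, GP a b w q D (r ⊔ wir W) (Sep a b r T W) =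
      ∑ i, Set.indicator {i | Disjoint (RR i) W} π i by
    refine ⟨_, fun i => π (φ.symm i), fun i => RR (φ.symm i), fun i => h0 _, ?_, fun W => ?_⟩
    · rw [← h1]
      exact Equiv.sum_comp φ.symm π
    · rw [h W, ← Equiv.sum_comp φ.symm]
      rfl
  intro W
  by_cases h3 : ∃ t ∈ T, ∃ x ∈ W, r t x
  · obtain ⟨t, ht, x, hx, htx⟩ := h3
    rw [GP_false a b D fun S _ hS => hS t ht x hx (le_con a b r S htx)]
    symm
    refine sum_eq_zero fun A _ => Set.indicator_of_notMem (fun h => ?_) π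
    exact Set.disjoint_left.1 h (Or.inr ⟨t, ht, htx⟩) hx
  · push Not at h3
    rw [GP_graph a b D r hY hw hq, ← sum_filter_add_sum_filter_not univ
      (fun A => Disjoint A (gW (ends a b D) r W)), sum_congr rfl (g := π), ← h2, add_eq_left.2]
    · rw [prob, prob]
      congr 1
      refine sum_congr (filter_congr fun ω _ => ?_) fun _ _ => rfl
      exact (miss_iff a b D r hY h3 ω).symm
    · refine sum_eq_zero fun A hA => Set.indicator_of_notMem (fun h => ?_) π
      rw [mem_filter, not_disjoint_iff] at hA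
      obtain ⟨-, v, hv, hv'⟩ := hA
      obtain ⟨y, hy, rfl⟩ := gv_surj r v
      obtain ⟨z, hz, hz'⟩ := (mem_gW r hy).1 hv'
      exact Set.disjoint_left.1 h (Or.inl ⟨y, hy, hv, hz'⟩) hz
    · intro A hA
      rw [mem_filter, disjoint_left] at hA
      refine Set.indicator_of_mem ?_ π
      refine Set.disjoint_left.2 ?_
      rintro x (⟨y, hy, hy', hyx⟩ | ⟨t, ht, htx⟩) hx
      · exact hA.2 hy' ((mem_gW r hy).2 ⟨x, hx, hyx⟩)
      · exact h3 t ht x hx htx

/-- **T1**: the probability that `T` and the wired set `W` are not joined decreases with `W`. -/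
theorem t1 (hw : ∀ e, 0 ≤ w e) (hq : 0 < q) (hq1 : q ≤ 1) (r : Setoid X) (T : Set X)
    {W W' : Set X} (h : W ⊆ W') : GP a b w q D (r ⊔ wir W') (Sep a b r T W') ≤
      GP a b w q D (r ⊔ wir W) (Sep a b r T W) := by
  obtain ⟨n, π, R, h0, -, h2⟩ := t1_cap a b D hw hq hq1 r T
  rw [h2, h2]
  refine sum_le_sum fun i _ => ?_
  refine Set.indicator_le_indicator_of_subset (fun i hi => ?_) h0 i
  exact Set.disjoint_of_subset_right h hi

/-- **Subadditivity**. -/
theorem t1_sub (hw : ∀ e, 0 ≤ w e) (hq : 0 < q) (hq1 : q ≤ 1) (r : Setoid X) (T W W' : Set X) :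
    1 - GP a b w q D (r ⊔ wir (W ∪ W')) (Sep a b r T (W ∪ W')) ≤
      (1 - GP a b w q D (r ⊔ wir W) (Sep a b r T W)) +
        (1 - GP a b w q D (r ⊔ wir W') (Sep a b r T W')) := by
  obtain ⟨n, π, R, h0, h1, h2⟩ := t1_cap a b D hw hq hq1 r T
  rw [h2, h2, h2]
  have key : ∑ i, Set.indicator {i | Disjoint (R i) W} π i +
      ∑ i, Set.indicator {i | Disjoint (R i) W'} π i ≤
      ∑ i, π i + ∑ i, Set.indicator {i | Disjoint (R i) (W ∪ W')} π i := by
    rw [← sum_add_distrib, ← sum_add_distrib]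
    refine sum_le_sum fun i _ => ?_
    classical
    have hd : Disjoint (R i) (W ∪ W') ↔ Disjoint (R i) W ∧ Disjoint (R i) W' :=
      Set.disjoint_union_right
    simp only [Set.indicator_apply, Set.mem_ofPred_eq, hd]
    have := h0 i
    split_ifs <;> first | linarith | tauto
  linarith

end Vale.Agent.P167.H816
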