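import Vale.Agent.P167.H816.Bank
import Vale.Agent.P167.H661.Full

/-!
# P167: wired bystanders and wired targets, `q ≤ 1`, arbitrary exterior relation

* `by_cap`, `t1_by`: with the points of `W ∪ T ∪ B` identified, the probability that `T` and `W` are
  not joined (without the identification) decreases with `W`;
* `bm`: the probability that `T` and `W` are joined decreases when the points of `W` are identified.
-/

set_option autoImplicit false
set_option linter.unusedSectionVars false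

namespace Vale.Agent.P167.H816

open Finset Vale.Agent.P167.H623 Vale.Agent.P167.H92

variable {X ι : Type*} [DecidableEq ι] (a b : ι → X) {w : ι → ℝ} {q : ℝ} (D : Finset ι)

theorem gW_union {Y : Finset X} (r : Setoid X) (W W' : Set X) :
    gW Y r (W ∪ W') = gW Y r W ∪ gW Y r W' := by
  ext v
  obtain ⟨y, hy, rfl⟩ := gv_surj r v
  rw [mem_union, mem_gW, mem_gW, mem_gW]
  constructor
  · rintro ⟨z, hz | hz, h⟩
    · exact Or.inl ⟨z, hz, h⟩
    · exact Or.inr ⟨z, hz, h⟩
  · rintro (⟨z, hz, h⟩ | ⟨z, hz, h⟩)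
    · exact ⟨z, Or.inl hz, h⟩
    · exact ⟨z, Or.inr hz, h⟩

/-- **The capacity with a wired target and wired bystanders.** -/
theorem by_cap (hw : ∀ e, 0 ≤ w e) (hq : 0 < q) (hq1 : q ≤ 1) (r : Setoid X) (T B : Set X) :
    ∃ (n : ℕ) (π : Fin n → ℝ) (R : Fin n → Set X), (∀ i, 0 ≤ π i) ∧ ∑ i, π i = 1 ∧
      ∀ W : Set X, GP a b w q D (r ⊔ wir (W ∪ T ∪ B)) (Sep a b r T W) =
        ∑ i, Set.indicator {i | Disjoint (R i) W} π i := by
  classical
  have hY : ∀ e ∈ D, a e ∈ ends a b D ∧ b e ∈ ends a b D :=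
    fun e he => ⟨fst_mem_ends a b D he, snd_mem_ends a b D he⟩
  obtain ⟨π, h0, h1, h2⟩ := capacity3 (gA a b D r hY) (gB a b D r hY) (pw_mem D hw) hq hq1
    (gW (ends a b D) r T) (gW (ends a b D) r B)
  set φ := Fintype.equivFin (Finset (GV (ends a b D) r)) with hφ
  set RR : Finset (GV (ends a b D) r) → Set X :=
    fun A => {x | (∃ y, ∃ hy : y ∈ ends a b D, gv r y hy ∈ A ∧ r y x) ∨ ∃ t ∈ T, r t x} with hRR
  suffices h : ∀ W : Set X, GP a b w q D (r ⊔ wir (W ∪ T ∪ B)) (Sep a b r T W) =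
      ∑ i, Set.indicator {i | Disjoint (RR i) W} π i by
    refine ⟨_, fun i => π (φ.symm i), fun i => RR (φ.symm i), fun i => h0 _, ?_, fun W => ?_⟩
    · rw [← h1]
      exact Equiv.sum_comp φ.symm π
    · rw [h W, ← Equiv.sum_comp φ.symm]
      rfl
  intro W
  by_cases h3 : ∃ t ∈ T, ∃ x ∈ W, r t x
  · obtain ⟨t, ht, x, hx, htx⟩ := h3
    rw [GP_false a b D fun S _ hS => hS t ht x hx (le_con a b r S htx)]
    symm
    refine sum_eq_zero fun A _ => Set.indicator_of_notMem (fun h => ?_) π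
    exact Set.disjoint_left.1 h (Or.inr ⟨t, ht, htx⟩) hx
  · push Not at h3
    rw [GP_graph a b D r hY hw hq, ← sum_filter_add_sum_filter_not univ
      (fun A => Disjoint A (gW (ends a b D) r W)), sum_congr rfl (g := π), ← h2, add_eq_left.2]
    · rw [gW_union, gW_union, prob, prob]
      congr 1
      refine sum_congr (filter_congr fun ω _ => ?_) fun _ _ => rfl
      exact (miss_iff a b D r hY h3 ω).symm
    · refine sum_eq_zero fun A hA => Set.indicator_of_notMem (fun h => ?_) π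
      rw [mem_filter, not_disjoint_iff] at hA
      obtain ⟨-, v, hv, hv'⟩ := hA
      obtain ⟨y, hy, rfl⟩ := gv_surj r v
      obtain ⟨z, hz, hz'⟩ := (mem_gW r hy).1 hv'
      exact Set.disjoint_left.1 h (Or.inl ⟨y, hy, hv, hz'⟩) hz
    · intro A hA
      rw [mem_filter, disjoint_left] at hA
      refine Set.indicator_of_mem ?_ π
      refine Set.disjoint_left.2 ?_
      rintro x (⟨y, hy, hy', hyx⟩ | ⟨t, ht, htx⟩) hx
      · exact hA.2 hy' ((mem_gW r hy).2 ⟨x, hx, hyx⟩)
      · exact h3 t ht x hx htx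

/-- **T1 with wired target and wired bystanders.** -/
theorem t1_by (hw : ∀ e, 0 ≤ w e) (hq : 0 < q) (hq1 : q ≤ 1) (r : Setoid X) (T B : Set X)
    {W W' : Set X} (h : W ⊆ W') :
    GP a b w q D (r ⊔ wir (W' ∪ T ∪ B)) (Sep a b r T W') ≤
      GP a b w q D (r ⊔ wir (W ∪ T ∪ B)) (Sep a b r T W) := by
  obtain ⟨n, π, R, h0, -, h2⟩ := by_cap a b D hw hq hq1 r T B
  rw [h2, h2]
  refine sum_le_sum fun i _ => ?_
  refine Set.indicator_le_indicator_of_subset (fun i hi => ?_) h0 i
  exact Set.disjoint_of_subset_right h hi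

/-- Subadditivity, wired target and bystanders. -/
theorem t1_by_sub (hw : ∀ e, 0 ≤ w e) (hq : 0 < q) (hq1 : q ≤ 1) (r : Setoid X) (T B W W' : Set X) :
    1 - GP a b w q D (r ⊔ wir (W ∪ W' ∪ T ∪ B)) (Sep a b r T (W ∪ W')) ≤
      (1 - GP a b w q D (r ⊔ wir (W ∪ T ∪ B)) (Sep a b r T W)) +
        (1 - GP a b w q D (r ⊔ wir (W' ∪ T ∪ B)) (Sep a b r T W')) := by
  obtain ⟨n, π, R, h0, h1, h2⟩ := by_cap a b D hw hq hq1 r T B
  rw [h2, h2, h2]
  have key : ∑ i, Set.indicator {i | Disjoint (R i) W} π i +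
      ∑ i, Set.indicator {i | Disjoint (R i) W'} π i ≤
      ∑ i, π i + ∑ i, Set.indicator {i | Disjoint (R i) (W ∪ W')} π i := by
    rw [← sum_add_distrib, ← sum_add_distrib]
    refine sum_le_sum fun i _ => ?_
    classical
    have hd : Disjoint (R i) (W ∪ W') ↔ Disjoint (R i) W ∧ Disjoint (R i) W' :=
      Set.disjoint_union_right
    simp only [Set.indicator_apply, Set.mem_ofPred_eq, hd]
    have := h0 i
    split_ifs <;> first | linarith | tauto
  linarith

/-! ### The sums `ZS` of `H661` -/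

section zs

variable [DecidableEq X] (w q) {Y : Finset X} (r : Setoid X) (hY : ∀ e ∈ D, a e ∈ Y ∧ b e ∈ Y)

/-- The first end. -/
def yA (e : D) : Y := ⟨a e, (hY e e.2).1⟩

/-- The second end. -/
def yB (e : D) : Y := ⟨b e, (hY e e.2).2⟩

theorem conf_y (ω : Finset D) (x y : Y) :
    (conf (yA a b D hY) (yB a b D hY) ω ⊔ r.comap (Subtype.val : Y → X)) x y ↔
      con a b r (gS D ω) x y := by
  induction ω using Finset.induction_on generalizing x y with
  | empty =>
    have h1 : conf (yA a b D hY) (yB a b D hY) ∅ = ⊥ := rfl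
    have h2 : gS D (∅ : Finset D) = ∅ := rfl
    rw [h1, h2, con_empty, bot_sup_eq]
    exact Iff.rfl
  | insert e ω _ ih =>
    have h1 := conf_insert_sup (yA a b D hY) (yB a b D hY) (r.comap (Subtype.val : Y → X)) e ω
    rw [h1, gS_insert, con_insert_iff, sup_join]
    exact or_congr (ih x y) (or_congr (and_congr (ih x _) (ih _ y))
      (and_congr (ih x _) (ih _ y)))

/-- The weight of `H661`. -/
noncomputable def zw (S : Finset ι) : ℝ :=
  (∏ e ∈ S.subtype (· ∈ D), w (e : ι)) *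
    q ^ (classes (conf (yA a b D hY) (yB a b D hY) (S.subtype (· ∈ D)) ⊔
      r.comap (Subtype.val : Y → X))).card

theorem zw_rec (hq : q ≠ 0) : Rec a b w q D r (zw a b w q D r hY) := by
  classical
  intro S hS e he heS
  have h1 : (insert e S).subtype (· ∈ D) = insert (⟨e, he⟩ : D) (S.subtype (· ∈ D)) := by
    ext x
    rw [mem_subtype, mem_insert, mem_insert, mem_subtype]
    exact or_congr ⟨fun h => Subtype.ext h, fun h => congrArg Subtype.val h⟩ Iff.rfl
  have h2 : (⟨e, he⟩ : D) ∉ S.subtype (· ∈ D) := fun h => heS (mem_subtype.1 h)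
  have h3 : gS D (S.subtype (· ∈ D)) = S := by
    rw [gS, subtype_map, filter_true_of_mem]
    exact fun x hx => hS hx
  have h4 := conf_y a b D r hY (S.subtype (· ∈ D)) (yA a b D hY ⟨e, he⟩) (yB a b D hY ⟨e, he⟩)
  rw [h3] at h4
  rw [zw, zw, h1, prod_insert h2, conf_insert_sup]
  by_cases h5 : con a b r S (a e) (b e)
  · rw [if_pos h5, sup_join_of_rel (h4.2 h5)]
    ring
  · rw [if_neg h5, ← card_classes_join _ (fun h6 => h5 (h4.1 h6)), pow_succ]
    field_simp

theorem GP_ZS (hw : ∀ e, 0 ≤ w e) (hq : 0 < q) (A : Finset ι → Prop) :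
    GP a b w q D r A * H661.ZS (yA a b D hY) (yB a b D hY) (fun e => w e) q
        (r.comap (Subtype.val : Y → X)) (fun _ => True) =
      H661.ZS (yA a b D hY) (yB a b D hY) (fun e => w e) q
        (r.comap (Subtype.val : Y → X)) (fun ω => A (gS D ω)) := by
  classical
  have h0 : zw a b w q D r hY ∅ ≠ 0 := by
    have h1 : (∅ : Finset ι).subtype (· ∈ D) = ∅ := rfl
    rw [zw, h1, prod_empty, one_mul]
    exact pow_ne_zero _ hq.ne'
  have h1 := (zw_rec a b w q D r hY hq.ne').sum_div hq h0 (fun S => if A S then 1 else 0)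
  have h2 : ∀ B : Finset ι → Prop, H661.ZS (yA a b D hY) (yB a b D hY) (fun e => w e) q
      (r.comap (Subtype.val : Y → X)) (fun ω => B (gS D ω)) =
      ∑ S ∈ D.powerset, zw a b w q D r hY S * (if B S then 1 else 0) := by
    intro B
    rw [sum_gS, H661.ZS, sum_filter]
    refine sum_congr rfl fun ω _ => ?_
    rw [zw, subtype_gS]
    split_ifs
    · rw [mul_one]
    · rw [mul_zero]
  have h3 := h2 fun _ => True
  simp only [if_true, mul_one] at h3
  rw [h2 A, h3, GP, ← h1, div_mul_cancel₀]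
  rw [← h3]
  exact (H661.ZS_pos (E := D) _ _ (w := fun e : D => w e) (fun e => hw e) hq _).ne'

end zs

/-- **BM**: identifying the points of `W` decreases the probability that `T` and `W` are joined. -/
theorem bm (hw : ∀ e, 0 ≤ w e) (hq : 0 < q) (hq1 : q ≤ 1) (r : Setoid X) (T W : Set X) :
    GP a b w q D r (Sep a b r T W) ≤ GP a b w q D (r ⊔ wir W) (Sep a b r T W) := by
  classical
  by_cases h3 : ∃ t ∈ T, ∃ x ∈ W, r t x
  · obtain ⟨t, ht, x, hx, htx⟩ := h3
    rw [GP_false a b D fun S _ hS => hS t ht x hx (le_con a b r S htx)]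
    exact GP_nonneg a b D hw hq _
  push Not at h3
  set Y := ends a b D with hYdef
  have hY : ∀ e ∈ D, a e ∈ Y ∧ b e ∈ Y :=
    fun e he => ⟨fst_mem_ends a b D he, snd_mem_ends a b D he⟩
  set ρ := r.comap (Subtype.val : Y → X) with hρ
  set T' : Finset Y := univ.filter fun y => ∃ t ∈ T, r y t with hT'
  set W' : Finset Y := univ.filter fun y => ∃ x ∈ W, r y x with hW'
  have hρW : (r ⊔ wir W).comap (Subtype.val : Y → X) = ρ ⊔ H661.blk W' := by
    ext x y
    have e1 : (ρ ⊔ H661.blk W') x y ↔ ρ x y ∨ (∃ z ∈ W', ρ x z) ∧ ∃ z ∈ W', ρ y z :=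
      H661.sup_blk_iff ρ W' x y
    have e2 : (r ⊔ wir W).comap (Subtype.val : Y → X) x y ↔
        r x y ∨ ((∃ u ∈ W, r x u) ∧ ∃ v ∈ W, r y v) := sup_wir_iff r W x y
    have e3 : ∀ x : Y, (∃ z ∈ W', ρ x z) ↔ ∃ u ∈ W, r x u := by
      intro x
      constructor
      · rintro ⟨z, hz, h⟩
        obtain ⟨u, hu, hu'⟩ := (mem_filter.1 hz).2
        exact ⟨u, hu, r.trans h hu'⟩
      · rintro ⟨u, hu, h⟩
        exact ⟨x, mem_filter.2 ⟨mem_univ _, u, hu, h⟩, r.refl _⟩
    refine e2.trans (Iff.trans ?_ e1.symm)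
    rw [e3, e3]
    exact Iff.rfl
  have hev : ∀ ω : Finset D, (∀ x ∈ T', ∀ y ∈ W',
      ¬ (conf (yA a b D hY) (yB a b D hY) ω ⊔ ρ) x y) ↔ Sep a b r T W (gS D ω) := by
    intro ω
    have hS : ∀ e ∈ gS D ω, a e ∈ Y ∧ b e ∈ Y := fun e he => hY e (gS_subset D ω he)
    constructor
    · intro h t ht x hx hc
      rcases con_exists₂ a b hS hc with h1 | ⟨y, hy, y', hy', h1, h2, h4⟩
      · exact h3 t ht x hx h1
      · refine h ⟨y, hy⟩ (mem_filter.2 ⟨mem_univ _, t, ht, r.symm h1⟩) ⟨y', hy'⟩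
          (mem_filter.2 ⟨mem_univ _, x, hx, h4⟩) ?_
        exact (conf_y a b D r hY ω _ _).2 h2
    · intro h x hx y hy hc
      obtain ⟨t, ht, ht'⟩ := (mem_filter.1 hx).2
      obtain ⟨u, hu, hu'⟩ := (mem_filter.1 hy).2
      refine h t ht u hu ?_
      exact (con a b r _).trans (le_con a b r _ (r.symm ht'))
        ((con a b r _).trans ((conf_y a b D r hY ω _ _).1 hc) (le_con a b r _ hu'))
  have h := H661.wire_le (yA a b D hY) (yB a b D hY) (w := fun e => w e) (fun e => hw e) hq hq1 ρ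
    T' W'
  rw [H661.ZS_congr _ _ hev, H661.ZS_congr _ _ hev] at h
  have g1 := GP_ZS a b w q D r hY hw hq (Sep a b r T W)
  have g2 := GP_ZS a b w q D (r ⊔ wir W) hY hw hq (Sep a b r T W)
  rw [hρW] at g2
  rw [← g1, ← g2] at h
  have p1 : 0 < H661.ZS (yA a b D hY) (yB a b D hY) (fun e => w e) q ρ (fun _ => True) :=
    H661.ZS_pos (E := D) _ _ (w := fun e : D => w e) (fun e => hw e) hq ρ
  have p2 : 0 < H661.ZS (yA a b D hY) (yB a b D hY) (fun e => w e) q (ρ ⊔ H661.blk W')
      (fun _ => True) :=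
    H661.ZS_pos (E := D) _ _ (w := fun e : D => w e) (fun e => hw e) hq _
  nlinarith [mul_pos p1 p2]

end Vale.Agent.P167.H816
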